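import Vale.Agent.P016.ZDefs
import Vale.Agent.P026.Count

/-! Crude counting of ideals and absolute convergence far to the right. -/

namespace Vale.Agent.P016

open Complex NumberField IsDedekindDomain MeasureTheory Filter
open scoped Classical ComplexConjugate nonZeroDivisors
open Vale.Agent.P026 (w)

variable {F : Type} [Field F] [NumberField F]

instance : Countable (Ideal (𝓞 F)) := by
  have h : (Set.univ : Set (Ideal (𝓞 F))) = ⋃ n : ℕ, {I | Ideal.absNorm I = n} := by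
    ext I
    simp
  rw [← Set.countable_univ_iff, h]
  exact Set.countable_iUnion fun n => (Ideal.finite_setOfPred_absNorm_eq n).countable
instance : Countable (PP F) :=
  Function.Injective.countable (f := fun P : PP F => P.asIdeal)
    fun _ _ h => HeightOneSpectrum.ext h
theorem one_le_dg : 1 ≤ dg F := Module.finrank_pos
theorem cnt_log_nonneg : 0 ≤ Real.log (NumberField.discr F).natAbs := Real.log_natCast_nonneg _
theorem dg_le_sz : (dg F : ℝ) ≤ sz F := by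
  have := cnt_log_nonneg (F := F)
  unfold sz
  linarith
theorem one_le_sz : 1 ≤ sz F := by
  have := cnt_log_nonneg (F := F)
  have : (0 : ℝ) ≤ dg F := Nat.cast_nonneg _
  unfold sz
  linarith
theorem log_discr_le_sz : Real.log (NumberField.discr F).natAbs ≤ sz F := by
  have : (0 : ℝ) ≤ dg F := Nat.cast_nonneg _
  unfold sz
  linarith
theorem nm_nonneg (I : Ideal (𝓞 F)) : 0 ≤ nm I := Nat.cast_nonneg _
theorem nm_bot : nm (⊥ : Ideal (𝓞 F)) = 0 := by
  simp [nm]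
theorem nm_top : nm (⊤ : Ideal (𝓞 F)) = 1 := by
  simp [nm]
theorem nm_mul (I J : Ideal (𝓞 F)) : nm (I * J) = nm I * nm J := by
  simp [nm]
theorem nm_pow (I : Ideal (𝓞 F)) (k : ℕ) : nm (I ^ k) = nm I ^ k := by
  simp [nm]
theorem one_le_nm {I : Ideal (𝓞 F)} (h : I ≠ ⊥) : 1 ≤ nm I := by
  unfold nm
  exact_mod_cast Nat.one_le_iff_ne_zero.2 fun h0 => h (Ideal.absNorm_eq_zero_iff.1 h0)
theorem two_le_nm (P : PP F) : 2 ≤ nm P.asIdeal := by
  have h0 : Ideal.absNorm P.asIdeal ≠ 0 := fun h => P.ne_bot (Ideal.absNorm_eq_zero_iff.1 h)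
  have h1 : Ideal.absNorm P.asIdeal ≠ 1 := fun h =>
    P.isPrime.ne_top (Ideal.absNorm_eq_one_iff.1 h)
  have h2 : 2 ≤ Ideal.absNorm P.asIdeal := by omega
  unfold nm
  exact_mod_cast h2
theorem nm_span_nat (m : ℕ) : nm (Ideal.span {(m : 𝓞 F)}) = (m : ℝ) ^ dg F := by
  unfold nm
  rw [Ideal.absNorm_span_natCast, RingOfIntegers.rank, Nat.cast_pow]
theorem CM.pow {f : Ideal (𝓞 F) → ℂ} (hf : CM f) (I : Ideal (𝓞 F)) (k : ℕ) :
    f (I ^ k) = f I ^ k := by
  induction k with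
  | zero => rw [pow_zero, pow_zero, Ideal.one_eq_top, hf.top]
  | succ k ih => rw [pow_succ, pow_succ, hf.mul, ih]
theorem CM.mul' {f g : Ideal (𝓞 F) → ℂ} (hf : CM f) (hg : CM g) : CM fun I => f I * g I :=   ⟨by rw [hf.bot, zero_mul], by rw [hf.top, hg.top, mul_one],
    fun I J => by rw [hf.mul, hg.mul]; ring,
    fun I => by rw [norm_mul]; exact mul_le_one₀ (hf.le I) (norm_nonneg _) (hg.le I)⟩
theorem cm_on1 : CM (on1 (F := F)) := by
  refine ⟨if_pos rfl, if_neg top_ne_bot, fun I J => ?_, fun I => ?_⟩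
  · unfold on1
    by_cases hI : I = ⊥ <;> by_cases hJ : J = ⊥ <;> simp [hI, hJ, Ideal.mul_eq_bot]
  · unfold on1
    split_ifs <;> simp
theorem cm_tw {q : ℕ} (χ : DirichletCharacter ℂ q) : CM (tw (F := F) χ) := by
  refine ⟨if_pos rfl, ?_, fun I J => ?_, fun I => ?_⟩
  · unfold tw
    rw [if_neg top_ne_bot]
    simp
  · unfold tw
    by_cases hI : I = ⊥ <;> by_cases hJ : J = ⊥ <;> simp [hI, hJ, Ideal.mul_eq_bot]
  · unfold tw
    split_ifs
    · simp
    · exact χ.norm_le_one _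
theorem cm_cpM (M : ℕ) : CM (cpM (F := F) M) := by
  have ht : IsCoprime (⊤ : Ideal (𝓞 F)) (Ideal.span {(M : 𝓞 F)}) := by
    rw [← Ideal.one_eq_top]
    exact isCoprime_one_left
  refine ⟨if_neg fun h => h.1 rfl, if_pos ⟨top_ne_bot, ht⟩, fun I J => ?_, fun I => ?_⟩
  · unfold cpM
    have e : (I * J ≠ ⊥ ∧ IsCoprime (I * J) (Ideal.span {(M : 𝓞 F)})) ↔
        (I ≠ ⊥ ∧ IsCoprime I (Ideal.span {(M : 𝓞 F)})) ∧
          (J ≠ ⊥ ∧ IsCoprime J (Ideal.span {(M : 𝓞 F)})) := by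
      rw [IsCoprime.mul_left_iff, Ne, Ideal.mul_eq_bot]
      tauto
    by_cases hI : I ≠ ⊥ ∧ IsCoprime I (Ideal.span {(M : 𝓞 F)})
    · by_cases hJ : J ≠ ⊥ ∧ IsCoprime J (Ideal.span {(M : 𝓞 F)})
      · rw [if_pos hI, if_pos hJ, if_pos (e.2 ⟨hI, hJ⟩), mul_one]
      · rw [if_neg hJ, if_neg fun h => hJ (e.1 h).2, mul_zero]
    · rw [if_neg hI, if_neg fun h => hI (e.1 h).1, zero_mul]
  · unfold cpM
    split_ifs <;> simp
theorem tw_one : tw (F := F) (1 : DirichletCharacter ℂ 1) = on1 := by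
  funext I
  unfold tw on1
  split_ifs
  · rfl
  · exact MulChar.one_apply (isUnit_of_subsingleton _)
theorem cpM_mul_on1 (M : ℕ) : (fun I : Ideal (𝓞 F) => cpM M I * on1 I) = cpM M := by
  funext I
  unfold on1
  split_ifs with h
  · rw [h, (cm_cpM M).bot, zero_mul]
  · rw [mul_one]
theorem cpM_prime (M : ℕ) (P : PP F) :
    cpM M P.asIdeal = if (M : 𝓞 F) ∈ P.asIdeal then 0 else 1 := by
  unfold cpM
  by_cases h : (M : 𝓞 F) ∈ P.asIdeal
  · rw [if_pos h, if_neg]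
    rintro ⟨-, h1⟩
    rw [Ideal.isCoprime_iff_sup_eq, sup_eq_left.2 ((Ideal.span_singleton_le_iff_mem _).2 h)] at h1
    exact P.isPrime.ne_top h1
  · rw [if_neg h, if_pos]
    refine ⟨P.ne_bot, Ideal.isCoprime_iff_sup_eq.2 ?_⟩
    refine P.isMaximal.out.2 _ (lt_of_le_of_ne le_sup_left fun h1 => h ?_)
    rw [h1]
    exact Ideal.mem_sup_right (Ideal.mem_span_singleton_self _)
theorem finite_bad {M : ℕ} (hM : M ≠ 0) : {P : PP F | (M : 𝓞 F) ∈ P.asIdeal}.Finite := by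
  have h0 : Ideal.span {(M : 𝓞 F)} ≠ 0 := by
    rw [Ne, Ideal.zero_eq_bot, Ideal.span_singleton_eq_bot]
    exact_mod_cast hM
  refine (Ideal.finite_factors h0).subset fun P hP => ?_
  exact Ideal.dvd_span_singleton.2 hP
/-- An ideal of norm m is generated by m and one more element. -/
theorem card_norm_le {m : ℕ} (hm : m ≠ 0) (s : Finset (Ideal (𝓞 F)))
    (hs : ∀ I ∈ s, Ideal.absNorm I = m) : s.card ≤ m ^ dg F := by
  have hm' : (m : 𝓞 F) ≠ 0 := by exact_mod_cast hm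
  have h0 : Ideal.span {(m : 𝓞 F)} ≠ ⊥ := by
    rw [Ne, Ideal.span_singleton_eq_bot]
    exact hm'
  have : Finite (𝓞 F ⧸ Ideal.span {(m : 𝓞 F)}) := Ideal.finiteQuotientOfFreeOfNeBot _ h0
  have hex : ∀ I : s, ∃ y, (I : Ideal (𝓞 F)) = Ideal.span {(m : 𝓞 F), y} := fun I =>
    IsDedekindDomain.exists_eq_span_pair (hs I I.2 ▸ Ideal.absNorm_mem (I : Ideal (𝓞 F))) hm'
  choose y hy using hex
  have hinj : Function.Injective fun I : s => Ideal.Quotient.mk (Ideal.span {(m : 𝓞 F)}) (y I) := by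
    intro I J h
    obtain ⟨a, ha⟩ := Ideal.mem_span_singleton'.1 (Ideal.Quotient.eq.1 h)
    have e : y I = y J + a * m := by rw [ha]; ring
    apply Subtype.ext
    rw [hy I, hy J, e, Ideal.span_pair_add_mul_left]
  have h1 := Nat.card_le_card_of_injective _ hinj
  rw [Nat.card_eq_fintype_card, Fintype.card_coe, ← Submodule.cardQuot_apply, ← Ideal.absNorm_apply,
    Ideal.absNorm_span_natCast, RingOfIntegers.rank] at h1
  exact h1
theorem cnt_sum_le {σ j : ℝ} (hj : 0 < j) (h : (dg F : ℝ) + j ≤ σ) {g : ℕ → ℝ} {c : ℝ}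
    (hg0 : ∀ m, 0 ≤ g m) (hg : HasSum g c) (hle : ∀ m : ℕ, m ≠ 0 → (m : ℝ) ^ (-j) ≤ g m)
    (u : Finset (Ideal (𝓞 F))) : ∑ I ∈ u, nm I ^ (-σ) ≤ c := by
  have hσ : -σ ≠ 0 := by
    have : (0 : ℝ) ≤ dg F := Nat.cast_nonneg _
    linarith
  rw [← Finset.sum_fiberwise_of_maps_to (t := u.image Ideal.absNorm) (g := Ideal.absNorm)
    fun I hI => Finset.mem_image_of_mem _ hI]
  refine le_trans (Finset.sum_le_sum fun m _ => ?_) (sum_le_hasSum _ (fun m _ => hg0 m) hg)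
  have e : ∑ I ∈ u with Ideal.absNorm I = m, nm I ^ (-σ) =
      (u.filter fun I => Ideal.absNorm I = m).card * (m : ℝ) ^ (-σ) := by
    rw [← nsmul_eq_mul, ← Finset.sum_const]
    exact Finset.sum_congr rfl fun I hI => by rw [nm, (Finset.mem_filter.1 hI).2]
  rw [e]
  rcases eq_or_ne m 0 with rfl | hm
  · rw [Nat.cast_zero, Real.zero_rpow hσ, mul_zero]
    exact hg0 0
  · have h1 : (1 : ℝ) ≤ m := by exact_mod_cast Nat.one_le_iff_ne_zero.2 hm
    have h2 : ((u.filter fun I => Ideal.absNorm I = m).card : ℝ) ≤ (m : ℝ) ^ dg F := by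
      exact_mod_cast card_norm_le hm _ fun I hI => (Finset.mem_filter.1 hI).2
    refine (mul_le_mul_of_nonneg_right h2 (by positivity)).trans (le_trans ?_ (hle m hm))
    rw [← Real.rpow_natCast, ← Real.rpow_add (by linarith)]
    exact Real.rpow_le_rpow_of_exponent_le h1 (by linarith)

theorem summable_nm {σ : ℝ} (h : (dg F : ℝ) + 2 ≤ σ) :
    Summable fun I : Ideal (𝓞 F) => nm I ^ (-σ) := by
  refine summable_of_sum_le (fun I => Real.rpow_nonneg (nm_nonneg I) _)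
    (cnt_sum_le two_pos h (fun m => by positivity) hasSum_zeta_two fun m _ => ?_)
  rw [Real.rpow_neg (Nat.cast_nonneg _), Real.rpow_two, one_div]
theorem tsum_nm_le {σ : ℝ} (h : (dg F : ℝ) + 3 ≤ σ) :
    ∑' I : Ideal (𝓞 F), nm I ^ (-σ) ≤ 3 / 2 := by
  have hg : HasSum (fun m : ℕ => (1 / 2 : ℝ) * (1 / (m : ℝ) ^ 2) + if m = 1 then 1 / 2 else 0)
      (1 / 2 * (Real.pi ^ 2 / 6) + 1 / 2) :=
    (hasSum_zeta_two.mul_left _).add (hasSum_ite_eq 1 (1 / 2 : ℝ))
  have hpi : Real.pi ^ 2 ≤ 12 := by nlinarith [Real.pi_lt_d2, Real.pi_pos]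
  refine (Real.tsum_le_of_sum_le (fun I => Real.rpow_nonneg (nm_nonneg I) _)
    (cnt_sum_le three_pos h (fun m => ?_) hg fun m hm => ?_)).trans (by linarith)
  · split_ifs <;> positivity
  · rw [Real.rpow_neg (Nat.cast_nonneg _), show (3 : ℝ) = (3 : ℕ) by norm_num, Real.rpow_natCast]
    split_ifs with h1
    · rw [h1]
      norm_num
    · have h2 : (2 : ℝ) ≤ m := by exact_mod_cast (by omega : 2 ≤ m)
      rw [add_zero, one_div_mul_one_div, one_div]
      exact inv_anti₀ (by positivity) (by nlinarith [sq_nonneg (m : ℝ)])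
theorem cnt_norm_le {f : Ideal (𝓞 F) → ℂ} (hf : CM f) {s : ℂ} (h : (dg F : ℝ) + 2 ≤ s.re)
    (I : Ideal (𝓞 F)) : ‖f I * (nm I : ℂ) ^ (-s)‖ ≤ nm I ^ (-s.re) := by
  have hs : (-s).re ≠ 0 := by
    have : (0 : ℝ) ≤ dg F := Nat.cast_nonneg _
    rw [neg_re]
    linarith
  rw [norm_mul, norm_cpow_eq_rpow_re_of_nonneg (nm_nonneg I) hs, neg_re]
  exact mul_le_of_le_one_left (Real.rpow_nonneg (nm_nonneg I) _) (hf.le I)

theorem summable_zf {f : Ideal (𝓞 F) → ℂ} (hf : CM f) {s : ℂ} (h : (dg F : ℝ) + 2 ≤ s.re) :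
    Summable fun I : Ideal (𝓞 F) => ‖f I * (nm I : ℂ) ^ (-s)‖ :=   Summable.of_nonneg_of_le (fun _ => norm_nonneg _) (cnt_norm_le hf h) (summable_nm h)
theorem zf_sub_one {f : Ideal (𝓞 F) → ℂ} (hf : CM f) {s : ℂ} (h : (dg F : ℝ) + 3 ≤ s.re) :
    ‖zf f s - 1‖ ≤ 1 / 2 := by
  have h2 : (dg F : ℝ) + 2 ≤ s.re := by linarith
  have hs := summable_zf hf h2
  have h3 := tsum_nm_le h
  rw [(summable_nm h2).tsum_eq_add_tsum_ite ⊤, nm_top, Real.one_rpow] at h3
  unfold zf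
  rw [hs.of_norm.tsum_eq_add_tsum_ite ⊤, hf.top, nm_top, ofReal_one, one_cpow, mul_one,
    add_sub_cancel_left]
  have hb : Summable fun I : Ideal (𝓞 F) => if I = ⊤ then 0 else nm I ^ (-s.re) := by
    refine Summable.of_nonneg_of_le (fun I => ?_) (fun I => ?_) (summable_nm h2)
    · split_ifs
      · exact le_rfl
      · exact Real.rpow_nonneg (nm_nonneg I) _
    · split_ifs
      · exact Real.rpow_nonneg (nm_nonneg I) _
      · exact le_rfl
  refine (tsum_of_norm_bounded hb.hasSum fun I => ?_).trans (by linarith)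
  split_ifs
  · exact norm_zero.le
  · exact cnt_norm_le hf h2 I
theorem zf_ne_zero {f : Ideal (𝓞 F) → ℂ} (hf : CM f) {s : ℂ} (h : (dg F : ℝ) + 3 ≤ s.re) :
    zf f s ≠ 0 := fun h0 => by
  have h1 := zf_sub_one hf h
  rw [h0, zero_sub, norm_neg, norm_one] at h1
  norm_num at h1
theorem summable_pp {σ : ℝ} (h : (dg F : ℝ) + 3 ≤ σ) :
    Summable fun x : PP F × ℕ =>
      Real.log (nm x.1.asIdeal) * (nm x.1.asIdeal ^ (x.2 + 1)) ^ (-σ) := by
  have hinj : Function.Injective fun x : PP F × ℕ => x.1.asIdeal ^ (x.2 + 1) := by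
    rintro ⟨P, k⟩ ⟨Q, l⟩ hxy
    have h1 : P.asIdeal ^ (k + 1) = Q.asIdeal ^ (l + 1) := hxy
    have h2 : P.asIdeal ∣ Q.asIdeal :=
      P.prime.dvd_of_dvd_pow (h1 ▸ dvd_pow_self _ k.succ_ne_zero)
    have h3 : P = Q := HeightOneSpectrum.ext
      (Q.isMaximal.eq_of_le P.isPrime.ne_top (Ideal.le_of_dvd h2)).symm
    subst h3
    have h4 := congrArg nm h1
    rw [nm_pow, nm_pow] at h4
    have h5 := pow_right_injective₀ (by linarith [two_le_nm P]) (by linarith [two_le_nm P]) h4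
    rw [Nat.succ_injective h5]
  have hs := (summable_nm (F := F) (σ := σ - 1) (by linarith)).comp_injective hinj
  refine Summable.of_nonneg_of_le (fun x => ?_) (fun x => ?_) hs
  · have := two_le_nm x.1
    exact mul_nonneg (Real.log_nonneg (by linarith)) (by positivity)
  · have h1 := two_le_nm x.1
    have h2 : Real.log (nm x.1.asIdeal) ≤ nm x.1.asIdeal ^ (x.2 + 1) :=
      (Real.log_le_self (by linarith)).trans (le_self_pow₀ (by linarith) x.2.succ_ne_zero)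
    have h3 : 0 < nm x.1.asIdeal ^ (x.2 + 1) := by positivity
    show _ ≤ nm (x.1.asIdeal ^ (x.2 + 1)) ^ (-(σ - 1))
    rw [nm_pow, show -(σ - 1) = 1 + -σ by ring, Real.rpow_add h3, Real.rpow_one]
    exact mul_le_mul_of_nonneg_right h2 (by positivity)
theorem summable_Psi {x : ℝ} (hx : 0 < x) :
    Summable fun y : PP F × ℕ =>
      Real.log (nm y.1.asIdeal) * w (nm y.1.asIdeal ^ (y.2 + 1) / x) := by
  set σ : ℝ := dg F + 3 with hσ
  have hs := (summable_pp (F := F) (σ := σ) le_rfl).mul_left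
    (Real.exp ((-σ) ^ 2 / 4) * (x ^ (-σ))⁻¹)
  refine Summable.of_nonneg_of_le (fun y => ?_) (fun y => ?_) hs
  · have := two_le_nm y.1
    exact mul_nonneg (Real.log_nonneg (by linarith)) (Real.exp_pos _).le
  · have h1 := two_le_nm y.1
    have h3 : 0 < nm y.1.asIdeal ^ (y.2 + 1) := by positivity
    have h4 := Vale.Agent.P026.w_le_rpow (-σ) (div_pos h3 hx)
    rw [Real.div_rpow h3.le hx.le] at h4
    refine (mul_le_mul_of_nonneg_left h4 (Real.log_nonneg (by linarith))).trans (le_of_eq ?_)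
    ring

end Vale.Agent.P016
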