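import Vale.Agent.P016.ZDefs
import Vale.Agent.P026.Fin2B

/-! Mellin transforms of smoothed sums. -/

namespace Vale.Agent.P016

open Complex NumberField IsDedekindDomain MeasureTheory Filter
open scoped Classical ComplexConjugate nonZeroDivisors
open Vale.Agent.P026 (w)

variable {ι : Type} [Countable ι] {a : ι → ℂ} {N : ι → ℝ} {V : ℝ → ℝ} {Vm : ℂ → ℂ}

theorem ker_w : Ker w wm := by
  refine ⟨fun t _ => (P026.w_pos t).le, P026.f2_contw,
    fun σ _ => ⟨_, fun t ht => P026.w_le_rpow (-σ) ht⟩, fun s _ => ⟨P026.f2_conv s, ?_⟩⟩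
  refine (P026.f2_mellin_w s).trans ?_
  rw [wm, Real.sqrt_eq_rpow, ofReal_cpow Real.pi_pos.le]
  norm_num

theorem ct_nonneg (hV : Ker V Vm) {σ' C : ℝ} (hC : ∀ t, 0 < t → V t ≤ C * t ^ (-σ')) : 0 ≤ C := by
  have h := (hV.nonneg 1 one_pos).trans (hC 1 one_pos)
  rwa [Real.one_rpow, mul_one] at h

omit [Countable ι] in
theorem ct_term (hV : Ker V Vm) (hN : ∀ i, a i ≠ 0 → 1 ≤ N i) {σ σ' C : ℝ} (h : σ ≤ σ')
    (hC : ∀ t, 0 < t → V t ≤ C * t ^ (-σ')) {t : ℝ} (ht : 0 < t) (i : ι) :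
    ‖a i * (V (N i * t) : ℂ)‖ ≤ C * t ^ (-σ') * (‖a i‖ * N i ^ (-σ)) := by
  by_cases h0 : a i = 0
  · simp [h0]
  have N1 := hN i h0
  have N0 : 0 < N i := by linarith
  have C0 := ct_nonneg hV hC
  have a1 := Real.rpow_le_rpow_of_exponent_le N1 (neg_le_neg h)
  rw [norm_mul, norm_real, Real.norm_of_nonneg (hV.nonneg _ (mul_pos N0 ht))]
  refine (mul_le_mul_of_nonneg_left (hC _ (mul_pos N0 ht)) (norm_nonneg _)).trans ?_
  rw [Real.mul_rpow N0.le ht.le]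
  calc _ ≤ ‖a i‖ * (C * (N i ^ (-σ) * t ^ (-σ'))) := by gcongr
    _ = _ := by ring

theorem sm_cont (hV : Ker V Vm) (hN : ∀ i, a i ≠ 0 → 1 ≤ N i) {σ : ℝ} (hσ : 0 < σ)
    (hs : Summable fun i => ‖a i‖ * N i ^ (-σ)) : ContinuousOn (sm a N V) (Set.Ioi 0) := by
  obtain ⟨C, hC⟩ := hV.le σ hσ
  have C0 := ct_nonneg hV hC
  intro x hx
  have x0 : 0 < x / 2 := half_pos hx
  refine ((continuousOn_tsum (s := Set.Ioi (x / 2)) (fun i => ?_)
    (hs.mul_left (C * (x / 2) ^ (-σ))) fun i y hy => ?_).continuousAt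
    (Ioi_mem_nhds (half_lt_self hx))).continuousWithinAt
  · by_cases h0 : a i = 0
    · simp only [h0, zero_mul]
      exact continuousOn_const
    · exact continuousOn_const.mul (continuous_ofReal.comp_continuousOn (hV.cont.comp (by fun_prop)
        fun y hy => mul_pos (zero_lt_one.trans_le (hN i h0)) (x0.trans hy)))
  · refine (ct_term hV hN le_rfl hC (x0.trans hy) i).trans ?_
    by_cases h0 : a i = 0
    · simp [h0]
    · have a1 := Real.rpow_le_rpow_of_nonpos x0 (le_of_lt hy) (neg_nonpos.2 hσ.le)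
      have a2 := zero_lt_one.trans_le (hN i h0)
      gcongr

theorem ct_int {μ : Measure ℝ} {G : ι → ℝ → ℂ} (hi : ∀ i, Integrable (G i) μ)
    (hs : Summable fun i => ∫ x, ‖G i x‖ ∂μ) : HasFiniteIntegral (fun x => ∑' i, G i x) μ := by
  refine (lintegral_mono fun x => enorm_tsum_le_tsum_enorm).trans_lt ?_
  rw [lintegral_tsum fun i => (hi i).1.enorm]
  simp only [← fun i => ofReal_integral_norm_eq_lintegral_enorm (hi i)]
  rw [← ENNReal.ofReal_tsum_of_nonneg (fun i => integral_nonneg fun _ => norm_nonneg _) hs]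
  exact ENNReal.ofReal_lt_top

theorem ct_scale (f : ℝ → ℂ) (s : ℂ) {b : ℝ} (hb : 0 < b) :
    ∫ x in Set.Ioi (0 : ℝ), ‖(x : ℂ) ^ (s - 1) • f (b * x)‖ =
      b ^ (-s.re) * ∫ x in Set.Ioi (0 : ℝ), ‖(x : ℂ) ^ (s - 1) • f x‖ := by
  have k := integral_comp_mul_left_Ioi (fun x : ℝ => ‖(x : ℂ) ^ (s - 1) • f x‖) 0 hb
  rw [mul_zero, smul_eq_mul] at k
  rw [show -s.re = 1 - s.re + -1 by ring, Real.rpow_add hb, Real.rpow_neg_one, mul_assoc, ← k,
    ← integral_const_mul]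
  refine setIntegral_congr_fun measurableSet_Ioi fun x hx => ?_
  have x0 : 0 < x := hx
  simp only [norm_smul]
  rw [norm_cpow_eq_rpow_re_of_pos x0, norm_cpow_eq_rpow_re_of_pos (mul_pos hb x0),
    Real.mul_rpow hb.le x0.le, ← mul_assoc, ← mul_assoc, ← Real.rpow_add hb]
  simp

theorem sm_mellin (hV : Ker V Vm) (hN : ∀ i, a i ≠ 0 → 1 ≤ N i) {σ : ℝ} (hσ : 0 < σ)
    (hs : Summable fun i => ‖a i‖ * N i ^ (-σ)) {s : ℂ} (h : σ ≤ s.re) :
    HasMellin (sm a N V) s ((∑' i, a i * (N i : ℂ) ^ (-s)) * Vm s) := by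
  obtain ⟨hm, hm'⟩ := hV.mel s (hσ.trans_le h)
  have e : (fun x : ℝ => (x : ℂ) ^ (s - 1) • sm a N V x) =
      fun x : ℝ => ∑' i, a i * ((x : ℂ) ^ (s - 1) • (V (N i * x) : ℂ)) := by
    funext x
    simp only [sm, smul_eq_mul, ← tsum_mul_left, mul_left_comm]
  have i1 : ∀ i, Integrable (fun x : ℝ => a i * ((x : ℂ) ^ (s - 1) • (V (N i * x) : ℂ)))
      (volume.restrict (Set.Ioi 0)) := fun i => by
    by_cases h0 : a i = 0
    · simp only [h0, zero_mul]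
      exact integrable_zero _ _ _
    · exact ((MellinConvergent.comp_mul_left (f := fun t : ℝ => (V t : ℂ))
        (zero_lt_one.trans_le (hN i h0))).2 hm).const_mul _
  have i2 : Summable fun i => ∫ x in Set.Ioi (0 : ℝ),
      ‖a i * ((x : ℂ) ^ (s - 1) • (V (N i * x) : ℂ))‖ := by
    refine Summable.of_nonneg_of_le (fun i => integral_nonneg fun _ => norm_nonneg _) (fun i => ?_)
      (hs.mul_right (∫ x in Set.Ioi (0 : ℝ), ‖(x : ℂ) ^ (s - 1) • (V x : ℂ)‖))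
    have I0 : 0 ≤ ∫ x in Set.Ioi (0 : ℝ), ‖(x : ℂ) ^ (s - 1) • (V x : ℂ)‖ :=
      integral_nonneg fun _ => norm_nonneg _
    by_cases h0 : a i = 0
    · simp [h0]
    · have a1 := Real.rpow_le_rpow_of_exponent_le (hN i h0) (neg_le_neg h)
      simp only [norm_mul (a i)]
      rw [integral_const_mul, ct_scale (fun t : ℝ => (V t : ℂ)) s (zero_lt_one.trans_le (hN i h0)),
        ← mul_assoc]
      gcongr
  refine ⟨⟨?_, ?_⟩, ?_⟩
  · have c1 : ContinuousOn (fun x : ℝ => (x : ℂ) ^ (s - 1)) (Set.Ioi 0) := fun x hx =>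
      (continuousAt_ofReal_cpow_const x _ (Or.inr (ne_of_gt hx))).continuousWithinAt
    exact (c1.smul (sm_cont hV hN hσ hs)).aestronglyMeasurable measurableSet_Ioi
  · rw [e]
    exact ct_int i1 i2
  · rw [mellin, e, ← integral_tsum_of_summable_integral_norm i1 i2, ← tsum_mul_right]
    refine tsum_congr fun i => ?_
    by_cases h0 : a i = 0
    · simp [h0]
    · rw [integral_const_mul, mul_assoc, ← hm']
      congr 1
      exact mellin_comp_mul_left (fun t : ℝ => (V t : ℂ)) s (zero_lt_one.trans_le (hN i h0))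

theorem sm_le (hV : Ker V Vm) (hN : ∀ i, a i ≠ 0 → 1 ≤ N i) {σ σ' C : ℝ} (h : σ ≤ σ')
    (hs : Summable fun i => ‖a i‖ * N i ^ (-σ)) (hC : ∀ t, 0 < t → V t ≤ C * t ^ (-σ'))
    {t : ℝ} (ht : 0 < t) :
    ‖sm a N V t‖ ≤ C * (∑' i, ‖a i‖ * N i ^ (-σ)) * t ^ (-σ') :=
  (tsum_of_norm_bounded (hs.hasSum.mul_left _) (ct_term hV hN h hC ht)).trans_eq
    (mul_right_comm _ _ _)

theorem ct_diff {S : ℝ → ℂ} {θ σ B B' : ℝ} (hS : LocallyIntegrableOn S (Set.Ioi 0))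
    (h0 : ∀ t : ℝ, 0 < t → t ≤ 1 → ‖S t‖ ≤ B * t ^ (-θ))
    (h1 : ∀ t : ℝ, 1 < t → ‖S t‖ ≤ B' * t ^ (-σ)) {s : ℂ} (hθ : θ < s.re) (hσ : s.re < σ) :
    DifferentiableAt ℂ (mellin S) s := by
  refine mellin_differentiableAt_of_isBigO_rpow hS
    (Asymptotics.IsBigO.of_bound B' ((eventually_gt_atTop 1).mono fun x hx => ?_)) hσ
    (Asymptotics.IsBigO.of_bound B ?_) hθ
  · rw [Real.norm_of_nonneg (Real.rpow_nonneg (zero_le_one.trans hx.le) _)]
    exact h1 x hx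
  · filter_upwards [Ioc_mem_nhdsGT zero_lt_one] with x hx
    rw [Real.norm_of_nonneg (Real.rpow_nonneg hx.1.le _)]
    exact h0 x hx.1 hx.2

theorem mel_diff {S : ℝ → ℂ} {θ σ B B' : ℝ} (hS : ContinuousOn S (Set.Ioi 0))
    (h0 : ∀ t : ℝ, 0 < t → t ≤ 1 → ‖S t‖ ≤ B * t ^ (-θ))
    (h1 : ∀ t : ℝ, 1 ≤ t → ‖S t‖ ≤ B' * t ^ (-σ)) {s : ℂ} (hθ : θ < s.re) (hσ : s.re < σ) :
    DifferentiableAt ℂ (mellin S) s :=
  ct_diff (hS.locallyIntegrableOn measurableSet_Ioi) h0 (fun t ht => h1 t ht.le) hθ hσ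

theorem GM_one (S : ℝ → ℂ) (c : ℂ) : GM S c 1 = c := by
  rw [GM, sub_self, zero_mul, zero_add]

theorem GM_eq {S : ℝ → ℂ} (c : ℂ) {s m : ℂ} (hm : HasMellin S s m) (h : 1 < s.re) :
    GM S c s = (s - 1) * m := by
  obtain ⟨k1, k2⟩ := hasMellin_cpow_Ioc (-1) (s := s) (by simp; linarith)
  have e : Set.indicator (Set.Ioc 0 1) (fun t : ℝ => c / t) =
      fun t : ℝ => c • Set.indicator (Set.Ioc 0 1) (fun t : ℝ => (t : ℂ) ^ (-1 : ℂ)) t := by
    funext t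
    by_cases ht : t ∈ Set.Ioc (0 : ℝ) 1
    · rw [Set.indicator_of_mem ht, Set.indicator_of_mem ht, cpow_neg_one, smul_eq_mul,
        div_eq_mul_inv]
    · rw [Set.indicator_of_notMem ht, Set.indicator_of_notMem ht, smul_zero]
  have s1 : s - 1 ≠ 0 := fun k => by
    rw [sub_eq_zero.1 k, one_re] at h
    exact lt_irrefl _ h
  rw [GM, e, (hasMellin_sub hm.1 (k1.const_smul c)).2, mellin_const_smul, k2, hm.2, smul_eq_mul,
    ← sub_eq_add_neg]
  field_simp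
  ring

theorem GM_diff {S : ℝ → ℂ} {c : ℂ} {θ σ B B' : ℝ} (hS : ContinuousOn S (Set.Ioi 0))
    (h0 : ∀ t : ℝ, 0 < t → t ≤ 1 → ‖S t - c / t‖ ≤ B * t ^ (-θ))
    (h1 : ∀ t : ℝ, 1 ≤ t → ‖S t‖ ≤ B' * t ^ (-σ)) {s : ℂ} (hθ : θ < s.re) (hσ : s.re < σ) :
    DifferentiableAt ℂ (GM S c) s := by
  have a1 : ContinuousOn (fun t : ℝ => c / t) (Set.Ioi 0) :=
    continuousOn_const.div continuous_ofReal.continuousOn fun t ht => ofReal_ne_zero.2 (ne_of_gt ht)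
  have a2 : LocallyIntegrableOn (Set.indicator (Set.Ioc 0 1) fun t : ℝ => c / t) (Set.Ioi 0) :=
    fun x hx => (a1.locallyIntegrableOn (μ := volume) measurableSet_Ioi x hx).imp fun _ h =>
      ⟨h.1, h.2.indicator measurableSet_Ioc⟩
  refine ((differentiableAt_id.sub_const 1).mul (ct_diff (B := B) (B' := B')
    ((hS.locallyIntegrableOn measurableSet_Ioi).sub a2) (fun t t0 t1 => ?_) (fun t ht => ?_)
    hθ hσ)).add_const c
  · rw [Pi.sub_apply, Set.indicator_of_mem (Set.mem_Ioc.2 ⟨t0, t1⟩)]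
    exact h0 t t0 t1
  · rw [Pi.sub_apply, Set.indicator_of_notMem fun k => absurd k.2 (not_le.2 ht), sub_zero]
    exact h1 t ht.le

theorem ct_maj (B : ℝ) :
    IntegrableOn (fun t : ℝ => if t ≤ 1 then B * t ^ (-(1 / 2) : ℝ) else B * t ^ (-2 : ℝ))
      (Set.Ioi 0) ∧
    ∫ t in Set.Ioi (0 : ℝ), (if t ≤ 1 then B * t ^ (-(1 / 2) : ℝ) else B * t ^ (-2 : ℝ)) =
      3 * B := by
  have e1 : Set.EqOn (fun t : ℝ => B * t ^ (-(1 / 2) : ℝ))
      (fun t : ℝ => if t ≤ 1 then B * t ^ (-(1 / 2) : ℝ) else B * t ^ (-2 : ℝ)) (Set.Ioc 0 1) :=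
    fun t ht => (if_pos ht.2).symm
  have e2 : Set.EqOn (fun t : ℝ => B * t ^ (-2 : ℝ))
      (fun t : ℝ => if t ≤ 1 then B * t ^ (-(1 / 2) : ℝ) else B * t ^ (-2 : ℝ)) (Set.Ioi 1) :=
    fun t ht => (if_neg (not_le.2 ht)).symm
  have i1 := IntegrableOn.congr_fun ((intervalIntegral.intervalIntegrable_rpow'
    (r := -(1 / 2)) (a := 0) (b := 1) (by norm_num)).1.const_mul B) e1 measurableSet_Ioc
  have i2 := IntegrableOn.congr_fun ((integrableOn_Ioi_rpow_of_lt (a := -2) (by norm_num)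
    one_pos).const_mul B) e2 measurableSet_Ioi
  rw [← Set.Ioc_union_Ioi_eq_Ioi zero_le_one]
  refine ⟨i1.union i2, ?_⟩
  rw [setIntegral_union Set.Ioc_disjoint_Ioi_same measurableSet_Ioi i1 i2,
    ← setIntegral_congr_fun measurableSet_Ioc e1, ← setIntegral_congr_fun measurableSet_Ioi e2,
    integral_const_mul, integral_const_mul, ← intervalIntegral.integral_of_le zero_le_one,
    integral_rpow (Or.inl (by norm_num)), integral_Ioi_rpow_of_lt (by norm_num) one_pos,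
    Real.one_rpow, Real.one_rpow, Real.zero_rpow (by norm_num)]
  ring

theorem GM_bound {S : ℝ → ℂ} {c : ℂ} {σ B : ℝ} (hS : ContinuousOn S (Set.Ioi 0))
    (h0 : ∀ t : ℝ, 0 < t → t ≤ 1 → ‖S t - c / t‖ ≤ B)
    (h1 : ∀ t : ℝ, 1 ≤ t → ‖S t‖ ≤ B * t ^ (-σ)) {s : ℂ} (hθ : 1 / 2 ≤ s.re) (hσ : s.re + 1 ≤ σ) :
    ‖GM S c s‖ ≤ ‖c‖ + 3 * B * ‖s - 1‖ := by
  have _ := hS
  have B0 : 0 ≤ B := (norm_nonneg _).trans (h0 1 one_pos le_rfl)
  rw [GM, add_comm]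
  refine (norm_add_le _ _).trans (add_le_add le_rfl ?_)
  rw [norm_mul, mul_comm, ← (ct_maj B).2]
  refine mul_le_mul_of_nonneg_right (norm_integral_le_of_norm_le (ct_maj B).1
    ((ae_restrict_mem measurableSet_Ioi).mono fun t ht => ?_)) (norm_nonneg _)
  have t0 : 0 < t := ht
  rw [norm_smul, norm_cpow_eq_rpow_re_of_pos t0, sub_re, one_re]
  dsimp only
  split_ifs with t1
  · rw [Set.indicator_of_mem (Set.mem_Ioc.2 ⟨t0, t1⟩), mul_comm]
    exact mul_le_mul (h0 t t0 t1) (Real.rpow_le_rpow_of_exponent_ge t0 t1 (by linarith))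
      (by positivity) B0
  · rw [Set.indicator_of_notMem fun k : t ∈ Set.Ioc 0 1 => t1 k.2, sub_zero]
    have t2 := (not_le.1 t1).le
    refine (mul_le_mul_of_nonneg_left (h1 t t2) (by positivity)).trans ?_
    rw [mul_left_comm, ← Real.rpow_add t0]
    exact mul_le_mul_of_nonneg_left (Real.rpow_le_rpow_of_exponent_le t2 (by linarith)) B0

end Vale.Agent.P016
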