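import Vale.Agent.P016.Cnt
import Vale.Agent.P016.Cont
import Vale.Agent.P319B.Fin1
import Vale.Agent.P319B.Boot
import Vale.Agent.P319B.Theta
import Vale.Agent.P319B.CtxEx

/-! The input from the quasi Riemann hypothesis over number fields. -/

namespace Vale.Agent.P016

open Complex NumberField IsDedekindDomain MeasureTheory Filter
open scoped Classical ComplexConjugate nonZeroDivisors
open Vale.Agent.P026 (w)

section
variable {F : Type} [Field F] [NumberField F] [P319B.Ctx F]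

theorem mob_sum : ∃ C : ℝ, ∀ Y : ℝ, 1 ≤ Y →
    ‖∑' c : P319B.R F, P319B.mu0 c * P319B.W Y 0 c‖ ≤ C * Y ^ (383 / 384 : ℝ) := by
  obtain ⟨T⟩ := P319B.nonempty_theta (F := F)
  obtain ⟨C, hC⟩ := P319B.fin1 (P319B.boot T (by norm_num)) (fun _ => 1)
    ⟨fun _ _ _ _ => rfl, fun _ _ _ => rfl⟩ (fun _ => by simp)
  exact ⟨C, fun Y hY => by simpa using hC Y hY⟩

/-- Normalised generators correspond to ideals coprime to M. -/
theorem exists_equiv_P1 : ∃ e : {c : P319B.R F // P319B.P1 c} ≃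
    {I : Ideal (𝓞 F) // I ≠ ⊥ ∧ IsCoprime I (Ideal.span {((P319B.Ctx0.M F : ℕ) : 𝓞 F)})},
    ∀ c, nm (e c).1 = P319B.N c.1 := by
  refine ⟨Equiv.ofBijective (fun c => ⟨P319B.cntI c.1, (P319B.cntI_spec c.2.ne_zero).1,
    (P319B.cntI_spec c.2.ne_zero).2.1⟩) ⟨fun a b h => Subtype.ext ?_, fun J => ?_⟩,
    fun c => (P319B.cntI_spec c.2.ne_zero).2.2⟩
  · refine P319B.cntJ_inj a.2 b.2 (Subtype.ext ?_)
    rw [P319B.cntJ_coe a.2.ne_zero, P319B.cntJ_coe b.2.ne_zero]
    exact congrArg Subtype.val h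
  · obtain ⟨c, hc, e⟩ := P319B.cntJ_surj (F := F)
      (J := ⟨J.1, mem_nonZeroDivisors_of_ne_zero J.2.1⟩) J.2.2
    refine ⟨⟨c, hc⟩, Subtype.ext ?_⟩
    exact (P319B.cntJ_coe hc.ne_zero).symm.trans (congrArg Subtype.val e)

theorem mf_zero {c : P319B.R F} (h : ¬ P319B.P0 c) : P319B.mu0 c = 0 :=
  not_not.1 (mt P319B.mu0_ne_zero.1 h)

theorem mf_summable {σ : ℝ} (hσ : 1 < σ) :
    Summable fun c : P319B.R F => ‖P319B.mu0 c‖ * P319B.N c ^ (-σ) := by
  refine (P319B.summable_N_rpow (F := F) hσ).of_nonneg_of_le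
    (fun c => mul_nonneg (norm_nonneg _) (Real.rpow_nonneg (P319B.N_nonneg c) _)) fun c => ?_
  split_ifs with h
  · exact mul_le_of_le_one_left (Real.rpow_nonneg (P319B.N_nonneg c) _) (P319B.norm_mu0_le c)
  · rw [mf_zero fun h0 => h h0.1, norm_zero, zero_mul]

open P319B in
theorem mf_inv {φ : R F → ℂ} (hφ : ∀ c d, φ (c * d) = φ c * φ d) (h1 : φ 1 = 1)
    (s1 : Summable fun c => ‖mu0 c * φ c‖) (s2 : Summable fun c => ‖if P1 c then φ c else 0‖) :
    (∑' c, mu0 c * φ c) * (∑' c, if P1 c then φ c else 0) = 1 := by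
  rw [tsum_mul_tsum_of_summable_norm s1 s2,
    ← ((summable_mul_of_summable_norm s1 s2).hasSum.tsum_fiberwise fun p => p.1 * p.2).tsum_eq]
  have key : ∀ n : R F, ∑' b : (fun p : R F × R F => p.1 * p.2) ⁻¹' {n},
      mu0 b.1.1 * φ b.1.1 * (if P1 b.1.2 then φ b.1.2 else 0) = if n = 1 then 1 else 0 := by
    intro n
    by_cases hn : P1 n
    · have n0 := hn.ne_zero
      have hq : ∀ d : R F, ∃ q : R F, d ∣ n → d * q = n := fun d => by
        by_cases h : d ∣ n
        · obtain ⟨q, hq⟩ := h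
          exact ⟨q, fun _ => hq.symm⟩
        · exact ⟨0, fun h' => absurd h' h⟩
      choose q hq using hq
      rw [tsum_subtype _ fun p : R F × R F => mu0 p.1 * φ p.1 * (if P1 p.2 then φ p.2 else 0),
        tsum_eq_sum (s := (divs n).image fun d => (d, q d)) fun p hp => ?_,
        Finset.sum_image fun d _ e _ h => (Prod.ext_iff.1 h).1,
        Finset.sum_congr rfl (g := fun d => mu0 d * φ n) fun d hd => ?_, ← Finset.sum_mul,
        sum_mu0_P1 hn]
      · split_ifs with h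
        · rw [h, h1, one_mul]
        · exact zero_mul _
      · obtain ⟨a1, a2⟩ := (mem_divs n0).1 hd
        have e := hq d a2
        rw [Set.indicator_of_mem (by exact e), if_pos (a1.1.of_mul (e.symm ▸ hn)), mul_assoc,
          ← hφ, e]
      · refine Set.indicator_apply_eq_zero.2 fun h => ?_
        have e : p.1 * p.2 = n := h
        rw [mf_zero fun h0 => hp (Finset.mem_image.2 ⟨p.1, (mem_divs n0).2 ⟨h0, _, e.symm⟩,
          Prod.ext rfl (mul_left_cancel₀ h0.ne_zero ((hq p.1 ⟨_, e.symm⟩).trans e.symm))⟩),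
          zero_mul, zero_mul]
    · rw [if_neg fun h : n = 1 => hn (by rw [h]; exact P1.one),
        tsum_congr (g := fun _ => 0) fun b => ?_, tsum_zero]
      have e : b.1.1 * b.1.2 = n := b.2
      split_ifs with h
      · rw [mf_zero fun h0 => hn (e ▸ h0.1.mul h), zero_mul, zero_mul]
      · exact mul_zero _
  simp only [key, tsum_ite_eq]

theorem mu_inv {s : ℂ} (hs : 1 < s.re) :
    (∑' c : P319B.R F, P319B.mu0 c * (P319B.N c : ℂ) ^ (-s)) *
      (∑' c : P319B.R F, if P319B.P1 c then (P319B.N c : ℂ) ^ (-s) else 0) = 1 := by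
  have hn : ∀ c : P319B.R F, ‖(P319B.N c : ℂ) ^ (-s)‖ = P319B.N c ^ (-s.re) := fun c => by
    rw [norm_cpow_eq_rpow_re_of_nonneg (P319B.N_nonneg c) (by rw [neg_re]; linarith), neg_re]
  refine mf_inv (φ := fun c => (P319B.N c : ℂ) ^ (-s)) (fun c d => ?_) ?_ ?_ ?_
  · rw [P319B.N_mul, ofReal_mul, mul_cpow_ofReal_nonneg (P319B.N_nonneg c) (P319B.N_nonneg d)]
  · simp only [P319B.N_one, ofReal_one, one_cpow]
  · simp only [norm_mul, hn]
    exact mf_summable hs
  · refine (P319B.summable_N_rpow (F := F) hs).congr fun c => ?_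
    split_ifs
    · exact (hn c).symm
    · exact norm_zero.symm

theorem mf_zf (s : ℂ) : zf (F := F) (cpM (P319B.Ctx0.M F)) s =
    ∑' c : P319B.R F, if P319B.P1 c then (P319B.N c : ℂ) ^ (-s) else 0 := by
  obtain ⟨e, he⟩ := exists_equiv_P1 (F := F)
  have h1 := tsum_subtype {c : P319B.R F | P319B.P1 c} fun c => (P319B.N c : ℂ) ^ (-s)
  have h2 := tsum_subtype {I : Ideal (𝓞 F) | I ≠ ⊥ ∧
    IsCoprime I (Ideal.span {((P319B.Ctx0.M F : ℕ) : 𝓞 F)})} fun I => (nm I : ℂ) ^ (-s)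
  have h3 := e.tsum_eq fun I => (nm I.1 : ℂ) ^ (-s)
  simp only [he] at h3
  refine Eq.trans ?_ ((h2.symm.trans (h3.symm.trans h1)).trans ?_)
  · refine tsum_congr fun I => ?_
    rw [cpM, Set.indicator_apply, ite_mul, one_mul, zero_mul]
    rfl
  · refine tsum_congr fun c => ?_
    rw [Set.indicator_apply]
    rfl

end

theorem mf_wm_ne (s : ℂ) : wm s ≠ 0 :=
  mul_ne_zero (ofReal_ne_zero.2 (Real.sqrt_pos.2 Real.pi_pos).ne') (Complex.exp_ne_zero _)

theorem mob : Mob := by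
  intro F _ _ ω hω
  obtain ⟨c, hc⟩ := P319B.exists_ctx F ω hω (m := 3) (by norm_num)
  have hN : ∀ i : P319B.R F, P319B.mu0 i ≠ 0 → 1 ≤ P319B.N i := fun i hi =>
    P319B.one_le_N (P319B.mu0_ne_zero.1 hi).ne_zero
  have hs2 := mf_summable (F := F) one_lt_two
  refine ⟨P319B.Ctx0.M F, fun s => mellin (sm (P319B.mu0 (F := F)) P319B.N w) s * (wm s)⁻¹,
    P319B.Ctx0.M_ne, hc, fun s hs => ?_, fun s hs => ?_⟩
  · refine DifferentiableAt.fun_mul ?_ (DifferentiableAt.fun_inv ?_ (mf_wm_ne s))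
    · obtain ⟨C, hC⟩ := mob_sum (F := F)
      obtain ⟨C', hC'⟩ := ker_w.le (max 2 (s.re + 1)) (lt_max_of_lt_left two_pos)
      refine mel_diff (θ := 383 / 384) (σ := max 2 (s.re + 1)) (B := C)
        (sm_cont ker_w hN two_pos hs2) (fun t ht ht1 => ?_)
        (fun t ht => sm_le ker_w hN (le_max_left _ _) hs2 hC' (by linarith)) hs
        (lt_max_of_lt_right (lt_add_one _))
      have h := hC t⁻¹ ((one_le_inv₀ ht).2 ht1)
      rw [Real.inv_rpow ht.le, ← Real.rpow_neg ht.le] at h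
      refine le_of_eq_of_le (congrArg _ (tsum_congr fun i => ?_)) h
      simp [P319B.W, P319B.nit]
    · unfold wm
      fun_prop
  · have hn : (0 : ℝ) ≤ dg F := Nat.cast_nonneg _
    simp only []
    rw [(sm_mellin ker_w hN two_pos hs2 (s := s) (by linarith)).2,
      mul_inv_cancel_right₀ (mf_wm_ne s), mf_zf, mu_inv (by linarith)]

end Vale.Agent.P016
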