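import Vale.Agent.P016.Cnt

/-! The logarithmic derivative of a Dirichlet series over ideals. -/

namespace Vale.Agent.P016

open Complex NumberField IsDedekindDomain MeasureTheory Filter
open scoped Classical ComplexConjugate nonZeroDivisors
open Vale.Agent.P026 (w)

variable {F : Type} [Field F] [NumberField F]

theorem logd_cpow {x : ℝ} (hx : 0 ≤ x) (k : ℕ) (s : ℂ) :
    ((x ^ k : ℝ) : ℂ) ^ s = ((x : ℂ) ^ s) ^ k := by
  induction k with
  | zero => simp
  | succ k ih => rw [pow_succ, ofReal_mul, mul_cpow_ofReal_nonneg (pow_nonneg hx k) hx, ih, pow_succ]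

theorem logd_norm {f : Ideal (𝓞 F) → ℂ} (hf : CM f) {I : Ideal (𝓞 F)} {s : ℂ} {σ : ℝ}
    (h : σ ≤ s.re) : ‖f I * (nm I : ℂ) ^ (-s)‖ ≤ nm I ^ (-σ) := by
  rcases eq_or_ne I ⊥ with rfl | hI
  · rw [hf.bot, zero_mul, norm_zero]
    exact Real.rpow_nonneg (nm_nonneg _) _
  · have h1 := one_le_nm hI
    rw [norm_mul, norm_cpow_eq_rpow_re_of_pos (by linarith), neg_re]
    exact (mul_le_of_le_one_left (by positivity) (hf.le I)).trans
      (Real.rpow_le_rpow_of_exponent_le h1 (by linarith))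

theorem logd_sum {f : Ideal (𝓞 F) → ℂ} (hf : CM f) {s : ℂ} (h : (dg F : ℝ) + 3 ≤ s.re) :
    Summable fun x : PP F × ℕ => ‖f x.1.asIdeal ^ (x.2 + 1) * (Real.log (nm x.1.asIdeal) : ℂ) *
      ((nm x.1.asIdeal ^ (x.2 + 1) : ℝ) : ℂ) ^ (-s)‖ := by
  refine (summable_pp h).of_nonneg_of_le (fun _ => norm_nonneg _) fun x => ?_
  have h1 := Real.log_nonneg (one_le_two.trans (two_le_nm x.1))
  rw [mul_right_comm, norm_mul, ← hf.pow, ← nm_pow, norm_real, Real.norm_of_nonneg h1, mul_comm]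
  exact mul_le_mul_of_nonneg_left (logd_norm hf le_rfl) h1

/-- The logarithm of the norm as a sum over prime power divisors. -/
theorem log_nm_eq {I : Ideal (𝓞 F)} (hI : I ≠ ⊥) :
    HasSum (fun x : PP F × ℕ => if x.1.asIdeal ^ (x.2 + 1) ∣ I then Real.log (nm x.1.asIdeal) else 0)
      (Real.log (nm I)) := by
  induction I using UniqueFactorizationMonoid.induction_on_prime with
  | h₁ => exact absurd rfl hI
  | h₂ I h =>
    have h1 : ∀ x : PP F × ℕ, ¬x.1.asIdeal ^ (x.2 + 1) ∣ I := fun x h2 =>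
      x.1.prime.not_isUnit (isUnit_of_dvd_unit ((dvd_pow_self _ x.2.succ_ne_zero).trans h2) h)
    rw [Ideal.isUnit_iff.1 h, nm_top, Real.log_one, ← Ideal.isUnit_iff.1 h]
    simpa only [h1, if_false] using hasSum_zero
  | h₃ I Q h0 hQ ih =>
    let P : PP F := ⟨Q, Ideal.isPrime_of_prime hQ, hQ.ne_zero⟩
    have fm : FiniteMultiplicity Q I := FiniteMultiplicity.of_prime_left hQ h0
    have h1 := (hasSum_ite_eq (P, multiplicity Q I) (Real.log (nm Q))).add (ih h0)
    have h2 := one_le_nm h0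
    have h3 := two_le_nm P
    rw [nm_mul, Real.log_mul (by positivity) (by positivity)]
    refine (congrArg (HasSum · _) (funext fun ⟨R, k⟩ => ?_)).mp h1
    by_cases h : R = P
    · subst h
      have h4 : Q ^ (k + 1) ∣ Q * I ↔ k ≤ multiplicity Q I := by
        rw [pow_succ', mul_dvd_mul_iff_left hQ.ne_zero, fm.pow_dvd_iff_le_multiplicity]
      simp only [P, h4, fm.pow_dvd_iff_le_multiplicity, Prod.mk.injEq, true_and]
      split_ifs <;> first | omega | simp
    · have h4 : ¬R.asIdeal ∣ Q := fun e => h (HeightOneSpectrum.ext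
        (associated_iff_eq.1 (R.prime.associated_of_dvd hQ e)))
      have h5 : R.asIdeal ^ (k + 1) ∣ Q * I ↔ R.asIdeal ^ (k + 1) ∣ I :=
        ⟨R.prime.pow_dvd_of_dvd_mul_left _ h4, fun e => e.mul_left _⟩
      simp [h, h5]

theorem logd_inj : Function.Injective fun y : Ideal (𝓞 F) × PP F × ℕ =>
    (y.1 * y.2.1.asIdeal ^ (y.2.2 + 1), y.2) := fun y y' e => by
  obtain ⟨e1, e2⟩ := Prod.mk.inj e
  rw [e2] at e1
  exact Prod.ext (mul_right_cancel₀ (pow_ne_zero _ y'.2.1.ne_bot) e1) e2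

theorem logd_mul {α β : Type} {a : α → ℂ} {b : β → ℂ} (ha : Summable fun x => ‖a x‖)
    (hb : Summable fun x => ‖b x‖) :
    HasSum (fun y : α × β => a y.1 * b y.2) ((∑' x, a x) * ∑' x, b x) :=
  ha.of_norm.hasSum.mul hb.of_norm.hasSum (summable_mul_of_summable_norm ha hb)

theorem logd_conv {f : Ideal (𝓞 F) → ℂ} (hf : CM f) {s : ℂ} (h : (dg F : ℝ) + 3 ≤ s.re) :
    HasSum (fun I : Ideal (𝓞 F) => f I * (nm I : ℂ) ^ (-s) * Real.log (nm I))
      (zf f s * lf f s) := by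
  have a3 := logd_mul (summable_zf hf (s := s) (by linarith)) (logd_sum hf h)
  have a4 : HasSum (fun y : Ideal (𝓞 F) × PP F × ℕ => f y.1 * (nm y.1 : ℂ) ^ (-s) *
      ((if y.2.1.asIdeal ^ (y.2.2 + 1) ∣ y.1 then Real.log (nm y.2.1.asIdeal) else 0 : ℝ) : ℂ))
      (zf f s * lf f s) := by
    refine (logd_inj.hasSum_iff fun y hy => ?_).1 ?_
    · rw [if_neg, ofReal_zero, mul_zero]
      rintro ⟨J, hJ⟩
      exact hy ⟨(J, y.2), Prod.ext ((mul_comm _ _).trans hJ.symm) rfl⟩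
    · refine (congrArg (HasSum · _) (funext fun y => ?_)).mp a3
      simp only [Function.comp, if_pos (dvd_mul_left _ _), hf.mul, hf.pow, nm_mul, nm_pow, ofReal_mul,
        mul_cpow_ofReal_nonneg (nm_nonneg _) (pow_nonneg (nm_nonneg _) _)]
      ring
  refine a4.prod_fiberwise fun I => ?_
  rcases eq_or_ne I ⊥ with rfl | hI
  · simp [hf.bot]
  · have a5 := (hasSum_ofReal.2 (log_nm_eq hI)).mul_left (f I * (nm I : ℂ) ^ (-s))
    exact a5

theorem hasDerivAt_zf {f : Ideal (𝓞 F) → ℂ} (hf : CM f) {s : ℂ} (h : (dg F : ℝ) + 3 < s.re) :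
    HasDerivAt (zf f) (-(zf f s * lf f s)) s := by
  have hU : IsOpen {z : ℂ | (dg F : ℝ) + 2 < z.re} := isOpen_lt continuous_const continuous_re
  have hs : (dg F : ℝ) + 2 < s.re := by linarith
  have d1 : ∀ (I : Ideal (𝓞 F)) (z : ℂ), HasDerivAt (fun z => f I * (nm I : ℂ) ^ (-z))
      (-(f I * (nm I : ℂ) ^ (-z) * Real.log (nm I))) z := fun I z => by
    rcases eq_or_ne I ⊥ with rfl | hI
    · simpa [hf.bot] using hasDerivAt_const z (0 : ℂ)
    · have h1 := one_le_nm hI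
      have := ((hasDerivAt_neg z).const_cpow (c := (nm I : ℂ))
        (Or.inl (ofReal_ne_zero.2 (by linarith)))).const_mul (f I)
      rw [ofReal_log (by linarith)]
      exact this.congr_deriv (by ring)
  have u := summable_nm (F := F) le_rfl
  have d2 := fun I : Ideal (𝓞 F) => (fun z _ => (d1 I z).differentiableAt.differentiableWithinAt :
    DifferentiableOn ℂ _ {z : ℂ | (dg F : ℝ) + 2 < z.re})
  have d3 := fun (I : Ideal (𝓞 F)) (z : ℂ) (hz : z ∈ {z : ℂ | (dg F : ℝ) + 2 < z.re}) =>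
    logd_norm hf (I := I) (le_of_lt hz)
  have d4 := hasSum_deriv_of_summable_norm u d2 hU d3 hs
  have d5 := ((differentiableOn_tsum_of_summable_norm u d2 hU d3).differentiableAt
    (hU.mem_nhds hs)).hasDerivAt
  simp only [(d1 _ s).deriv] at d4
  exact d5.congr_deriv (d4.unique (logd_conv hf h.le).neg)

theorem hasSum_lf {f : Ideal (𝓞 F) → ℂ} (hf : CM f) {s : ℂ} (h : (dg F : ℝ) + 3 ≤ s.re) :
    HasSum (fun P : PP F => ell (nm P.asIdeal) (f P.asIdeal * (nm P.asIdeal : ℂ) ^ (-s)))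
      (lf f s) := by
  refine (logd_sum hf h).of_norm.hasSum.prod_fiberwise fun P => ?_
  have h1 := two_le_nm P
  have h2 : ‖f P.asIdeal * (nm P.asIdeal : ℂ) ^ (-s)‖ < 1 :=
    (logd_norm hf (σ := 1) (by have := (dg F).cast_nonneg (α := ℝ); linarith)).trans_lt
      (Real.rpow_lt_one_of_one_lt_of_neg (by linarith) (by norm_num))
  have h3 := ((hasSum_geometric_of_norm_lt_one h2).mul_left
    (f P.asIdeal * (nm P.asIdeal : ℂ) ^ (-s))).mul_left (Real.log (nm P.asIdeal) : ℂ)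
  refine (congrArg (HasSum · _) (funext fun k => ?_)).mp h3
  rw [logd_cpow (nm_nonneg _)]
  ring

end Vale.Agent.P016
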