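import Vale.Agent.P016.Cnt
import Vale.Agent.P026.MelA
import Vale.Agent.P026.Fin2B

/-! The explicit formula on a line far to the right. -/

namespace Vale.Agent.P016

open Complex NumberField IsDedekindDomain MeasureTheory Filter
open scoped Classical ComplexConjugate nonZeroDivisors
open Vale.Agent.P026 (w)

/-- The kernel of the contour integral. -/
noncomputable def kx (x : ℝ) (s : ℂ) : ℂ := cexp (s ^ 2 / 4 + s * Real.log x) / (2 * (√Real.pi : ℝ))

theorem differentiable_kx (x : ℝ) : Differentiable ℂ (kx x) := by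
  unfold kx
  fun_prop

theorem norm_kx {x : ℝ} (hx : 0 < x) (s : ℂ) :
    ‖kx x s‖ = Real.exp (s.re ^ 2 / 4) * x ^ s.re / (2 * √Real.pi) * Real.exp (-s.im ^ 2 / 4) := by
  have e : (s ^ 2 / 4 + s * Real.log x).re =
      s.re ^ 2 / 4 + Real.log x * s.re + -s.im ^ 2 / 4 := by
    simp only [add_re, div_ofNat_re, sq, mul_re, ofReal_re, ofReal_im]
    ring
  rw [kx, norm_div, norm_exp, e, norm_mul, norm_real, Real.norm_of_nonneg (Real.sqrt_nonneg _),
    Real.rpow_def_of_pos hx, Real.exp_add, Real.exp_add, Complex.norm_ofNat]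
  ring

theorem pa_cont (x σ : ℝ) : Continuous fun τ : ℝ => kx x (σ + τ * I) :=
  (differentiable_kx x).continuous.comp (by fun_prop)

theorem pa_integrable {x : ℝ} (hx : 0 < x) (σ : ℝ) :
    Integrable fun τ : ℝ => kx x (σ + τ * I) := by
  refine Integrable.mono' (((integrable_exp_neg_mul_sq (b := 1 / 4) (by norm_num))).const_mul
    (Real.exp (σ ^ 2 / 4) * x ^ σ / (2 * √Real.pi))) (pa_cont x σ).aestronglyMeasurable
    (Eventually.of_forall fun τ => le_of_eq ?_)
  rw [norm_kx hx]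
  simp only [add_re, ofReal_re, mul_re, I_re, mul_zero, ofReal_im, I_im, mul_one, sub_self,
    add_zero, add_im, mul_im, zero_add]
  congr 2
  ring

theorem pa_int (x σ l : ℝ) :
    ∫ τ : ℝ, cexp (l * -((σ : ℂ) + τ * I)) * kx x (σ + τ * I) =
      (Real.exp (-(l - Real.log x) ^ 2) : ℝ) := by
  have h := P026.melA_gauss σ 0 (l - Real.log x)
  have hp : ((√Real.pi : ℝ) : ℂ) ≠ 0 := ofReal_ne_zero.2 (Real.sqrt_pos.2 Real.pi_pos).ne'
  have e : ∀ τ : ℝ, cexp (l * -((σ : ℂ) + τ * I)) * kx x (σ + τ * I) =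
      cexp ((σ + τ * I + (0 : ℝ) * I) ^ 2 / 4 - (σ + τ * I + (0 : ℝ) * I) *
        (l - Real.log x : ℝ)) / (2 * (√Real.pi : ℝ)) := fun τ => by
    rw [kx, ← mul_div_assoc, ← Complex.exp_add]
    congr 2
    push_cast
    ring
  simp only [e]
  rw [integral_div, h]
  field_simp

theorem pa_cpow {y : ℝ} (hy : 0 < y) (s : ℂ) : (y : ℂ) ^ s = cexp (Real.log y * s) := by
  rw [cpow_def_of_ne_zero (ofReal_ne_zero.2 hy.ne'), ofReal_log hy.le]

theorem pa_int' {x y : ℝ} (hx : 0 < x) (hy : 0 < y) (σ : ℝ) :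
    ∫ τ : ℝ, (y : ℂ) ^ (-((σ : ℂ) + τ * I)) * kx x (σ + τ * I) = (w (y / x) : ℝ) := by
  simp only [pa_cpow hy]
  rw [pa_int, P026.w, Real.log_div hy.ne' hx.ne']

theorem pa_norm {y : ℝ} (hy : 0 < y) (σ τ : ℝ) :
    ‖(y : ℂ) ^ (-((σ : ℂ) + τ * I))‖ = y ^ (-σ) := by
  rw [norm_cpow_eq_rpow_re_of_pos hy]
  simp

theorem explicit {F : Type} [Field F] [NumberField F] {x σ : ℝ} (hx : 0 < x)
    (hσ : (dg F : ℝ) + 3 ≤ σ) :
    Integrable (fun τ : ℝ => lf (on1 (F := F)) (σ + τ * I) * kx x (σ + τ * I)) ∧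
      ∫ τ : ℝ, lf (on1 (F := F)) (σ + τ * I) * kx x (σ + τ * I) = (Psi F x : ℂ) := by
  have hs := summable_pp (F := F) hσ
  have hy : ∀ p : PP F × ℕ, 0 < nm p.1.asIdeal ^ (p.2 + 1) := fun p =>
    pow_pos (by linarith [two_le_nm p.1]) _
  have hl : ∀ p : PP F × ℕ, 0 ≤ Real.log (nm p.1.asIdeal) := fun p =>
    Real.log_nonneg (by linarith [two_le_nm p.1])
  set g : PP F × ℕ → ℝ → ℂ := fun p τ => (Real.log (nm p.1.asIdeal) : ℂ) *
    ((nm p.1.asIdeal ^ (p.2 + 1) : ℝ) : ℂ) ^ (-((σ : ℂ) + τ * I)) with hg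
  have hlf : ∀ τ : ℝ, lf (on1 (F := F)) (σ + τ * I) = ∑' p, g p τ := fun τ =>
    tsum_congr fun p => by rw [on1, if_neg p.1.ne_bot, one_pow, one_mul]
  have hn : ∀ p τ, ‖g p τ‖ =
      Real.log (nm p.1.asIdeal) * (nm p.1.asIdeal ^ (p.2 + 1)) ^ (-σ) := fun p τ => by
    rw [hg]
    simp only []
    rw [norm_mul, pa_norm (hy p), norm_real, Real.norm_of_nonneg (hl p)]
  have hc : ∀ p, Continuous (g p) := fun p =>
    continuous_const.mul (Continuous.const_cpow (by fun_prop) (Or.inl (ofReal_ne_zero.2 (hy p).ne')))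
  have hi : ∀ p, Integrable fun τ : ℝ => g p τ * kx x (σ + τ * I) := fun p =>
    (pa_integrable hx σ).bdd_mul (hc p).aestronglyMeasurable
      (Eventually.of_forall fun τ => (hn p τ).le)
  constructor
  · simp only [hlf]
    refine (pa_integrable hx σ).bdd_mul (c := ∑' p : PP F × ℕ,
      Real.log (nm p.1.asIdeal) * (nm p.1.asIdeal ^ (p.2 + 1)) ^ (-σ))
      (continuous_tsum hc hs fun p τ => (hn p τ).le).aestronglyMeasurable
      (Eventually.of_forall fun τ => ?_)
    exact tsum_of_norm_bounded hs.hasSum fun p => (hn p τ).le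
  · have h := hasSum_integral_of_summable_integral_norm hi (by
      simp only [norm_mul, hn, integral_const_mul]
      exact hs.mul_right _)
    simp only [hlf, ← tsum_mul_right]
    rw [← h.tsum_eq, Psi, ofReal_tsum]
    refine tsum_congr fun p => ?_
    simp only [hg, mul_assoc]
    rw [integral_const_mul, pa_int' hx (hy p), ofReal_mul]

theorem pa_w_int {x : ℝ} (hx : 0 < x) :
    IntegrableOn (fun u : ℝ => (w (u / x) : ℂ)) (Set.Ioi 0) ∧
      ∫ u in Set.Ioi (0 : ℝ), (w (u / x) : ℂ) = ((√Real.pi * Real.exp (1 / 4) * x : ℝ) : ℂ) := by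
  have e : (fun u : ℝ => (w (u / x) : ℂ)) =
      fun u : ℝ => (u : ℂ) ^ ((1 : ℂ) - 1) • P026.f2w (x⁻¹ * u) := by
    funext u
    rw [sub_self, cpow_zero, one_smul, P026.f2w, div_eq_inv_mul]
  have hx' : 0 < x⁻¹ := inv_pos.2 hx
  rw [e]
  refine ⟨(MellinConvergent.comp_mul_left hx').2 (P026.f2_conv 1), ?_⟩
  have h := mellin_comp_mul_left P026.f2w 1 hx'
  rw [P026.f2_mellin_w, mellin] at h
  rw [h, cpow_neg_one, ofReal_inv, inv_inv, smul_eq_mul, Real.sqrt_eq_rpow]
  push_cast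
  rw [ofReal_cpow Real.pi_pos.le]
  push_cast
  ring_nf

theorem pole_part {x σ : ℝ} (hx : 1 ≤ x) (hσ : 1 < σ) :
    Integrable (fun τ : ℝ => ((σ : ℂ) + τ * I - 1)⁻¹ * kx x (σ + τ * I)) ∧
      ‖(∫ τ : ℝ, ((σ : ℂ) + τ * I - 1)⁻¹ * kx x (σ + τ * I)) -
        ((√Real.pi * Real.exp (1 / 4) * x : ℝ) : ℂ)‖ ≤ 1 := by
  have hx0 : 0 < x := by linarith
  have hG : Integrable (Function.uncurry fun τ u : ℝ =>
      cexp (Real.log u * -((σ : ℂ) + τ * I)) * kx x (σ + τ * I))
      (volume.prod (volume.restrict (Set.Ioi (1 : ℝ)))) := by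
    have h1 : IntegrableOn (fun u : ℝ => Real.exp (Real.log u * -σ)) (Set.Ioi 1) :=
      (integrableOn_Ioi_rpow_of_lt (a := -σ) (by linarith) one_pos).congr_fun
        (fun u hu => Real.rpow_def_of_pos (one_pos.trans hu) _) measurableSet_Ioi
    refine ((pa_integrable hx0 σ).norm.mul_prod h1).mono' ?_ (Eventually.of_forall fun z => ?_)
    · refine Measurable.aestronglyMeasurable (Measurable.mul ?_
        ((pa_cont x σ).measurable.comp measurable_fst))
      fun_prop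
    · simp only [Function.uncurry, norm_mul, norm_exp]
      rw [mul_comm]
      apply le_of_eq
      congr 2
      simp
  have hin : ∀ τ : ℝ, ∫ u in Set.Ioi (1 : ℝ),
      cexp (Real.log u * -((σ : ℂ) + τ * I)) * kx x (σ + τ * I) =
        ((σ : ℂ) + τ * I - 1)⁻¹ * kx x (σ + τ * I) := fun τ => by
    rw [integral_mul_const, setIntegral_congr_fun measurableSet_Ioi
      (g := fun u : ℝ => (u : ℂ) ^ (-((σ : ℂ) + τ * I)))
      (fun u hu => (pa_cpow (one_pos.trans hu) _).symm),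
      integral_Ioi_cpow_of_lt (by simpa using hσ) one_pos, ofReal_one, one_cpow]
    congr 1
    rw [neg_div, ← div_neg, one_div]
    congr 1
    ring
  simp only [← hin]
  refine ⟨hG.integral_prod_left, ?_⟩
  obtain ⟨hw1, hw2⟩ := pa_w_int hx0
  rw [integral_integral_swap hG, ← hw2, setIntegral_congr_fun measurableSet_Ioi
    (g := fun u : ℝ => (w (u / x) : ℂ)) (fun u hu => by
      simp only []
      rw [pa_int, P026.w, Real.log_div (one_pos.trans hu).ne' hx0.ne']),
    ← Set.Ioc_union_Ioi_eq_Ioi zero_le_one, setIntegral_union (Set.Ioc_disjoint_Ioi le_rfl)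
      measurableSet_Ioi (hw1.mono_set Set.Ioc_subset_Ioi_self)
      (hw1.mono_set (Set.Ioi_subset_Ioi zero_le_one)), sub_add_cancel_right, norm_neg]
  refine (norm_setIntegral_le_of_norm_le_const (C := 1) (by simp) fun u _ => ?_).trans (by simp)
  rw [norm_real, Real.norm_of_nonneg (P026.w_pos _).le]
  exact P026.w_le_one _

end Vale.Agent.P016
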