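import Vale.Agent.P016.ZF
import Vale.Agent.P016.PitA
import Vale.Agent.P016.LogD
import Vale.Agent.Lib.PrimeSumGRHB

/-! The uniform prime ideal theorem. -/

namespace Vale.Agent.P016

open Complex NumberField IsDedekindDomain MeasureTheory Filter
open scoped Classical ComplexConjugate nonZeroDivisors
open Vale.Agent.P026 (w)

theorem logder_Z (h : Mob) : ∃ C : ℝ, 0 < C ∧ ∀ (F : Type) [Field F] [NumberField F] [Om F],
    ∃ G : ℂ → ℂ, (∀ s : ℂ, 767 / 768 ≤ s.re → s.re ≤ dg F + 4 → DifferentiableAt ℂ G s ∧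
        ‖G s‖ ≤ C * sz F ^ 6 * (1 + |s.im|) ^ 2) ∧
      ∀ s : ℂ, s.re = dg F + 4 → lf (on1 (F := F)) s = (s - 1)⁻¹ - G s := by
  obtain ⟨C, hC, hZ⟩ := exists_Z
  refine ⟨8 * 768 ^ 2 * 5 * (36 * C + 1), by positivity, fun F _ _ _ => ?_⟩
  obtain ⟨Z, hd, h1, he, hb⟩ := hZ F
  have n1 : (1 : ℝ) ≤ dg F := by exact_mod_cast one_le_dg (F := F)
  have n2 := dg_le_sz (F := F)
  have hU : IsOpen {s : ℂ | 0 < s.re ∧ s.re < 2 * dg F + 10} :=
    (isOpen_lt continuous_const continuous_re).inter (isOpen_lt continuous_re continuous_const)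
  refine ⟨fun s => deriv Z s / Z s, fun s s0 s1 => ⟨?_, ?_⟩, fun s hs => ?_⟩
  · have a1 : AnalyticAt ℂ Z s := DifferentiableOn.analyticAt
      (fun z hz => (hd z hz.1 hz.2).differentiableWithinAt)
      (hU.mem_nhds ⟨by linarith, by linarith⟩)
    exact a1.deriv.differentiableAt.div a1.differentiableAt
      (zfree h F hd h1 he (by linarith) (by linarith))
  · obtain ⟨t, ht⟩ : ∃ t, t = |s.im| := ⟨_, rfl⟩
    have t0 : 0 ≤ t := ht ▸ abs_nonneg _
    obtain ⟨z, hz⟩ : ∃ z, z = sz F := ⟨_, rfl⟩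
    rw [← hz] at n2 hb ⊢
    have z1 : 1 ≤ z := n1.trans n2
    obtain ⟨c, hc⟩ : ∃ c : ℂ, c = ((dg F : ℝ) + 4 : ℝ) + s.im * I := ⟨_, rfl⟩
    have cre : c.re = dg F + 4 := by rw [hc]; simp
    have cim : c.im = s.im := by rw [hc]; simp
    obtain ⟨R, hR⟩ : ∃ R : ℝ, R = dg F + 4 - 383 / 384 := ⟨_, rfl⟩
    have R5 : R ≤ 5 * z := by linarith
    have R0 : 0 ≤ R := by linarith
    have b1 : ∀ y ∈ Metric.ball c R,
        383 / 384 < y.re ∧ y.re ≤ 2 * dg F + 9 ∧ |y.im| ≤ t + R := fun y hy => by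
      rw [Metric.mem_ball, dist_eq_norm] at hy
      have d1 := abs_lt.1 ((abs_re_le_norm _).trans_lt hy)
      have d2 := (abs_im_le_norm _).trans_lt hy
      rw [sub_re, cre] at d1
      rw [sub_im, cim] at d2
      have d3 := abs_sub_abs_le_abs_sub y.im s.im
      exact ⟨by linarith [d1.1], by linarith [d1.2], by linarith⟩
    have b2 : 1 / 2 ≤ ‖Z c‖ := by
      rw [he c (by linarith) (by linarith), norm_mul]
      have d1 : 1 ≤ ‖c - 1‖ := le_trans (by rw [sub_re, cre, one_re]; linarith) (re_le_norm _)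
      have d2 := zf_sub_one (cm_on1 (F := F)) (s := c) (by linarith)
      have d3 := norm_sub_norm_le 1 (zf (on1 (F := F)) c)
      rw [norm_sub_rev, norm_one] at d3
      nlinarith
    have k := Lib.PS.logDeriv_bound (f := Z) (c := c) (R := R) (r := R - 1 / 768)
      (M := C * z ^ 3 * (1 + (t + R)) ^ 2 + 1) (by linarith) (by linarith) (by positivity)
      (fun y hy => (hd y (by linarith [(b1 y hy).1])
        (by linarith [(b1 y hy).2.1])).differentiableWithinAt)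
      (fun y hy => zfree h F hd h1 he (b1 y hy).1 (by linarith [(b1 y hy).2.1]))
      (fun y hy => by
        obtain ⟨d1, d2, d3⟩ := b1 y hy
        have d4 : Real.exp (C * z ^ 3 * (1 + |y.im|) ^ 2) ≤
            Real.exp (C * z ^ 3 * (1 + (t + R)) ^ 2) := by gcongr
        have d5 := Real.add_one_le_exp 1
        have d6 := Real.exp_pos (C * z ^ 3 * (1 + (t + R)) ^ 2)
        refine (hb y (by linarith) d2).trans (d4.trans ?_)
        rw [Real.exp_add, mul_assoc (Real.exp _)]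
        exact le_mul_of_one_le_right d6.le (by nlinarith)) (z := s) (by
        have e : s - c = ((s.re - (dg F + 4) : ℝ) : ℂ) := by
          apply Complex.ext
          · rw [sub_re, cre, ofReal_re]
          · rw [sub_im, cim, ofReal_im, sub_self]
        rw [e, norm_real, Real.norm_eq_abs]
        exact abs_le.2 ⟨by linarith, by linarith⟩)
    refine k.trans ?_
    rw [← ht, sub_sub_cancel]
    have d1 : 1 + (t + R) ≤ 6 * z * (1 + t) := by nlinarith
    have d2 : 1 ≤ z ^ 5 * (1 + t) ^ 2 :=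
      one_le_mul_of_one_le_of_one_le (one_le_pow₀ z1) (one_le_pow₀ (by linarith))
    calc _ ≤ 8 * (5 * z) / (1 / 768) ^ 2 *
          (C * z ^ 3 * (6 * z * (1 + t)) ^ 2 + z ^ 5 * (1 + t) ^ 2) := by gcongr
      _ = _ := by ring
  · have s1 : s - 1 ≠ 0 := fun k => by
      rw [sub_eq_zero.1 k, one_re] at hs
      linarith
    have a1 := zf_ne_zero (cm_on1 (F := F)) (s := s) (by linarith)
    have a2 : Z =ᶠ[nhds s] fun y => (y - 1) * zf (on1 (F := F)) y := by
      filter_upwards [((isOpen_lt continuous_const continuous_re).inter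
        (isOpen_lt continuous_re continuous_const)).mem_nhds
        (show s ∈ {y : ℂ | (dg F : ℝ) + 3 < y.re} ∩ {y : ℂ | y.re < 2 * dg F + 10} from
          ⟨by simp only [Set.mem_ofPred_eq]; linarith, by simp only [Set.mem_ofPred_eq]; linarith⟩)]
        with y hy using he y (le_of_lt hy.1) hy.2
    have a3 := (((hasDerivAt_id s).sub_const 1).mul
      (hasDerivAt_zf (cm_on1 (F := F)) (s := s) (by linarith))).congr_of_eventuallyEq a2
    dsimp only
    rw [a3.deriv, a2.self_of_nhds, id]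
    field_simp
    ring

theorem pt_wt (t : ℝ) :
    (1 + |t|) ^ 2 * Real.exp (-t ^ 2 / 4) ≤ 24 * Real.exp 2 * Lib.PS.wt t := by
  have t0 := abs_nonneg t
  have a1 := Real.pow_div_factorial_le_exp (1 + |t|) (by positivity) 4
  have a2 : ((1 + |t|) ^ 2)⁻¹ ≤ Lib.PS.wt t := by
    rw [Lib.PS.wt, ← Real.rpow_natCast, ← Real.rpow_neg (by positivity)]
    exact Real.rpow_le_rpow_of_exponent_le (by linarith) (by norm_num)
  have a3 : Real.exp (1 + |t|) * Real.exp (-t ^ 2 / 4) ≤ Real.exp 2 := by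
    rw [← Real.exp_add, ← sq_abs]
    exact Real.exp_le_exp.2 (by nlinarith [sq_nonneg (|t| - 2)])
  refine le_trans ?_ (mul_le_mul_of_nonneg_left a2 (by positivity))
  rw [le_mul_inv_iff₀ (by positivity)]
  norm_num [Nat.factorial] at a1
  have a4 := mul_le_mul_of_nonneg_right a1 (Real.exp_pos (-t ^ 2 / 4)).le
  linarith

theorem pt_bd {x A b : ℝ} (hx : 1 ≤ x) (A0 : 0 ≤ A) {g s : ℂ} (hg : ‖g‖ ≤ A * (1 + |s.im|) ^ 2)
    (s0 : 0 ≤ s.re) (sb : s.re ≤ b) :
    ‖g * kx x s‖ ≤ A * (Real.exp (b ^ 2 / 4) * x ^ b) * (24 * Real.exp 2) * Lib.PS.wt s.im := by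
  have x0 : 0 < x := by linarith
  have a1 : Real.exp (s.re ^ 2 / 4) * x ^ s.re / (2 * √Real.pi) ≤
      Real.exp (b ^ 2 / 4) * x ^ b := by
    have b1 : 1 ≤ √Real.pi := Real.one_le_sqrt.2 (by linarith [Real.pi_gt_three])
    have b2 := Real.rpow_le_rpow_of_exponent_le hx sb
    refine (div_le_self (by positivity) (by linarith)).trans ?_
    gcongr
  rw [norm_mul, norm_kx x0]
  calc _ ≤ A * (1 + |s.im|) ^ 2 * (Real.exp (b ^ 2 / 4) * x ^ b * Real.exp (-s.im ^ 2 / 4)) := by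
        gcongr
    _ = A * (Real.exp (b ^ 2 / 4) * x ^ b) * ((1 + |s.im|) ^ 2 * Real.exp (-s.im ^ 2 / 4)) := by
        ring
    _ ≤ A * (Real.exp (b ^ 2 / 4) * x ^ b) * (24 * Real.exp 2 * Lib.PS.wt s.im) :=
        mul_le_mul_of_nonneg_left (pt_wt _) (by positivity)
    _ = _ := by ring

theorem pit (h : Mob) : Pit := by
  obtain ⟨C, hC, hG⟩ := logder_Z h
  obtain ⟨J, hJ⟩ : ∃ J, J = ∫ t, Lib.PS.wt t := ⟨_, rfl⟩
  have J0 : 0 ≤ J := hJ ▸ integral_nonneg fun t => (Lib.PS.wt_pos t).le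
  refine ⟨767 / 768, 1 + C * Real.exp ((767 / 768) ^ 2 / 4) * (24 * Real.exp 2) * J, by norm_num,
    by norm_num, by positivity, fun F _ _ _ x hx => ?_⟩
  obtain ⟨G, h1, h2⟩ := hG F
  have x0 : 0 < x := by linarith
  have n1 : (1 : ℝ) ≤ dg F := by exact_mod_cast one_le_dg (F := F)
  have z1 := one_le_sz (F := F)
  have A0 : 0 ≤ C * sz F ^ 6 := by positivity
  obtain ⟨i1, e1⟩ := explicit (F := F) (σ := dg F + 4) x0 (by linarith)
  obtain ⟨i2, e2⟩ := pole_part (σ := dg F + 4) hx (by linarith)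
  have e3 := Lib.PS.vertical_shift (F := fun s => G s * kx x s) (a := 767 / 768) (b := dg F + 4)
    (by linarith) (fun s s0 s1 => (h1 s s0 s1).1.mul (differentiable_kx x s))
    fun s s0 s1 => pt_bd hx A0 (h1 s s0 s1).2 (by linarith) s1
  have e4 : ∫ τ : ℝ, G (((dg F : ℝ) + 4 : ℝ) + τ * I) * kx x (((dg F : ℝ) + 4 : ℝ) + τ * I) =
      (∫ τ : ℝ, ((((dg F : ℝ) + 4 : ℝ) : ℂ) + τ * I - 1)⁻¹ * kx x (((dg F : ℝ) + 4 : ℝ) + τ * I)) -
        (Psi F x : ℂ) := by
    rw [← e1, ← integral_sub i2 i1]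
    refine integral_congr_ae (Eventually.of_forall fun τ => ?_)
    dsimp only
    rw [h2 _ (by simp)]
    ring
  have e5 : ‖∫ τ : ℝ, G (((767 / 768 : ℝ) : ℂ) + τ * I) * kx x (((767 / 768 : ℝ) : ℂ) + τ * I)‖ ≤
      C * sz F ^ 6 * (Real.exp ((767 / 768) ^ 2 / 4) * x ^ (767 / 768 : ℝ)) *
        (24 * Real.exp 2) * J := by
    rw [hJ, ← integral_const_mul]
    refine norm_integral_le_of_norm_le (Lib.PS.wt_int.const_mul _)
      (Eventually.of_forall fun τ => ?_)
    have r1 : (((767 / 768 : ℝ) : ℂ) + τ * I).re = 767 / 768 := by simp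
    have r2 : (((767 / 768 : ℝ) : ℂ) + τ * I).im = τ := by simp
    have k := pt_bd hx A0 (h1 _ r1.ge (by linarith)).2 (by rw [r1]; norm_num) r1.le
    rwa [r2] at k
  rw [← e3, e4] at e5
  have a1 : 1 ≤ sz F ^ 6 * x ^ (767 / 768 : ℝ) :=
    one_le_mul_of_one_le_of_one_le (one_le_pow₀ z1) (Real.one_le_rpow hx (by norm_num))
  rw [← Real.norm_eq_abs, ← norm_real, ofReal_sub]
  refine (norm_sub_le_norm_sub_add_norm_sub _ _ _).trans
    ((add_le_add ((norm_sub_rev _ _).trans_le e5) e2).trans ?_)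
  nlinarith

end Vale.Agent.P016
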