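import Vale.Agent.P016.Kum

/-! Primes at which a is an l-th power. -/

namespace Vale.Agent.P016

open Finset Filter
open scoped Classical NumberTheorySymbols

/-- Primes in the dyadic window at which a is an l-th power residue with l dividing p - 1. -/
noncomputable def badS (a : ℤ) (l x : ℕ) : Finset ℕ :=
  (Ioc (x / 2) x).filter fun p => p.Prime ∧ l ∣ p - 1 ∧ (a : ZMod p) ^ ((p - 1) / l) = 1

open NumberField in
/-- Degree one primes inside the smoothed Chebyshev function. -/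
theorem le_Psi (K : Type) [Field K] [NumberField K] (m : ℕ) (s : Finset ℕ) {x : ℝ} (hx : 0 < x)
    (hs : ∀ p ∈ s, ∃ T : Finset (PP K), T.card = m ∧ ∀ P ∈ T, Ideal.absNorm P.asIdeal = p) :
    m * ∑ p ∈ s, Real.log p * P026.w (p / x) ≤ Psi K x := by
  choose! T hT using hs
  let e : PP K ↪ PP K × ℕ := ⟨fun P => (P, 0), fun _ _ h => congrArg Prod.fst h⟩
  refine le_trans (le_of_eq ?_) ((summable_Psi hx).sum_le_tsum (s.biUnion fun p => (T p).map e)
    fun y _ => mul_nonneg (Real.log_nonneg (one_le_two.trans (two_le_nm _))) (Real.exp_pos _).le)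
  rw [sum_biUnion, mul_sum]
  · refine sum_congr rfl fun p hp => ?_
    rw [sum_map, ← (hT p hp).1, ← nsmul_eq_mul, ← sum_const]
    refine sum_congr rfl fun P hP => ?_
    have : nm P.asIdeal = p := by rw [nm, (hT p hp).2 P hP]
    change _ = Real.log (nm P.asIdeal) * P026.w (nm P.asIdeal ^ (0 + 1) / x)
    rw [this, zero_add, pow_one]
  · intro p hp q hq hpq
    rw [Function.onFun, Finset.disjoint_map, Finset.disjoint_left]
    exact fun P h1 h2 => hpq (((hT p hp).2 P h1).symm.trans ((hT q hq).2 P h2))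

theorem half_le_w {y : ℝ} (h1 : 1 / 2 ≤ y) (h2 : y ≤ 2) : 3 / 5 ≤ P026.w y := by
  have a1 : Real.log y ≤ Real.log 2 := Real.log_le_log (by linarith) h2
  have a2 : Real.log (1 / 2) ≤ Real.log y := Real.log_le_log (by norm_num) h1
  rw [one_div, Real.log_inv] at a2
  have a3 := Real.log_two_lt_d9
  have a4 : Real.log y ^ 2 ≤ (7 / 10) ^ 2 := sq_le_sq' (by linarith) (by linarith)
  have a5 := Real.exp_bound' (x := 49 / 100) (by norm_num) (by norm_num) (n := 3) (by norm_num)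
  simp only [sum_range_succ, range_zero, sum_empty, Nat.factorial] at a5
  norm_num at a5
  have a6 : Real.exp (Real.log y ^ 2) ≤ 5 / 3 :=
    (Real.exp_le_exp.2 (by linarith)).trans (a5.trans (by norm_num))
  rw [P026.w, Real.exp_neg, le_inv_comm₀ (by norm_num) (Real.exp_pos _)]
  linarith

theorem sqrt_pi_le : √Real.pi * Real.exp (1 / 4) ≤ 12 / 5 := by
  have a1 : √Real.pi ≤ 9 / 5 := Real.sqrt_le_iff.2 ⟨by norm_num, by linarith [Real.pi_lt_d2]⟩
  have a2 : Real.exp (1 / 4) ≤ 4 / 3 := by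
    have h := Real.add_one_le_exp (-(1 / 4))
    rw [Real.exp_neg, le_inv_comm₀ (by norm_num) (Real.exp_pos _)] at h
    linarith
  calc _ ≤ 9 / 5 * (4 / 3 : ℝ) := by gcongr
    _ = _ := by norm_num

theorem sum_log_dvd {D : ℕ} (hD : D ≠ 0) (s : Finset ℕ) (hs : ∀ p ∈ s, p.Prime ∧ p ∣ D) :
    ∑ p ∈ s, Real.log p ≤ Real.log D := by
  have h0 : ∀ p ∈ s, (0 : ℝ) < p := fun p hp => by exact_mod_cast (hs p hp).1.pos
  rw [← Real.log_prod fun p hp => (h0 p hp).ne']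
  refine Real.log_le_log (prod_pos h0) ?_
  rw [← Nat.cast_prod]
  exact_mod_cast Nat.le_of_dvd (Nat.pos_of_ne_zero hD)
    (prod_primes_dvd D (fun p hp => (hs p hp).1.prime) fun p hp => (hs p hp).2)

theorem bad_one (h : Pit) (a : ℤ) : ∃ θ C : ℝ, θ < 1 ∧ 0 < C ∧ ∀ l x : ℕ, l.Prime → l ≠ 2 →
    (∀ b : ℤ, b ^ l ≠ a) → 1 ≤ x →
    ∑ p ∈ badS a l x, Real.log p ≤ 5 * x / (((l : ℝ) - 1) * l) + C * (l : ℝ) ^ 24 * (x : ℝ) ^ θ := by
  obtain ⟨θ, C, h0, h1, hC, h⟩ := h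
  have hA : (0 : ℝ) < 1 + Real.log a.natAbs := by have := Real.log_natCast_nonneg a.natAbs; linarith
  refine ⟨θ, 2 * C * 4 ^ 6 * (1 + Real.log a.natAbs) ^ 6 + 2 * (1 + Real.log a.natAbs), h1,
    by positivity, fun l x hl h2 ha hx => ?_⟩
  obtain ⟨K, _, _, _, D, hD, -, hD1, hsz, hT⟩ := kummer hl h2 ha
  generalize 1 + Real.log a.natAbs = A at *
  have x1 : (1 : ℝ) ≤ x := by exact_mod_cast hx
  have x0 : (0 : ℝ) < x := by linarith
  have l2 : (2 : ℝ) ≤ l := by exact_mod_cast hl.two_le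
  have t1 : 1 ≤ (x : ℝ) ^ θ := Real.one_le_rpow x1 h0.le
  have b1 := sum_log_dvd hD ((badS a l x).filter (· ∣ D)) fun p hp =>
    ⟨(mem_filter.1 (mem_filter.1 hp).1).2.1, (mem_filter.1 hp).2⟩
  have b2 := le_Psi K ((l - 1) * l) ((badS a l x).filter (¬ · ∣ D)) x0 fun p hp =>
    have := (mem_filter.1 (mem_filter.1 hp).1).2
    hT p this.1 (mem_filter.1 hp).2 this.2.1 this.2.2
  have b3 : 3 / 5 * ∑ p ∈ (badS a l x).filter (¬ · ∣ D), Real.log p ≤
      ∑ p ∈ (badS a l x).filter (¬ · ∣ D), Real.log p * P026.w (p / x) := by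
    rw [mul_sum]
    refine sum_le_sum fun p hp => ?_
    obtain ⟨c1, c2⟩ := mem_Ioc.1 (mem_filter.1 (mem_filter.1 hp).1).1
    have c3 : (x : ℝ) ≤ 2 * p := by exact_mod_cast (show x ≤ 2 * p by omega)
    have c4 : (p : ℝ) ≤ x := by exact_mod_cast c2
    rw [mul_comm]
    refine mul_le_mul_of_nonneg_left (half_le_w ?_ ?_) (Real.log_natCast_nonneg p)
    · rw [le_div_iff₀ x0]; linarith
    · rw [div_le_iff₀ x0]; linarith
  have b4 := (abs_le.1 (h K x x1)).2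
  have b5 : C * sz K ^ 6 * (x : ℝ) ^ θ ≤ C * (4 * l ^ 4 * A) ^ 6 * x ^ θ := by
    have := one_le_sz (F := K)
    gcongr
  have b6 := mul_le_mul_of_nonneg_right sqrt_pi_le x0.le
  rw [Nat.cast_mul, Nat.cast_pred hl.pos] at b2
  rw [← sum_filter_add_sum_filter_not _ (· ∣ D)]
  generalize ∑ p ∈ (badS a l x).filter (¬ · ∣ D), Real.log p * P026.w (p / x) = S1 at *
  generalize ∑ p ∈ (badS a l x).filter (¬ · ∣ D), Real.log p = S2 at *
  have m1 : (1 : ℝ) ≤ (l - 1) * l := by nlinarith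
  have b7 : 2 * (l : ℝ) ^ 4 * A ≤ 2 * A * l ^ 24 * x ^ θ := by
    calc _ = 2 * A * (l : ℝ) ^ 4 * 1 := by ring
      _ ≤ _ := by gcongr <;> linarith
  have e0 : 0 ≤ 2 * C * 4 ^ 6 * A ^ 6 * (l : ℝ) ^ 24 * x ^ θ := by positivity
  have b8 : S2 ≤ 5 * x / ((l - 1) * l) + 2 * C * 4 ^ 6 * A ^ 6 * l ^ 24 * x ^ θ := by
    rw [← sub_le_iff_le_add, le_div_iff₀ (by linarith), sub_mul]
    have c1 := le_mul_of_one_le_right e0 m1
    have c2 := mul_le_mul_of_nonneg_left b3 (zero_le_one.trans m1)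
    have c3 : C * (4 * l ^ 4 * A) ^ 6 * (x : ℝ) ^ θ =
      1 / 2 * (2 * C * 4 ^ 6 * A ^ 6 * (l : ℝ) ^ 24 * x ^ θ) := by ring
    linarith
  linarith

theorem bad_tele {L : ℕ} (hL : 1 ≤ L) (n : ℕ) :
    ∑ l ∈ Ioc L n, 1 / (((l : ℝ) - 1) * l) ≤ 1 / L := by
  have L0 : (0 : ℝ) < L := by exact_mod_cast hL
  rcases le_or_gt n L with h | h
  · rw [Ioc_eq_empty (not_lt.2 h), sum_empty]; positivity
  suffices ∀ n, L ≤ n → ∑ l ∈ Ioc L n, 1 / (((l : ℝ) - 1) * l) = 1 / L - 1 / n by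
    rw [this n h.le]
    exact sub_le_self _ (by positivity)
  intro n hn
  induction n, hn using Nat.le_induction with
  | base => simp
  | succ n hn ih =>
    have : (0 : ℝ) < n := by exact_mod_cast hL.trans hn
    rw [sum_Ioc_succ_top hn, ih]
    push_cast
    rw [add_sub_cancel_right]
    field_simp
    ring

theorem bad_npow {a : ℤ} (ha : 2 ≤ a.natAbs) {l : ℕ} (hl : a.natAbs < l) (b : ℤ) : b ^ l ≠ a :=
  fun h => by
  have h1 : b.natAbs ^ l = a.natAbs := by rw [← h, Int.natAbs_pow]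
  rcases le_or_gt b.natAbs 1 with h2 | h2
  · have := pow_le_one₀ (Nat.zero_le _) h2 (n := l)
    omega
  · have := Nat.lt_pow_self (n := l) h2
    omega

theorem bad_sum (h : Pit) {a : ℤ} (ha : 2 ≤ a.natAbs) : ∃ δ : ℝ, 0 < δ ∧ ∀ ε : ℝ, 0 < ε →
    ∀ᶠ x : ℕ in atTop, ∀ L : ℕ, a.natAbs ≤ L →
      ∑ l ∈ (Ioc L ⌊(x : ℝ) ^ δ⌋₊).filter Nat.Prime, ∑ p ∈ badS a l x, Real.log p ≤
        5 * x / L + ε * x := by
  obtain ⟨θ, C, h1, hC, h⟩ := bad_one h a
  have hδ : 0 < (1 - θ) / 26 := by linarith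
  refine ⟨(1 - θ) / 26, hδ, fun ε hε => ?_⟩
  obtain ⟨δ, hd⟩ : ∃ δ, δ = (1 - θ) / 26 := ⟨_, rfl⟩
  rw [← hd] at hδ ⊢
  filter_upwards [((tendsto_rpow_atTop hδ).comp tendsto_natCast_atTop_atTop).eventually_ge_atTop
    (C / ε), eventually_ge_atTop 1] with x hx x1 L hL
  have x0 : (0 : ℝ) < x := by exact_mod_cast x1
  have y0 : 0 < (x : ℝ) ^ δ := by positivity
  have a1 : ∀ l ∈ (Ioc L ⌊(x : ℝ) ^ δ⌋₊).filter Nat.Prime, ∑ p ∈ badS a l x, Real.log p ≤
      5 * x * (1 / (((l : ℝ) - 1) * l)) + C * (x ^ δ) ^ 24 * (x : ℝ) ^ θ := fun l hl => by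
    obtain ⟨b1, b2⟩ := mem_Ioc.1 (mem_filter.1 hl).1
    refine (h l x (mem_filter.1 hl).2 (by omega) (bad_npow ha (by omega)) x1).trans ?_
    have : (l : ℝ) ≤ x ^ δ := (Nat.le_floor_iff y0.le).1 b2
    rw [mul_one_div]
    gcongr
  refine (sum_le_sum a1).trans ?_
  rw [sum_add_distrib, ← mul_sum, sum_const, nsmul_eq_mul]
  refine add_le_add ?_ ?_
  · rw [← mul_one_div (5 * x : ℝ)]
    refine mul_le_mul_of_nonneg_left ((sum_le_sum_of_subset_of_nonneg (filter_subset _ _)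
      fun l hl _ => ?_).trans (bad_tele (by omega) _)) (by positivity)
    have : (1 : ℝ) ≤ l := by exact_mod_cast (show 1 ≤ l by have := (mem_Ioc.1 hl).1; omega)
    exact div_nonneg one_pos.le (mul_nonneg (by linarith) (by linarith))
  · have a2 : (((Ioc L ⌊(x : ℝ) ^ δ⌋₊).filter Nat.Prime).card : ℝ) ≤ x ^ δ := by
      refine le_trans (Nat.cast_le.2 ((card_filter_le _ _).trans ?_)) (Nat.floor_le y0.le)
      rw [Nat.card_Ioc]
      exact Nat.sub_le _ _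
    have a3 : C ≤ ε * x ^ δ := by
      rw [mul_comm, ← div_le_iff₀ hε]
      exact hx
    have a4 : ((x : ℝ) ^ δ) ^ 26 * x ^ θ = x := by
      rw [← Real.rpow_natCast, ← Real.rpow_mul x0.le, ← Real.rpow_add x0,
        show δ * (26 : ℕ) + θ = 1 by rw [hd]; push_cast; ring, Real.rpow_one]
    calc _ ≤ x ^ δ * (ε * x ^ δ * (x ^ δ) ^ 24 * (x : ℝ) ^ θ) := by gcongr
      _ = ε * ((x ^ δ) ^ 26 * x ^ θ) := by ring
      _ = _ := by rw [a4]

/-- Primes at which a has small order. -/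
theorem small_order {a : ℤ} (ha : 2 ≤ a.natAbs) (y : ℕ) (s : Finset ℕ)
    (hs : ∀ p ∈ s, p.Prime ∧ ∃ k, 1 ≤ k ∧ k ≤ y ∧ (a : ZMod p) ^ k = 1) :
    ∑ p ∈ s, Real.log p ≤ (y : ℝ) ^ 2 * Real.log (2 * a.natAbs) := by
  have h0 : ∀ k ∈ Icc 1 y, (a ^ k - 1).natAbs ≠ 0 := fun k hk h => by
    have h1 : a.natAbs ^ k = 1 := by
      rw [← Int.natAbs_pow, sub_eq_zero.1 (Int.natAbs_eq_zero.1 h), Int.natAbs_one]
    have := Nat.one_lt_pow (n := k) (a := a.natAbs) (by have := (mem_Icc.1 hk).1; omega) ha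
    omega
  refine (sum_log_dvd (prod_ne_zero_iff.2 h0) s fun p hp => ⟨(hs p hp).1, ?_⟩).trans ?_
  · obtain ⟨k, h1, h2, h3⟩ := (hs p hp).2
    refine Dvd.dvd.trans ?_ (dvd_prod_of_mem _ (mem_Icc.2 ⟨h1, h2⟩))
    rw [← Int.natCast_dvd, ← ZMod.intCast_zmod_eq_zero_iff_dvd]
    push_cast
    rw [h3, sub_self]
  have a2 : (2 : ℝ) ≤ a.natAbs := by exact_mod_cast ha
  have a3 : 0 ≤ Real.log (2 * a.natAbs) := Real.log_nonneg (by linarith)
  rw [Nat.cast_prod, Real.log_prod fun k hk => by exact_mod_cast h0 k hk]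
  refine (sum_le_card_nsmul _ _ (y * Real.log (2 * a.natAbs)) fun k hk => ?_).trans ?_
  · obtain ⟨h1, h2⟩ := mem_Icc.1 hk
    have b1 : (a ^ k - 1).natAbs ≤ (2 * a.natAbs) ^ k := by
      refine (Int.natAbs_sub_le _ _).trans ?_
      rw [Int.natAbs_pow, Int.natAbs_one, mul_pow]
      have c1 : 1 ≤ a.natAbs ^ k := Nat.one_le_pow _ _ (by omega)
      have c2 : 2 ≤ 2 ^ k := Nat.le_self_pow (by omega) 2
      nlinarith
    refine (Real.log_le_log (by exact_mod_cast Nat.pos_of_ne_zero (h0 k hk))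
      (show _ ≤ (2 * (a.natAbs : ℝ)) ^ k by exact_mod_cast b1)).trans ?_
    rw [Real.log_pow]
    exact mul_le_mul_of_nonneg_right (by exact_mod_cast h2) a3
  · rw [Nat.card_Icc, Nat.add_sub_cancel, nsmul_eq_mul, sq, mul_assoc]

end Vale.Agent.P016
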