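import Mathlib

/-! A residue class of nonresidues that avoids 1 modulo the odd primes dividing a. -/

namespace Vale.Agent.P016

open Finset Filter
open scoped Classical NumberTheorySymbols

theorem cls_cong {a : ℤ} {r r' : ℕ} (hr : Odd r) (h : r ≡ r' [MOD 4 * a.natAbs]) :
    J(a | r) = J(a | r') := by
  have h2 : r ≡ r' [MOD 2] := h.of_dvd ⟨2 * a.natAbs, by ring⟩
  have hr' : Odd r' := by
    rw [Nat.odd_iff] at hr ⊢
    rw [← hr]
    exact h2.symm
  rw [jacobiSym.mod_right a hr, jacobiSym.mod_right a hr', h]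

theorem cls_odd {l : ℕ} (hl : l.Prime) (j : ℕ) {b : ℤ} (hb : ¬ l ∣ b.natAbs) :
    ∃ r : ℕ, r.Coprime (4 * ((l : ℤ) ^ (2 * j + 1) * b).natAbs) ∧
      J((l : ℤ) ^ (2 * j + 1) * b | r) = -1 := by
  have key : ∀ r : ℕ, r ≡ 1 [MOD 4 * b.natAbs] → r.Coprime l → J((l : ℤ) | r) = -1 →
      r.Coprime (4 * ((l : ℤ) ^ (2 * j + 1) * b).natAbs) ∧
        J((l : ℤ) ^ (2 * j + 1) * b | r) = -1 := by
    intro r h1 h2 h3
    have h4 : r.Coprime (4 * b.natAbs) := by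
      rw [Nat.Coprime, h1.gcd_eq, Nat.gcd_one_left]
    have h5 : Odd r := (Nat.coprime_two_right).1
      (Nat.Coprime.coprime_dvd_right ⟨2 * b.natAbs, by ring⟩ h4)
    refine ⟨?_, ?_⟩
    · rw [Int.natAbs_mul, Int.natAbs_pow, Int.natAbs_natCast, mul_left_comm]
      exact Nat.Coprime.mul_right (h2.pow_right _) h4
    · rw [jacobiSym.mul_left, jacobiSym.pow_left, h3, cls_cong h5 h1, jacobiSym.one_right, mul_one]
      exact Odd.neg_one_pow ⟨j, rfl⟩
  rcases eq_or_ne l 2 with rfl | h2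
  · refine ⟨4 * b.natAbs + 1, key _ (Nat.add_modEq_left) ?_ ?_⟩
    · exact (Nat.coprime_two_right).2 ⟨2 * b.natAbs, by ring⟩
    · rw [Nat.cast_ofNat, jacobiSym.at_two ⟨2 * b.natAbs, by ring⟩, ZMod.χ₈_nat_eq_if_mod_eight,
        if_neg (by omega), if_neg (by omega)]
  · have : Fact l.Prime := ⟨hl⟩
    obtain ⟨t, ht⟩ := quadraticChar_exists_neg_one (F := ZMod l) (by rwa [ZMod.ringChar_zmod_n])
    have co : (4 * b.natAbs).Coprime l := by
      refine Nat.Coprime.mul_left ?_ ((Nat.Prime.coprime_iff_not_dvd hl).2 hb).symm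
      exact Nat.Coprime.pow_left 2 ((Nat.coprime_primes Nat.prime_two hl).2 h2.symm)
    obtain ⟨r, h3, h4⟩ := Nat.chineseRemainder co 1 t.val
    have h5 : J((r : ℤ) | l) = -1 := by
      rw [← jacobiSym.legendreSym.to_jacobiSym, legendreSym, Int.cast_natCast,
        (ZMod.natCast_eq_natCast_iff _ _ _).2 h4, ZMod.natCast_zmod_val]
      exact ht
    refine ⟨r, key r h3 ?_ ?_⟩
    · by_contra h6
      rw [(jacobiSym.eq_zero_iff_not_coprime (a := r) (b := l)).2 h6] at h5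
      exact absurd h5 (by norm_num)
    · rw [jacobiSym.quadratic_reciprocity_one_mod_four' (hl.odd_of_ne_two h2)
        (h3.of_mul_right _), h5]

theorem cls_pred {n : ℕ} (hn : n ≠ 0) : (4 * n - 1).Coprime (4 * n) := by
  obtain ⟨m, hm⟩ : ∃ m, 4 * n = m + 1 := ⟨4 * n - 1, by omega⟩
  rw [hm, Nat.add_sub_cancel]
  exact Nat.coprime_self_add_right.2 (Nat.coprime_one_right m)

theorem cls_gcd {a : ℤ} {r : ℕ} (h : r.Coprime (4 * a.natAbs)) : a.gcd r = 1 :=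
  (Nat.Coprime.coprime_mul_left_right h).symm

theorem exists_nonres {a : ℤ} (ha : ¬ IsSquare a) :
    ∃ r : ℕ, r.Coprime (4 * a.natAbs) ∧ J(a | r) = -1 := by
  have h0 : a.natAbs ≠ 0 := fun h => ha (Int.natAbs_eq_zero.1 h ▸ IsSquare.zero)
  obtain ⟨m, b, hmb, hm⟩ := Nat.sq_mul_squarefree a.natAbs
  rcases eq_or_ne m 1 with rfl | hm1
  · have h1 : a = -1 * (b : ℤ) ^ 2 := by
      rcases Int.natAbs_eq a with h | h
      · exact absurd ⟨b, by rw [h, ← hmb]; push_cast; ring⟩ ha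
      · rw [h, ← hmb]; push_cast; ring
    have h2 := cls_pred h0
    refine ⟨4 * a.natAbs - 1, h2, ?_⟩
    have h3 : (4 * a.natAbs - 1) % 4 = 3 := by omega
    have h4 : (b : ℤ).gcd (4 * a.natAbs - 1 : ℕ) = 1 :=
      (Nat.Coprime.coprime_dvd_right (show b ∣ 4 * a.natAbs from ⟨4 * b, by rw [← hmb]; ring⟩)
        h2).symm
    generalize 4 * a.natAbs - 1 = r at *
    rw [h1, jacobiSym.mul_left, jacobiSym.sq_one' h4,
      jacobiSym.at_neg_one (Nat.odd_iff.2 (by omega)), ZMod.χ₄_nat_three_mod_four h3, mul_one]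
  · obtain ⟨l, hl, m', rfl⟩ := Nat.exists_prime_and_dvd hm1
    have hb0 : b ≠ 0 := by
      rintro rfl
      exact h0 (by rw [← hmb]; simp)
    obtain ⟨j, b', hb', rfl⟩ := Nat.exists_eq_pow_mul_and_not_dvd hb0 l hl.ne_one
    have h1 : ¬ l ∣ b' ^ 2 * m' := fun h => ((Nat.Prime.dvd_mul hl).1 h).elim
      (fun h => hb' (hl.dvd_of_dvd_pow h))
      fun h => hl.not_isUnit (hm l (mul_dvd_mul_left l h))
    rcases Int.natAbs_eq a with h | h
    · have h2 : a = (l : ℤ) ^ (2 * j + 1) * (b' ^ 2 * m' : ℕ) := by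
        rw [h, ← hmb]; push_cast; ring
      rw [h2]
      exact cls_odd hl j (by rwa [Int.natAbs_natCast])
    · have h2 : a = (l : ℤ) ^ (2 * j + 1) * -(b' ^ 2 * m' : ℕ) := by
        rw [h, ← hmb]; push_cast; ring
      rw [h2]
      exact cls_odd hl j (by rwa [Int.natAbs_neg, Int.natAbs_natCast])

theorem cls_three {a : ℤ} (ha : ¬ IsSquare a) :
    ∃ r : ℕ, r.Coprime (4 * a.natAbs) ∧ J(a | r) = -1 ∧ (3 ∣ a.natAbs → ¬ r ≡ 1 [MOD 3]) := by
  have h0 : a.natAbs ≠ 0 := fun h => ha (Int.natAbs_eq_zero.1 h ▸ IsSquare.zero)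
  obtain ⟨r, h1, h2⟩ := exists_nonres ha
  have h3 := cls_pred h0
  have h4 : 3 ∣ a.natAbs → (4 * a.natAbs - 1) % 3 = 2 := by omega
  rcases jacobiSym.eq_one_or_neg_one (cls_gcd h3) with h | h
  · by_cases h5 : r % 3 = 1
    · refine ⟨r * (4 * a.natAbs - 1), Nat.Coprime.mul_left h1 h3, ?_, fun h6 h7 => ?_⟩
      · rw [jacobiSym.mul_right' a (by omega) (by omega), h2, h, mul_one]
      · rw [Nat.ModEq, Nat.mul_mod, h5, h4 h6] at h7
        exact absurd h7 (by norm_num)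
    · exact ⟨r, h1, h2, fun _ => h5⟩
  · exact ⟨_, h3, h, fun h6 h7 => by rw [Nat.ModEq, h4 h6] at h7; exact absurd h7 (by norm_num)⟩

theorem exists_class {a : ℤ} (ha : ¬ IsSquare a) :
    ∃ r : ℕ, r.Coprime (4 * a.natAbs) ∧ J(a | r) = -1 ∧
      ∀ l : ℕ, l.Prime → l ≠ 2 → l ∣ a.natAbs → ¬ r ≡ 1 [MOD l] := by
  have h0 : 4 * a.natAbs ≠ 0 := fun h =>
    ha (Int.natAbs_eq_zero.1 (by omega : a.natAbs = 0) ▸ IsSquare.zero)
  obtain ⟨r, h1, h2, h3⟩ := cls_three ha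
  obtain ⟨y, hy⟩ := Nat.chineseRemainderOfFinset
    (fun l => if l ≠ 2 ∧ r ≡ 1 [MOD l] then 2 else 1) id (4 * a.natAbs).primeFactors
    (fun l hl => (Nat.prime_of_mem_primeFactors hl).ne_zero)
    fun l hl l' hl' h => (Nat.coprime_primes (Nat.prime_of_mem_primeFactors hl)
      (Nat.prime_of_mem_primeFactors hl')).2 h
  have h4 : y.Coprime (4 * a.natAbs) := by
    refine Nat.coprime_of_dvd fun p hp h5 h6 => ?_
    have h7 := ((hy p (Nat.mem_primeFactors.2 ⟨hp, h6, h0⟩)).dvd_iff (dvd_refl p)).1 h5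
    split_ifs at h7 with h8
    · exact h8.1 ((Nat.prime_dvd_prime_iff_eq hp Nat.prime_two).1 h7)
    · exact hp.not_dvd_one h7
  have hne : ∀ z : ℕ, z.Coprime (4 * a.natAbs) → z ≠ 0 := by
    rintro _ hz rfl
    rw [Nat.coprime_zero_left] at hz
    omega
  refine ⟨r * y ^ 2, Nat.Coprime.mul_left h1 (h4.pow_left 2), ?_, fun l hl hl2 hla h5 => ?_⟩
  · rw [jacobiSym.mul_right' a (hne r h1) (pow_ne_zero 2 (hne y h4)), h2, jacobiSym.pow_right,
      jacobiSym.sq_one (cls_gcd h4), mul_one]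
  · have h6 := hy l (Nat.mem_primeFactors.2 ⟨hl, hla.mul_left 4, h0⟩)
    split_ifs at h6 with h7
    · have h8 : 1 ≡ 1 * 2 ^ 2 [MOD l] := h5.symm.trans (h7.2.mul (h6.pow 2))
      have h9 : l ∣ 3 := (Nat.modEq_iff_dvd' (by norm_num)).1 h8
      obtain rfl := (Nat.prime_dvd_prime_iff_eq hl Nat.prime_three).1 h9
      exact h3 hla h7.2
    · refine h7 ⟨hl2, ?_⟩
      have h8 : r * y ^ 2 ≡ r * 1 ^ 2 [MOD l] := (h6.pow 2).mul_left r
      rw [one_pow, mul_one] at h8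
      exact h8.symm.trans h5

end Vale.Agent.P016
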