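import Vale.Agent.P026.Kap

/-! Archimedean definitions for totally complex fields (copy of the archimedean part of
P319B.Defs, with the cube root of unity replaced by any totally nonreal element). -/

namespace Vale.Agent.P016

open Complex NumberField
open scoped Classical ComplexConjugate
open Vale.Agent.P026 (w kk fk)

noncomputable section

/-- A field with a chosen element that is nonreal in every complex embedding. -/
class Om (F : Type) [Field F] where
  eta : F
  im_ne : ∀ φ : F →+* ℂ, (φ eta).im ≠ 0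

/-! ### Archimedean objects -/

section Arch

variable (F : Type) [Field F] [NumberField F] [Om F]

/-- The embeddings with positive imaginary part at eta (one for each complex place). -/
def Io : Type := {φ : F →+* ℂ // 0 < (φ Om.eta).im}
instance : Fintype (Io F) := by unfold Io; infer_instance
/-- The number of places. -/
def rr : ℕ := Fintype.card (Io F)
/-- The degree. -/
abbrev dg (F : Type) [Field F] [NumberField F] : ℕ := Module.finrank ℚ F

variable {F}

/-- The Minkowski embedding. -/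
def emb (z : F) : Io F → ℂ := fun v => v.1 z
/-- The squared absolute values. -/
def sqv (z : F) : Io F → ℝ := fun v => normSq (v.1 z)
/-- The absolute norm. -/
def Nin (z : F) : ℝ := ∏ v, sqv z v
/-- The logarithmic embedding. -/
def lg (z : F) : Io F → ℝ := fun v => Real.log (sqv z v)
/-- The archimedean character. -/
def eA (ξ x : Io F → ℂ) : ℂ :=
  cexp (2 * Real.pi * I * ((∑ v, 2 * (ξ v * x v).re : ℝ) : ℂ))
/-- Fourier transform. -/
def FT (f : (Io F → ℂ) → ℂ) (ξ : Io F → ℂ) : ℂ := ∫ x, f x * conj (eA ξ x)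
/-- Archimedean angular factor. -/
def angI (o : Bool) (z : F) : ℂ := ∏ v : Io F, (if o then v.1 z else conj (v.1 z)) / (‖v.1 z‖ : ℂ)

/-- exp (2 π i Tr z). -/
def eT {F : Type} [Field F] [NumberField F] (z : F) : ℂ :=
  cexp (2 * Real.pi * I * ((Algebra.trace ℚ F z : ℚ) : ℂ))
/-- Full lattices. -/
def IsLat {F : Type} [Field F] [NumberField F] (L : AddSubgroup F) : Prop :=
  ∃ b : Module.Basis (Fin (dg F)) ℚ F, ∀ x, x ∈ L ↔ x ∈ Submodule.span ℤ (Set.range b)
/-- The dual lattice for the trace form. -/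
def dualL {F : Type} [Field F] [NumberField F] (L : AddSubgroup F) : AddSubgroup F where
  carrier := {h | ∀ x ∈ L, ∃ k : ℤ, Algebra.trace ℚ F (h * x) = k}
  zero_mem' := fun x _ => ⟨0, by simp⟩
  add_mem' := by
    intro a b ha hb x hx
    obtain ⟨k, hk⟩ := ha x hx
    obtain ⟨l, hl⟩ := hb x hx
    exact ⟨k + l, by rw [add_mul, map_add, hk, hl]; push_cast; ring⟩
  neg_mem' := by
    intro a ha x hx
    obtain ⟨k, hk⟩ := ha x hx
    exact ⟨-k, by rw [neg_mul, map_neg, hk]; push_cast; ring⟩
/-- The ring of integers as an additive subgroup. -/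
def latO (F : Type) [Field F] : AddSubgroup F := (integralClosure ℤ F).toSubring.toAddSubgroup
/-- Sum over the cosets of L. -/
def qsum {F : Type} [Field F] (L : AddSubgroup F) (f : F → ℂ) : ℂ := ∑' z : F ⧸ L, f z.out
/-- A fundamental parallelepiped. -/
def FD (L : AddSubgroup F) : Set (Io F → ℂ) :=
  if h : IsLat L then
    {z | ∃ a : Fin (dg F) → ℝ, (∀ i, a i ∈ Set.Ico (0 : ℝ) 1) ∧ z = ∑ i, a i • emb (h.choose i)}
  else ∅
/-- Covolume. -/
def cov (L : AddSubgroup F) : ℝ := (MeasureTheory.volume (FD L)).toReal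

/-- A group of integral units of finite index. -/
def UnitGrp {F : Type} [Field F] (E : Subgroup Fˣ) : Prop :=
  (∀ u ∈ E, IsIntegral ℤ ((u : Fˣ) : F)) ∧ ∃ k : ℕ, 0 < k ∧ ∀ u : Fˣ,
    IsIntegral ℤ ((u : Fˣ) : F) → IsIntegral ℤ ((u⁻¹ : Fˣ) : F) → u ^ k ∈ E
/-- Partition of unity for the translation action of E in logarithmic coordinates. -/
structure IsUP (E : Subgroup Fˣ) (β : (Io F → ℝ) → ℝ) : Prop where
  meas : Measurable β
  nonneg : ∀ x, 0 ≤ β x
  le_one : ∀ x, β x ≤ 1
  supp : ∃ T : ℝ, ∀ x, β x ≠ 0 → ∀ v v', |x v - x v'| ≤ T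
  diag : ∀ x (c : ℝ), β (fun v => x v + c) = β x
  fin : ∀ x, (Function.support fun u : E => β (x + lg ((u : Fˣ) : F))).Finite
  sum : ∀ x, ∑' u : E, β (x + lg ((u : Fˣ) : F)) = 1
/-- ν is a transversal for the action of E on S. -/
def IsTr {F : Type} [Field F] {J : Type} (E : Subgroup Fˣ) (S : Set F) (ν : J → F) : Prop :=
  (∀ (j : J) (u : E), ((u : Fˣ) : F) * ν j ∈ S) ∧
    ∀ x ∈ S, ∃! p : J × E, x = ((p.2 : Fˣ) : F) * ν p.1

variable (F) in
/-- The kernel produced by averaging Gaussians over the units. -/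
def Vk (t : ℝ) : ℝ :=
  ∫ x : Io F → ℝ, w (Real.exp (∑ v, x v) / t) * Real.exp (-(Real.pi * ∑ v, Real.exp (x v)))

end Arch

end

end Vale.Agent.P016
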