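import Vale.Agent.P016.Good
import Vale.Agent.P016.Bad
import Vale.Agent.P005.DefQ
import Vale.Agent.Lib.Mertens

/-! Assembly. -/

namespace Vale.Agent.P016

open Finset Filter
open scoped Classical NumberTheorySymbols

/-- Indicator of the primes in the window for the large prime factor. -/
noncomputable def gam (δ : ℝ) (x q : ℕ) : ℝ :=
  if q.Prime ∧ (x : ℝ) ^ (1 - δ) < q ∧ (q : ℝ) ≤ (x : ℝ) ^ (1 - δ / 2) then 1 else 0

theorem gam_adm {δ : ℝ} (h0 : 0 < δ) (h1 : δ ≤ 1 / 4) {x : ℕ} (hx : 1 ≤ x) :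
    P005.Adm (δ / 2) x (gam δ x) := by
  refine ⟨fun q => by unfold gam; split_ifs <;> simp, fun q h => ?_⟩
  obtain ⟨h2, h3, h4⟩ : q.Prime ∧ (x : ℝ) ^ (1 - δ) < q ∧ (q : ℝ) ≤ (x : ℝ) ^ (1 - δ / 2) :=
    by_contra fun h' => h (if_neg h')
  refine ⟨h2.one_le, h4, fun p hp hd => ?_⟩
  rw [(Nat.prime_dvd_prime_iff_eq hp h2).1 hd]
  exact (Real.rpow_le_rpow_of_exponent_le (Nat.one_le_cast.2 hx) (by linarith)).trans h3.le

theorem fb_gam {δ : ℝ} (h0 : 0 < δ) (h1 : δ ≤ 1 / 4) :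
    ∀ᶠ x : ℕ in atTop, δ / 4 ≤ P005.fb x (gam δ x) := by
  obtain ⟨C, hC, h⟩ := Lib.Mertens.mertens2_Ioc
  filter_upwards [(Real.tendsto_log_atTop.comp tendsto_natCast_atTop_atTop).eventually_ge_atTop
    (8 * C / δ), eventually_gt_atTop 1] with x h2 hx
  have x1 : (1 : ℝ) < x := Nat.one_lt_cast.2 hx
  have x0 : (0 : ℝ) < x := by linarith
  have l0 := Real.log_pos x1
  have h3 := (abs_le.1 (h (x ^ (1 - δ)) (x ^ (1 - δ / 2)) (Real.one_lt_rpow x1 (by linarith))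
    (Real.rpow_le_rpow_of_exponent_le x1.le (by linarith)))).1
  have d1 : 0 < 1 - δ := by linarith
  have d2 : 0 < 1 - δ / 2 := by linarith
  rw [Real.log_rpow x0, Real.log_rpow x0, Real.log_mul d1.ne' l0.ne',
    Real.log_mul d2.ne' l0.ne'] at h3
  have h4 : δ / 2 ≤ Real.log (1 - δ / 2) - Real.log (1 - δ) := by
    have := Real.log_le_sub_one_of_pos (div_pos d1 d2)
    rw [Real.log_div d1.ne' d2.ne', le_sub_iff_add_le, le_div_iff₀ d2] at this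
    nlinarith
  have h5 : C / ((1 - δ) * Real.log x) ≤ δ / 4 := by
    rw [Function.comp_apply, div_le_iff₀ h0] at h2
    rw [div_le_iff₀ (by positivity)]
    nlinarith [mul_pos h0 l0]
  refine le_trans (by linarith) ((Finset.sum_congr (f := fun p : ℕ => (1 : ℝ) / p) rfl
    fun p hp => ?_).trans_le (sum_le_sum_of_subset_of_nonneg (f := fun q => gam δ x q / q) (s := (Ioc ⌊(x : ℝ) ^ (1 - δ)⌋₊
      ⌊(x : ℝ) ^ (1 - δ / 2)⌋₊).filter Nat.Prime) (fun p hp => ?_) fun q _ _ =>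
        div_nonneg (ite_nonneg zero_le_one le_rfl) q.cast_nonneg))
  all_goals
    rw [mem_filter, mem_Ioc, Nat.floor_lt (by positivity), Nat.le_floor_iff (by positivity)] at hp
  · rw [gam, if_pos ⟨hp.2, hp.1⟩]
  · refine mem_Icc.2 ⟨hp.2.one_le, Nat.cast_le.1 (hp.1.2.trans ?_)⟩
    simpa using Real.rpow_le_rpow_of_exponent_le x1.le (show 1 - δ / 2 ≤ 1 by linarith)

theorem ff_gam {δ : ℝ} (h0 : 0 < δ) (h1 : δ ≤ 1 / 4) {x k : ℕ} (hk : k ≤ x) :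
    P005.ff (gam δ x) k = 0 ∨ (P005.ff (gam δ x) k = 1 ∧
      ∃ q : ℕ, q.Prime ∧ q ∣ k ∧ (x : ℝ) ^ (1 - δ) < q) := by
  by_cases h : ∃ q ∈ k.divisors, q.Prime ∧ (x : ℝ) ^ (1 - δ) < q ∧ (q : ℝ) ≤ (x : ℝ) ^ (1 - δ / 2)
  · obtain ⟨q, hq, h2⟩ := h
    obtain ⟨hq1, k0⟩ := Nat.mem_divisors.1 hq
    refine Or.inr ⟨(sum_eq_single_of_mem q hq fun r hr hn => if_neg fun h3 => ?_).trans (if_pos h2),
      q, h2.1, hq1, h2.2.1⟩
    have h4 := (Nat.le_of_dvd (Nat.pos_of_ne_zero k0) (((Nat.coprime_primes h3.1 h2.1).2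
      hn).mul_dvd_of_dvd_of_dvd (Nat.dvd_of_mem_divisors hr) hq1)).trans hk
    have x1 : (1 : ℝ) ≤ x := Nat.one_le_cast.2 ((Nat.pos_of_ne_zero k0).trans_le hk)
    have h5 := mul_lt_mul'' h3.2.1 h2.2.1 (by positivity) (by positivity)
    rw [← Real.rpow_add (by linarith), ← Nat.cast_mul] at h5
    have h6 := Real.rpow_le_rpow_of_exponent_le x1 (show 1 ≤ 1 - δ + (1 - δ) by linarith)
    rw [Real.rpow_one] at h6
    exact absurd (h6.trans_lt h5) (not_lt.2 (Nat.cast_le.2 h4))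
  · exact Or.inl (sum_eq_zero fun q hq => if_neg fun h' => h ⟨q, hq, h'⟩)

/-- If a is not a primitive root then it is an l-th power residue for a prime l. -/
theorem exists_l {a : ℤ} {p : ℕ} (hp : p.Prime) (ha : ¬ (p : ℤ) ∣ a)
    (h : orderOf (a : ZMod p) ≠ p - 1) :
    ∃ l : ℕ, l.Prime ∧ l ∣ p - 1 ∧ (a : ZMod p) ^ ((p - 1) / l) = 1 := by
  have := Fact.mk hp
  obtain ⟨m, hm⟩ := ZMod.orderOf_dvd_card_sub_one
    (mt (ZMod.intCast_zmod_eq_zero_iff_dvd a p).1 ha)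
  obtain ⟨l, hl, m, rfl⟩ := Nat.exists_prime_and_dvd (n := m) fun h' => h (by rw [hm, h', mul_one])
  refine ⟨l, hl, hm ▸ (dvd_mul_right _ _).mul_left _, ?_⟩
  rw [hm, mul_left_comm, Nat.mul_div_cancel_left _ hl.pos, pow_mul, pow_orderOf_eq_one, one_pow]

/-- The three cases for a good prime. -/
theorem fin_cases {a : ℤ} {p x L q : ℕ} {δ : ℝ} (hp : p.Prime) (hx : p ≤ x) (h2 : p ≠ 2)
    (hJ : J(a | p) = -1) (hL : ∀ l : ℕ, l.Prime → l ≠ 2 → l ≤ L → ¬ l ∣ p - 1) (hq : q.Prime)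
    (hd : q ∣ p - 1) (hl : (x : ℝ) ^ (1 - δ) < q) :
    (¬ (p : ℤ) ∣ a ∧ orderOf (a : ZMod p) = p - 1) ∨
      (∃ k, 1 ≤ k ∧ k ≤ ⌊(x : ℝ) ^ δ⌋₊ ∧ (a : ZMod p) ^ k = 1) ∨
      ∃ l, (L < l ∧ l ≤ ⌊(x : ℝ) ^ δ⌋₊) ∧ l.Prime ∧ l ∣ p - 1 ∧
        (a : ZMod p) ^ ((p - 1) / l) = 1 := by
  have := Fact.mk hp
  have p1 : 0 < p - 1 := Nat.sub_pos_of_lt hp.one_lt
  have x0 : (0 : ℝ) < x := Nat.cast_pos.2 (hp.pos.trans_le hx)
  rw [← jacobiSym.legendreSym.to_jacobiSym] at hJ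
  have ha : ¬ (p : ℤ) ∣ a := fun h => by
    rw [(legendreSym.eq_zero_iff p a).2 ((ZMod.intCast_zmod_eq_zero_iff_dvd a p).2 h)] at hJ
    exact absurd hJ (by norm_num)
  have key : ∀ k, k * q ∣ p - 1 → k ≤ ⌊(x : ℝ) ^ δ⌋₊ := fun k hk => by
    refine Nat.le_floor (le_of_mul_le_mul_right ?_ (Real.rpow_pos_of_pos x0 (1 - δ)))
    rw [← Real.rpow_add x0, add_sub_cancel, Real.rpow_one]
    refine (mul_le_mul_of_nonneg_left hl.le k.cast_nonneg).trans ?_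
    exact_mod_cast (Nat.le_of_dvd p1 hk).trans ((Nat.sub_le _ _).trans hx)
  by_cases h : orderOf (a : ZMod p) = p - 1
  · exact Or.inl ⟨ha, h⟩
  obtain ⟨l, l1, l2, l3⟩ := exists_l hp ha h
  by_cases e : l = q
  · subst e
    exact Or.inr (Or.inl ⟨_, Nat.div_pos (Nat.le_of_dvd p1 l2) l1.pos,
      key _ (Nat.div_mul_cancel l2).dvd, l3⟩)
  refine Or.inr (Or.inr ⟨l, ⟨not_le.1 fun h' => hL l l1 ?_ h' l2,
    key l (((Nat.coprime_primes l1 hq).2 e).mul_dvd_of_dvd_of_dvd l2 hd)⟩, l1, l2, l3⟩)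
  rintro rfl
  have h3 := legendreSym.eq_pow p a
  have h4 := hp.eq_two_or_odd.resolve_left h2
  rw [hJ, show p / 2 = (p - 1) / 2 by omega, l3] at h3
  have : Fact (2 < p) := ⟨lt_of_le_of_ne hp.two_le h2.symm⟩
  exact ZMod.neg_one_ne_one (by simpa using h3)

theorem artin_log (hq : Lib.PS.QGRH) (hG : P005.MainG) (hP : Pit) {a : ℤ} (h1 : a ≠ -1)
    (ha : ¬ IsSquare a) : ∃ c : ℝ, 0 < c ∧ ∀ᶠ x : ℕ in atTop, c * x ≤
      ∑ p ∈ (Ioc (x / 2) x).filter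
        (fun p : ℕ => p.Prime ∧ ¬ (p : ℤ) ∣ a ∧ orderOf (a : ZMod p) = p - 1), Real.log p := by
  have a2 : 2 ≤ a.natAbs := by
    have : a ≠ 0 := fun h => ha (h ▸ IsSquare.zero)
    have : a ≠ 1 := fun h => ha (h ▸ IsSquare.one)
    omega
  obtain ⟨c, hc, hg⟩ := good_lower hq ha
  obtain ⟨δ0, hδ, hb⟩ := bad_sum hP a2
  obtain ⟨δ, d0, d1, d2⟩ : ∃ δ : ℝ, 0 < δ ∧ δ ≤ 1 / 4 ∧ δ ≤ δ0 :=
    ⟨min (1 / 4) δ0, by positivity, min_le_left _ _, min_le_right _ _⟩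
  obtain ⟨L, L1, L2⟩ : ∃ L : ℕ, a.natAbs ≤ L ∧ (100 / (δ * c)) ^ 2 ≤ L :=
    ⟨max _ ⌈(100 / (δ * c)) ^ 2⌉₊, le_max_left _ _,
      (Nat.le_ceil _).trans (Nat.cast_le.2 (le_max_right _ _))⟩
  have L0 : (0 : ℝ) < L := Nat.cast_pos.2 (by omega)
  have s0 := Real.sqrt_pos.2 L0
  obtain ⟨η, h0, e1, e2⟩ : ∃ η : ℝ, 0 < η ∧ δ / 4 * (c / √L) = 5 * η ∧ 5 / (L : ℝ) ≤ η := by
    refine ⟨δ * c / (20 * √L), by positivity, by ring, ?_⟩
    have := Real.le_sqrt_of_sq_le L2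
    rw [div_le_iff₀ (by positivity)] at this
    rw [div_le_div_iff₀ L0 (by positivity)]
    nlinarith [Real.mul_self_sqrt L0.le]
  obtain ⟨M, T, M1, hT, hT'⟩ := hg L (by omega)
  refine ⟨η, h0, ?_⟩
  filter_upwards [hT', hb η h0, hG (δ / 2) (by positivity) η h0 M M1 1, fb_gam d0 d1,
    eventually_ge_atTop 1, ((tendsto_rpow_atTop one_half_pos).comp
      tendsto_natCast_atTop_atTop).eventually_ge_atTop (Real.log (2 * a.natAbs) / η)]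
    with x h2 h3 h4 h5 hx h6
  have x1 : (1 : ℝ) ≤ x := Nat.one_le_cast.2 hx
  replace h3 := h3 L L1
  replace h4 := (abs_le.1 (h4 _ (fun k => if k % M ∈ T then 1 else 0) (gam_adm d0 d1 hx)
    ⟨fun k => by dsimp only; split_ifs <;> simp, fun k => by simp only [Nat.mod_mod]⟩)).1
  have h7 := small_order a2 ⌊(x : ℝ) ^ δ⌋₊ ((Ioc (x / 2) x).filter fun p => p.Prime ∧
    ∃ k, 1 ≤ k ∧ k ≤ ⌊(x : ℝ) ^ δ⌋₊ ∧ (a : ZMod p) ^ k = 1) fun p hp => (mem_filter.1 hp).2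
  have h8 : (⌊(x : ℝ) ^ δ⌋₊ : ℝ) ^ 2 * Real.log (2 * a.natAbs) ≤ η * x := by
    have e3 : (⌊(x : ℝ) ^ δ⌋₊ : ℝ) ^ 2 ≤ x ^ (1 / 2 : ℝ) := by
      refine (pow_le_pow_left₀ (Nat.cast_nonneg _) (Nat.floor_le (by positivity)) 2).trans ?_
      rw [← Real.rpow_mul_natCast (by linarith)]
      exact Real.rpow_le_rpow_of_exponent_le x1 (by push_cast; linarith)
    rw [Function.comp_apply, div_le_iff₀ h0] at h6
    have e4 : (1 : ℝ) ≤ 2 * a.natAbs := by exact_mod_cast (by omega : 1 ≤ 2 * a.natAbs)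
    refine (mul_le_mul e3 h6 (Real.log_nonneg e4) (by positivity)).trans_eq ?_
    rw [← mul_assoc, ← Real.rpow_add (by linarith), add_halves, Real.rpow_one, mul_comm]
  have h9 : ∑ p ∈ (Ioc (x / 2) x).filter Nat.Prime, Real.log p *
      ((if p % M ∈ T then 1 else 0) * P005.ff (gam δ x) (p - 1)) ≤ ∑ p ∈ (Ioc (x / 2) x).filter
      (fun p : ℕ => p.Prime ∧ ¬ (p : ℤ) ∣ a ∧ orderOf (a : ZMod p) = p - 1), Real.log p +
      ∑ p ∈ (Ioc (x / 2) x).filter (fun p => p.Prime ∧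
        ∃ k, 1 ≤ k ∧ k ≤ ⌊(x : ℝ) ^ δ⌋₊ ∧ (a : ZMod p) ^ k = 1), Real.log p +
      ∑ l ∈ (Ioc L ⌊(x : ℝ) ^ δ0⌋₊).filter Nat.Prime, ∑ p ∈ badS a l x, Real.log p := by
    simp only [badS, sum_filter (s := Ioc (x / 2) x)]
    rw [sum_comm, ← sum_add_distrib, ← sum_add_distrib]
    refine sum_le_sum fun p hp => ?_
    have n := Real.log_natCast_nonneg p
    have n1 := fun (Q : Prop) [Decidable Q] => ite_nonneg (p := Q) n le_rfl
    have n2 := fun l (_ : l ∈ (Ioc L ⌊(x : ℝ) ^ δ0⌋₊).filter Nat.Prime) =>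
      n1 (p.Prime ∧ l ∣ p - 1 ∧ (a : ZMod p) ^ ((p - 1) / l) = 1)
    have n3 := fun (Q Q' : Prop) [Decidable Q] [Decidable Q'] =>
      add_nonneg (add_nonneg (n1 Q) (n1 Q')) (sum_nonneg n2)
    by_cases p1 : p.Prime
    swap
    · exact (if_neg p1).trans_le (n3 _ _)
    by_cases p2 : p % M ∈ T
    swap
    · exact ((if_pos p1).trans (by simp [p2])).trans_le (n3 _ _)
    have px := (mem_Ioc.1 hp).2
    obtain h | ⟨h, q, q1, q2, q3⟩ := ff_gam d0 d1 ((Nat.sub_le p 1).trans px)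
    · exact ((if_pos p1).trans (by simp [h])).trans_le (n3 _ _)
    rw [if_pos p1, if_pos p2, h, mul_one, mul_one]
    obtain h | h | ⟨l, l1, l2⟩ := fin_cases p1 px (hT p p1 p2).1 (hT p p1 p2).2.1 (hT p p1 p2).2.2
      q1 q2 q3
    · rw [if_pos ⟨p1, h⟩, add_assoc]
      exact le_add_of_nonneg_right (add_nonneg (n1 _) (sum_nonneg n2))
    · rw [if_pos (c := p.Prime ∧ ∃ _, _) ⟨p1, h⟩]
      exact le_add_of_le_of_nonneg (le_add_of_nonneg_left (n1 _)) (sum_nonneg n2)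
    · refine le_add_of_nonneg_of_le (add_nonneg (n1 _) (n1 _)) ((if_pos ⟨p1, l2.2⟩).ge.trans
        (single_le_sum n2 (mem_filter.2 ⟨mem_Ioc.2 ⟨l1.1, l1.2.trans ?_⟩, l2.1⟩)))
      exact Nat.floor_mono (Real.rpow_le_rpow_of_exponent_le x1 d2)
  have h10 : ∑ p ∈ (Ioc (x / 2) x).filter Nat.Prime, Real.log p *
      ((if p % M ∈ T then 1 else 0) * P005.fb x (gam δ x)) = P005.fb x (gam δ x) *
      ∑ p ∈ (Ioc (x / 2) x).filter (fun p => p.Prime ∧ p % M ∈ T), Real.log p := by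
    rw [← filter_filter, sum_filter (fun p => p % M ∈ T), mul_sum]
    exact sum_congr rfl fun p _ => by split_ifs <;> ring
  have h11 := mul_le_mul h5 h2 (by positivity) (le_trans (by positivity) h5)
  have h12 := mul_le_mul_of_nonneg_right e2 x.cast_nonneg
  simp only [pow_one, mul_sub, sum_sub_distrib, h10] at h4
  rw [← mul_assoc, e1] at h11
  rw [← div_mul_eq_mul_div] at h3
  linarith

theorem artin_of (hq : Lib.PS.QGRH) (hG : P005.MainG) (hP : Pit) (a : ℤ) (h1 : a ≠ -1)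
    (ha : ¬ IsSquare a) :
    {p : ℕ | p.Prime ∧ ¬ (p : ℤ) ∣ a ∧ orderOf (a : ZMod p) = p - 1}.Infinite ∧
      ∃ c : ℝ, 0 < c ∧ ∀ᶠ x : ℕ in atTop, c * x / Real.log x ≤
        ({p : ℕ | p ≤ x ∧ p.Prime ∧ ¬ (p : ℤ) ∣ a ∧ orderOf (a : ZMod p) = p - 1}.ncard : ℝ) := by
  obtain ⟨c, hc, h⟩ := artin_log hq hG hP h1 ha
  refine ⟨Set.infinite_of_not_bddAbove fun hB => ?_, c, hc, ?_⟩
  · obtain ⟨B, hB⟩ := hB
    obtain ⟨x, h2, h3⟩ := (h.and (eventually_ge_atTop (2 * B + 2))).exists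
    rw [sum_eq_zero fun p hp => by
      have := hB (mem_filter.1 hp).2
      have := (mem_Ioc.1 (mem_filter.1 hp).1).1
      omega] at h2
    exact absurd h2 (not_le.2 (mul_pos hc (Nat.cast_pos.2 (by omega))))
  · filter_upwards [h, eventually_gt_atTop 1] with x h2 hx
    rw [div_le_iff₀ (Real.log_pos (Nat.one_lt_cast.2 hx))]
    refine h2.trans ((sum_le_card_nsmul _ _ (Real.log x) fun p hp => ?_).trans ?_)
    · exact Real.log_le_log (Nat.cast_pos.2 (mem_filter.1 hp).2.1.pos)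
        (Nat.cast_le.2 (mem_Ioc.1 (mem_filter.1 hp).1).2)
    · rw [nsmul_eq_mul, ← Set.ncard_coe_finset]
      exact mul_le_mul_of_nonneg_right (Nat.cast_le.2 (Set.ncard_le_ncard (fun p hp =>
        ⟨(mem_Ioc.1 (mem_filter.1 hp).1).2, (mem_filter.1 hp).2⟩) ((Set.finite_Iic x).subset
          fun p hp => hp.1))) (Real.log_natCast_nonneg x)

end Vale.Agent.P016
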