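import Vale.Agent.P016.Cls
import Vale.Agent.P005.PS

/-! Many primes in good residue classes. -/

namespace Vale.Agent.P016

open Finset Filter
open scoped Classical NumberTheorySymbols

theorem good_cop {l : ℕ} (hl : l.Prime) {S : Finset ℕ} (hS : ∀ i ∈ S, i.Prime) (h : l ∉ S) :
    l.Coprime (∏ i ∈ S, i) :=
  Nat.Coprime.prod_right fun i hi => (Nat.coprime_primes hl (hS i hi)).2 fun e => h (e ▸ hi)

theorem good_tot (S : Finset ℕ) (hS : ∀ l ∈ S, l.Prime) :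
    ((∏ l ∈ S, l).totient : ℝ) = ∏ l ∈ S, ((l : ℝ) - 1) := by
  induction S using Finset.induction_on with
  | empty => simp
  | insert l S hl ih =>
    have h1 := hS l (mem_insert_self l S)
    have h2 : ∀ i ∈ S, i.Prime := fun i hi => hS i (mem_insert_of_mem hi)
    rw [prod_insert hl, prod_insert hl, Nat.totient_mul (good_cop h1 h2 hl), Nat.cast_mul, ih h2,
      Nat.totient_prime h1, Nat.cast_sub h1.one_le, Nat.cast_one]

/-- Adding one prime to the modulus at a time. -/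
theorem exists_good {M1 r : ℕ} (hM : 1 ≤ M1) (hr : r.Coprime M1) (S : Finset ℕ)
    (hS : ∀ l ∈ S, l.Prime ∧ ¬ l ∣ M1) : ∃ T : Finset ℕ,
    (∀ k ∈ T, k < M1 * ∏ l ∈ S, l ∧ k.Coprime (M1 * ∏ l ∈ S, l) ∧ k ≡ r [MOD M1] ∧
      ∀ l ∈ S, ¬ k ≡ 1 [MOD l]) ∧ T.card = ∏ l ∈ S, (l - 2) := by
  induction S using Finset.induction_on with
  | empty =>
    refine ⟨{r % M1}, fun k hk => ?_, by simp⟩
    rw [mem_singleton.1 hk, prod_empty, mul_one]
    refine ⟨Nat.mod_lt _ hM, ?_, Nat.mod_modEq _ _, by simp⟩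
    rw [Nat.Coprime, (Nat.mod_modEq r M1).gcd_eq]
    exact hr
  | insert l S hl ih =>
    obtain ⟨T, h1, h2⟩ := ih fun i hi => hS i (mem_insert_of_mem hi)
    obtain ⟨hp, hd⟩ := hS l (mem_insert_self l S)
    have h3 : ∀ i ∈ S, i.Prime := fun i hi => (hS i (mem_insert_of_mem hi)).1
    have co : (M1 * ∏ i ∈ S, i).Coprime l :=
      Nat.Coprime.mul_left ((Nat.Prime.coprime_iff_not_dvd hp).2 hd).symm (good_cop hp h3 hl).symm
    have h4 : M1 * ∏ i ∈ S, i ≠ 0 :=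
      Nat.mul_ne_zero (by omega) (prod_ne_zero_iff.2 fun i hi => (h3 i hi).ne_zero)
    refine ⟨(T ×ˢ Ico 2 l).image fun z => (Nat.chineseRemainder co z.1 z.2 : ℕ), fun k hk => ?_, ?_⟩
    · obtain ⟨⟨u, j⟩, hz, rfl⟩ := mem_image.1 hk
      obtain ⟨hu, hj⟩ := mem_product.1 hz
      obtain ⟨hj1, hj2⟩ := mem_Ico.1 hj
      obtain ⟨-, g2, g3, g4⟩ := h1 u hu
      obtain ⟨g5, g6⟩ := (Nat.chineseRemainder co u j).2
      rw [prod_insert hl, mul_comm l, ← mul_assoc]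
      refine ⟨Nat.chineseRemainder_lt_mul co u j h4 hp.ne_zero, Nat.Coprime.mul_right ?_ ?_,
        (g5.of_mul_right _).trans g3, fun i hi h => ?_⟩
      · rw [Nat.Coprime, g5.gcd_eq]
        exact g2
      · rw [Nat.Coprime, g6.gcd_eq]
        exact (Nat.coprime_of_lt_prime (by omega) hj2 hp).symm
      · rcases mem_insert.1 hi with rfl | hi
        · have := (g6.symm.trans h).eq_of_lt_of_lt hj2 hp.one_lt
          omega
        · exact g4 i hi ((g5.of_dvd ((dvd_prod_of_mem _ hi).mul_left M1)).symm.trans h)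
    · rw [card_image_of_injOn, card_product, h2, Nat.card_Ico, prod_insert hl, mul_comm]
      rintro ⟨u, j⟩ hz ⟨u', j'⟩ hz' h
      obtain ⟨hu, hj⟩ := mem_product.1 (mem_coe.1 hz)
      obtain ⟨hu', hj'⟩ := mem_product.1 (mem_coe.1 hz')
      obtain ⟨g1, g2⟩ := (Nat.chineseRemainder co u j).2
      obtain ⟨g3, g4⟩ := (Nat.chineseRemainder co u' j').2
      have h5 : (Nat.chineseRemainder co u j : ℕ) = (Nat.chineseRemainder co u' j' : ℕ) := h
      rw [h5] at g1 g2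
      exact Prod.ext ((g1.symm.trans g3).eq_of_lt_of_lt (h1 u hu).1 (h1 u' hu').1)
        ((g2.symm.trans g4).eq_of_lt_of_lt (mem_Ico.1 hj).2 (mem_Ico.1 hj').2)

theorem good_sq (K : ℕ) : 1 / (4 * ((K : ℝ) + 1)) ≤
    (∏ k ∈ range (K + 1), (2 * (k : ℝ) + 1) / (2 * k + 2)) ^ 2 := by
  induction K with
  | zero => norm_num
  | succ K ih =>
    rw [prod_range_succ, mul_pow]
    refine le_trans ?_ (mul_le_mul_of_nonneg_right ih (sq_nonneg _))
    push_cast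
    have : (0 : ℝ) ≤ K := Nat.cast_nonneg K
    rw [div_pow, div_mul_div_comm, div_le_div_iff₀ (by positivity) (by positivity)]
    nlinarith

theorem prod_ratio_ge {L : ℕ} (hL : 1 ≤ L) (S : Finset ℕ) (hS : ∀ l ∈ S, Odd l ∧ 3 ≤ l ∧ l ≤ L) :
    1 / (2 * √(L : ℝ)) ≤ ∏ l ∈ S, ((l : ℝ) - 2) / ((l : ℝ) - 1) := by
  obtain ⟨K, rfl⟩ : ∃ K, L = K + 1 := ⟨L - 1, by omega⟩
  have h1 : S ⊆ (range (K + 1)).image fun k => 2 * k + 3 := fun l hl => by
    obtain ⟨⟨j, rfl⟩, h2, h3⟩ := hS l hl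
    exact mem_image.2 ⟨j - 1, mem_range.2 (by omega), by omega⟩
  have h2 : ∀ l : ℕ, (l ∈ (range (K + 1)).image fun k => 2 * k + 3) → (3 : ℝ) ≤ l := fun l hl => by
    obtain ⟨k, -, rfl⟩ := mem_image.1 hl
    exact_mod_cast Nat.le_add_left 3 _
  refine le_trans ?_ (prod_le_prod_of_subset_of_le_one h1
    (fun l hl => div_nonneg (by linarith [h2 l hl]) (by linarith [h2 l hl]))
    fun l hl _ => div_le_one_of_le₀ (by linarith) (by linarith [h2 l hl]))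
  rw [prod_image fun i _ j _ h => by simpa using h]
  have h3 : ∏ k ∈ range (K + 1), (((2 * k + 3 : ℕ) : ℝ) - 2) / (((2 * k + 3 : ℕ) : ℝ) - 1) =
      ∏ k ∈ range (K + 1), (2 * (k : ℝ) + 1) / (2 * k + 2) :=
    prod_congr rfl fun k _ => by
      push_cast
      ring
  rw [h3]
  refine (pow_le_pow_iff_left₀ (by positivity) (prod_nonneg fun k _ => by positivity)
    two_ne_zero).1 (le_trans (le_of_eq ?_) (good_sq K))
  rw [div_pow, mul_pow, Real.sq_sqrt (by positivity)]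
  push_cast
  norm_num

theorem good_err {δ K Q ε : ℝ} (hδ : 0 < δ) (hK : 0 ≤ K) (hQ : 0 < Q) (hε : 0 < ε) :
    ∀ᶠ x : ℕ in atTop, K * (((x : ℝ) + 1) ^ (1 - δ) * Real.log (Q * (x + 1))) ≤ ε * x := by
  have h1 : Tendsto (fun x : ℕ => K * (2 * Q ^ (δ / 2) / (δ / 2)) * ((x : ℝ) + 1) ^ (-(δ / 2)))
      atTop (nhds 0) := by
    have := ((tendsto_rpow_neg_atTop (half_pos hδ)).comp
      (tendsto_atTop_add_const_right _ 1 tendsto_natCast_atTop_atTop)).const_mul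
        (K * (2 * Q ^ (δ / 2) / (δ / 2)))
    rwa [mul_zero] at this
  filter_upwards [h1.eventually (ge_mem_nhds hε), eventually_ge_atTop 1] with x hx hx1
  have h2 : (1 : ℝ) ≤ x := by exact_mod_cast hx1
  have h3 : (0 : ℝ) < x + 1 := by linarith
  have h4 : Real.log (Q * (x + 1)) ≤ Q ^ (δ / 2) * ((x : ℝ) + 1) ^ (δ / 2) / (δ / 2) := by
    rw [← Real.mul_rpow hQ.le h3.le]
    exact Real.log_le_rpow_div (by positivity) (half_pos hδ)
  have h5 : ((x : ℝ) + 1) ^ (1 - δ) * ((x : ℝ) + 1) ^ (δ / 2) =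
      ((x : ℝ) + 1) ^ (-(δ / 2)) * (x + 1) := by
    rw [← Real.rpow_add h3, ← Real.rpow_add_one h3.ne']
    congr 1
    ring
  calc K * (((x : ℝ) + 1) ^ (1 - δ) * Real.log (Q * (x + 1)))
      ≤ K * (((x : ℝ) + 1) ^ (1 - δ) * (Q ^ (δ / 2) * ((x : ℝ) + 1) ^ (δ / 2) / (δ / 2))) := by
        gcongr
    _ = K * (Q ^ (δ / 2) / (δ / 2)) * (((x : ℝ) + 1) ^ (1 - δ) * ((x : ℝ) + 1) ^ (δ / 2)) := by
        ring
    _ ≤ K * (Q ^ (δ / 2) / (δ / 2)) * (((x : ℝ) + 1) ^ (-(δ / 2)) * (2 * x)) := by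
        rw [h5]
        gcongr
        linarith
    _ = K * (2 * Q ^ (δ / 2) / (δ / 2)) * ((x : ℝ) + 1) ^ (-(δ / 2)) * x := by ring
    _ ≤ ε * x := by gcongr

theorem good_lower (hq : Lib.PS.QGRH) {a : ℤ} (ha : ¬ IsSquare a) : ∃ c : ℝ, 0 < c ∧
    ∀ L : ℕ, 1 ≤ L → ∃ (M0 : ℕ) (T : Finset ℕ), 1 ≤ M0 ∧
      (∀ p : ℕ, p.Prime → p % M0 ∈ T → p ≠ 2 ∧ J(a | p) = -1 ∧
        ∀ l : ℕ, l.Prime → l ≠ 2 → l ≤ L → ¬ l ∣ p - 1) ∧
      ∀ᶠ x : ℕ in atTop, c / √(L : ℝ) * x ≤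
        ∑ p ∈ (Ioc (x / 2) x).filter (fun p => p.Prime ∧ p % M0 ∈ T), Real.log p := by
  have h0 : a.natAbs ≠ 0 := fun h => ha (Int.natAbs_eq_zero.1 h ▸ IsSquare.zero)
  have h0' : (0 : ℝ) < a.natAbs := Nat.cast_pos.2 (Nat.pos_of_ne_zero h0)
  obtain ⟨r, hr1, hr2, hr3⟩ := exists_class ha
  obtain ⟨δ, hδ, -, C, hC, hθ⟩ := P005.theta_int hq
  refine ⟨1 / (32 * a.natAbs), by positivity, fun L hL => ?_⟩
  obtain ⟨S, hS⟩ : ∃ S : Finset ℕ, ∀ l, l ∈ S ↔ l ≤ L ∧ l.Prime ∧ l ≠ 2 ∧ ¬ l ∣ a.natAbs :=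
    ⟨(range (L + 1)).filter fun l => l.Prime ∧ l ≠ 2 ∧ ¬ l ∣ a.natAbs, fun l => by
      rw [mem_filter, mem_range, Nat.lt_succ_iff]⟩
  have hSp : ∀ l ∈ S, l.Prime := fun l hl => ((hS l).1 hl).2.1
  have hS3 : ∀ l ∈ S, 3 ≤ l := fun l hl => by
    have := (hSp l hl).two_le
    have := ((hS l).1 hl).2.2.1
    omega
  have hSd : ∀ l ∈ S, ¬ l ∣ 4 * a.natAbs := fun l hl h =>
    ((Nat.Prime.dvd_mul (hSp l hl)).1 h).elim
      (fun h => ((hS l).1 hl).2.2.1 ((Nat.prime_dvd_prime_iff_eq (hSp l hl) Nat.prime_two).1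
        ((hSp l hl).dvd_of_dvd_pow (n := 2) h))) ((hS l).1 hl).2.2.2
  obtain ⟨T, hT, hTc⟩ := exists_good (by omega) hr1 S fun l hl => ⟨hSp l hl, hSd l hl⟩
  have hM : 1 ≤ 4 * a.natAbs * ∏ l ∈ S, l :=
    Nat.mul_pos (by omega) (prod_pos fun l hl => (hSp l hl).pos)
  have hφ : (((4 * a.natAbs * ∏ l ∈ S, l).totient : ℕ) : ℝ) ≤
      4 * a.natAbs * ∏ l ∈ S, ((l : ℝ) - 1) := by
    rw [Nat.totient_mul (Nat.Coprime.prod_right fun l hl =>
      ((Nat.Prime.coprime_iff_not_dvd (hSp l hl)).2 (hSd l hl)).symm), Nat.cast_mul, good_tot S hSp]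
    refine mul_le_mul_of_nonneg_right (by exact_mod_cast Nat.totient_le _)
      (prod_nonneg fun l hl => sub_nonneg.2 (by exact_mod_cast (hSp l hl).one_le))
  have hdv : ∀ l ∈ S, l ∣ 4 * a.natAbs * ∏ l ∈ S, l := fun l hl =>
    (dvd_prod_of_mem _ hl).mul_left _
  have hdv' : 4 * a.natAbs ∣ 4 * a.natAbs * ∏ l ∈ S, l := Dvd.intro _ rfl
  generalize 4 * a.natAbs * ∏ l ∈ S, l = M at *
  refine ⟨M, T, hM, fun p hp hpT => ?_, ?_⟩
  · obtain ⟨-, -, h1, h2⟩ := hT _ hpT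
    have h3 : p ≡ r [MOD 4 * a.natAbs] := ((Nat.mod_modEq p M).of_dvd hdv').symm.trans h1
    have h4 : Odd p := Nat.coprime_two_right.1 (Nat.Coprime.coprime_dvd_right
      (show 2 ∣ 4 * a.natAbs from ⟨2 * a.natAbs, by ring⟩)
      (show p.Coprime _ by rw [Nat.Coprime, h3.gcd_eq]; exact hr1))
    refine ⟨?_, (cls_cong h4 h3).trans hr2, fun l hl hl2 hlL hd => ?_⟩
    · rintro rfl
      exact absurd h4 (by decide)
    · have h5 : p ≡ 1 [MOD l] := ((Nat.modEq_iff_dvd' hp.one_le).2 hd).symm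
      by_cases h6 : l ∣ a.natAbs
      · exact hr3 l hl hl2 h6 ((h3.of_dvd (h6.mul_left 4)).symm.trans h5)
      · have h7 := (hS l).2 ⟨hlL, hl, hl2, h6⟩
        exact h2 l h7 (((Nat.mod_modEq p M).of_dvd (hdv l h7)).trans h5)
  · have hL' : (0 : ℝ) < √(L : ℝ) := Real.sqrt_pos.2 (Nat.cast_pos.2 hL)
    have hM' : (0 : ℝ) < M := Nat.cast_pos.2 hM
    have hφ0 : (0 : ℝ) < M.totient := Nat.cast_pos.2 (Nat.totient_pos.2 hM)
    have hP : (0 : ℝ) < ∏ l ∈ S, ((l : ℝ) - 1) :=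
      prod_pos fun l hl => sub_pos.2 (by exact_mod_cast (hSp l hl).one_lt)
    have hTr : 1 / (8 * a.natAbs) / √(L : ℝ) ≤ T.card / M.totient := by
      have h1 := prod_ratio_ge hL S fun l hl =>
        ⟨(hSp l hl).odd_of_ne_two ((hS l).1 hl).2.2.1, hS3 l hl, ((hS l).1 hl).1⟩
      have h2 : (T.card : ℝ) = ∏ l ∈ S, ((l : ℝ) - 2) := by
        rw [hTc, Nat.cast_prod]
        exact prod_congr rfl fun l hl => by rw [Nat.cast_sub (hSp l hl).two_le, Nat.cast_ofNat]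
      rw [prod_div_distrib, ← h2] at h1
      calc 1 / (8 * a.natAbs) / √(L : ℝ) = 1 / (2 * √(L : ℝ)) / (4 * a.natAbs) := by
            field_simp
            norm_num
        _ ≤ T.card / (∏ l ∈ S, ((l : ℝ) - 1)) / (4 * a.natAbs) := by gcongr
        _ = T.card / (4 * a.natAbs * ∏ l ∈ S, ((l : ℝ) - 1)) := by rw [div_div, mul_comm]
        _ ≤ T.card / M.totient := by gcongr
    filter_upwards [good_err (K := T.card * C) (Q := 2 * M)
      (ε := 1 / (32 * a.natAbs) / √(L : ℝ)) hδ (by positivity) (by positivity) (by positivity)]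
      with x hx
    have h1 : ∀ k ∈ T, (x : ℝ) / 2 / M.totient -
        C * (((x : ℝ) + 1) ^ (1 - δ) * Real.log (2 * M * (x + 1))) ≤
        ∑ p ∈ ((Ioc (x / 2) x).filter (fun p => p.Prime ∧ p % M ∈ T)).filter (fun p => p % M = k),
          Real.log p := by
      intro k hk
      have h2 := hθ M k ((x / 2 + 1 : ℕ) : ℝ) ((x + 1 : ℕ) : ℝ) hM (hT k hk).2.1
        (by exact_mod_cast Nat.le_add_left 1 _) (by exact_mod_cast (by omega))
      rw [Nat.ceil_natCast, Nat.ceil_natCast] at h2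
      have h3 : ((Ioc (x / 2) x).filter (fun p => p.Prime ∧ p % M ∈ T)).filter
          (fun p => p % M = k) =
          (Ico (x / 2 + 1) (x + 1)).filter (fun p => p.Prime ∧ p % M = k % M) := by
        ext p
        simp only [mem_filter, mem_Ioc, mem_Ico, Nat.mod_eq_of_lt (hT k hk).1]
        exact ⟨fun h => ⟨⟨h.1.1.1, by omega⟩, h.1.2.1, h.2⟩,
          fun h => ⟨⟨⟨h.1.1, by omega⟩, h.2.1, h.2.2 ▸ hk⟩, h.2.2⟩⟩
      rw [h3]
      have h4 : (x : ℝ) / 2 / M.totient ≤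
          (((x + 1 : ℕ) : ℝ) - ((x / 2 + 1 : ℕ) : ℝ)) / M.totient := by
        have : ((x / 2 : ℕ) : ℝ) ≤ x / 2 := Nat.cast_div_le
        push_cast
        gcongr
        linarith
      have h5 := (abs_le.1 h2).1
      push_cast at h4 h5
      linarith
    rw [← sum_fiberwise_of_maps_to (g := fun p => p % M) (t := T)
      fun p hp => (mem_filter.1 hp).2.2]
    refine le_trans ?_ (card_nsmul_le_sum _ _ _ h1)
    rw [nsmul_eq_mul]
    have h6 : 1 / (8 * a.natAbs) / √(L : ℝ) * (x / 2) ≤ T.card / M.totient * (x / 2) := by gcongr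
    have h7 : 1 / (8 * a.natAbs) / √(L : ℝ) * (x / 2) =
        2 * (1 / (32 * a.natAbs) / √(L : ℝ) * x) := by ring
    have h8 : (T.card : ℝ) * ((x : ℝ) / 2 / M.totient -
        C * (((x : ℝ) + 1) ^ (1 - δ) * Real.log (2 * M * (x + 1)))) = T.card / M.totient * (x / 2)
        - T.card * C * (((x : ℝ) + 1) ^ (1 - δ) * Real.log (2 * M * (x + 1))) := by ring
    linarith

end Vale.Agent.P016
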