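import Vale.Agent.P016.Cnt
import Vale.Agent.P016.Lat

/-! Ideals as lattices, units, class representatives. -/

namespace Vale.Agent.P016

open Complex NumberField IsDedekindDomain MeasureTheory Filter
open scoped Classical ComplexConjugate nonZeroDivisors
open Vale.Agent.P026 (w)

variable {F : Type} [Field F] [NumberField F]

theorem mem_idL {I : Ideal (𝓞 F)} {x : F} : x ∈ idL I ↔ ∃ y ∈ I, (y : F) = x := Iff.rfl

theorem coe_mem_idL {I : Ideal (𝓞 F)} {x : 𝓞 F} : (x : F) ∈ idL I ↔ x ∈ I := 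
  ⟨fun ⟨_, h1, h2⟩ => RingOfIntegers.coe_injective h2 ▸ h1, fun h => ⟨x, h, rfl⟩⟩

theorem idL_top : idL (⊤ : Ideal (𝓞 F)) = latO F := by
  ext x
  exact ⟨fun ⟨y, _, h⟩ => h ▸ y.isIntegral_coe, fun h => ⟨⟨x, h⟩, trivial, rfl⟩⟩

theorem idL_mono {I J : Ideal (𝓞 F)} (h : I ≤ J) : idL I ≤ idL J := fun _ ⟨y, h1, h2⟩ => ⟨y, h h1, h2⟩

theorem isLat_idL {I : Ideal (𝓞 F)} (hI : I ≠ ⊥) : IsLat (idL I) := by
  refine isLat_latO.of_squeeze (Ideal.absNorm_eq_zero_iff.not.2 hI) (fun x hx => ?_) fun x hx => ?_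
  · rw [← idL_top] at hx
    obtain ⟨y, -, rfl⟩ := mem_idL.1 hx
    exact mem_idL.2 ⟨Ideal.absNorm I * y, I.mul_mem_right _ I.absNorm_mem, by simp⟩
  · obtain ⟨y, -, rfl⟩ := mem_idL.1 hx
    rw [← idL_top]
    exact mem_idL.2 ⟨Ideal.absNorm I * y, trivial, by simp⟩

theorem relIndex_idL {I J : Ideal (𝓞 F)} (hJ : J ≠ ⊥) :
    (idL (I * J)).relIndex (idL J) = Ideal.absNorm I := by
  have h1 := AddSubgroup.relIndex_mul_index (H := (I * J).toAddSubgroup) (K := J.toAddSubgroup)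
    Ideal.mul_le_right
  rw [← Ideal.absNorm_eq_index, ← Ideal.absNorm_eq_index, map_mul] at h1
  rw [idL, idL, AddSubgroup.relIndex_map_map_of_injective _ _ RingOfIntegers.coe_injective]
  exact mul_right_cancel₀ (Ideal.absNorm_eq_zero_iff.not.2 hJ) h1

theorem mem_EU {u : Fˣ} : u ∈ EU F ↔ ∃ v : (𝓞 F)ˣ, ((v : 𝓞 F) : F) = (u : F) := 
  exists_congr fun _ => Units.ext_iff

theorem unitGrp_EU : UnitGrp (EU F) := by
  refine ⟨fun u hu => ?_, 1, one_pos, fun u h1 h2 => ?_⟩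
  · obtain ⟨v, hv⟩ := mem_EU.1 hu
    exact hv ▸ RingOfIntegers.isIntegral_coe _
  · rw [pow_one]
    exact mem_EU.2 ⟨⟨⟨u, h1⟩, ⟨(u⁻¹ : Fˣ), h2⟩, RingOfIntegers.ext u.mul_inv,
      RingOfIntegers.ext u.inv_mul⟩, rfl⟩

theorem EU_mul_mem {I : Ideal (𝓞 F)} (u : EU F) {x : F} (hx : x ∈ idL I) :
    ((u : Fˣ) : F) * x ∈ idL I := by
  obtain ⟨v, hv⟩ := mem_EU.1 u.2
  obtain ⟨y, hy, rfl⟩ := mem_idL.1 hx
  exact mem_idL.2 ⟨v * y, I.mul_mem_left _ hy, by rw [← hv]; simp⟩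

theorem EU_mul_mem_dual {I : Ideal (𝓞 F)} (u : EU F) {x : F} (hx : x ∈ dualL (idL I)) :
    ((u : Fˣ) : F) * x ∈ dualL (idL I) := fun y hy => by
  rw [mul_comm _ x, mul_assoc]
  exact hx _ (EU_mul_mem u hy)

/-- Every class has a representative coprime to q. -/
theorem exists_rep {q : ℕ} (hq : q ≠ 0) (κ : ClassGroup (𝓞 F)) : ∃ B : (Ideal (𝓞 F))⁰,
    ClassGroup.mk0 B = κ ∧ IsCoprime (B : Ideal (𝓞 F)) (Ideal.span {(q : 𝓞 F)}) := by
  obtain ⟨B0, h0⟩ := ClassGroup.mk0_surjective κ⁻¹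
  have hB0 : (B0 : Ideal (𝓞 F)) ≠ 0 := nonZeroDivisors.coe_ne_zero B0
  have hq' : Ideal.span {(q : 𝓞 F)} ≠ 0 := by simpa using hq
  obtain ⟨x, hx⟩ := IsDedekindDomain.exists_sup_span_eq
    (Ideal.mul_le_left : (B0 : Ideal (𝓞 F)) * Ideal.span {(q : 𝓞 F)} ≤ B0) (mul_ne_zero hB0 hq')
  obtain ⟨B, hB⟩ := Ideal.dvd_iff_le.2 (le_sup_right.trans hx.le)
  rw [hB, ← Ideal.mul_sup] at hx
  have h1 : Ideal.span {(q : 𝓞 F)} ⊔ B = ⊤ :=
    mul_left_cancel₀ hB0 (hx.trans (Ideal.mul_top _).symm)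
  rcases eq_or_ne x 0 with rfl | hx0
  · obtain ⟨B1, h2⟩ := ClassGroup.mk0_surjective κ
    have h3 : B = 0 := (mul_eq_zero.1 (hB.symm.trans (by simp))).resolve_left hB0
    refine ⟨B1, h2, Ideal.isCoprime_iff_sup_eq.2 ?_⟩
    rw [h3, Ideal.zero_eq_bot, sup_bot_eq] at h1
    rw [h1, sup_top_eq]
  · have h3 : B ≠ 0 := fun h3 => hx0 (by simpa [h3] using hB)
    refine ⟨⟨B, mem_nonZeroDivisors_of_ne_zero h3⟩, ?_,
      Ideal.isCoprime_iff_sup_eq.2 (by rw [sup_comm]; exact h1)⟩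
    rw [← inv_inv κ, ← h0]
    exact ClassGroup.mk0_eq_mk0_inv_iff.2 ⟨x, hx0, by rw [hB]; exact mul_comm _ _⟩

theorem absNorm_coprime {q : ℕ} {B : Ideal (𝓞 F)} (h : IsCoprime B (Ideal.span {(q : 𝓞 F)})) :
    (Ideal.absNorm B).Coprime q := by
  refine Nat.coprime_of_dvd fun l hl h1 h2 => ?_
  obtain ⟨P, hP, h3, h4⟩ := Ideal.exists_isMaximal_dvd_of_dvd_absNorm' hl B h1
  have h5 : (q : ℤ) ∈ P.under ℤ := h3 ▸ Ideal.mem_span_singleton.2 (Int.natCast_dvd_natCast.2 h2)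
  have h6 : (q : 𝓞 F) ∈ P := by simpa [Ideal.under, Ideal.mem_comap] using h5
  exact hP.ne_top (top_le_iff.1 ((Ideal.isCoprime_iff_sup_eq.1 h).ge.trans
    (sup_le (Ideal.dvd_iff_le.1 h4) ((Ideal.span_singleton_le_iff_mem _).2 h6))))

/-- The norm is periodic. -/
theorem norm_cong {q : ℕ} {x y : 𝓞 F} (h : (q : 𝓞 F) ∣ x - y) :
    ((Algebra.norm ℤ x : ℤ) : ZMod q) = ((Algebra.norm ℤ y : ℤ) : ZMod q) := by
  obtain ⟨z, hz⟩ := h
  let b := RingOfIntegers.basis F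
  let φ := (Int.castRingHom (ZMod q)).mapMatrix.comp (Algebra.leftMulMatrix b).toRingHom
  have h1 : ∀ x : 𝓞 F, ((Algebra.norm ℤ x : ℤ) : ZMod q) = (φ x).det := fun x => by
    rw [Algebra.norm_eq_matrix_det b]
    exact (Int.castRingHom (ZMod q)).map_det _
  have h2 : φ q = 0 := by
    rw [map_natCast, ← map_natCast (algebraMap (ZMod q) _), ZMod.natCast_self, map_zero]
  rw [h1, h1, sub_eq_iff_eq_add'.1 hz, map_add, map_mul, h2, zero_mul, add_zero]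

/-- Generators of the products I B form a transversal. -/
theorem exists_tr {B : Ideal (𝓞 F)} (hB : B ≠ ⊥) :
    ∃ ν : {I : Ideal (𝓞 F) // I ≠ ⊥ ∧ (I * B).IsPrincipal} → 𝓞 F,
      (∀ I, I.1 * B = Ideal.span {ν I}) ∧
      IsTr (EU F) {x : F | x ≠ 0 ∧ x ∈ idL B} (fun I => (ν I : F)) := by
  choose ν hν using fun I : {I : Ideal (𝓞 F) // I ≠ ⊥ ∧ (I * B).IsPrincipal} => I.2.2.principal
  have hν' : ∀ I, I.1 * B = Ideal.span {ν I} := hν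
  have h0 : ∀ I, (ν I : F) ≠ 0 := fun I h => mul_ne_zero I.2.1 hB (by
    rw [hν', RingOfIntegers.coe_eq_zero_iff.1 h]; simp)
  have hB' : ∀ I, ν I ∈ B := fun I => by
    have h1 : ν I ∈ I.1 * B := by rw [hν']; exact Ideal.mem_span_singleton_self _
    exact Ideal.mul_le_right h1
  refine ⟨ν, hν', fun I u => ⟨mul_ne_zero (u : Fˣ).ne_zero (h0 I), EU_mul_mem u (coe_mem_idL.2
    (hB' I))⟩, fun x hx => ?_⟩
  obtain ⟨y, hy, rfl⟩ := mem_idL.1 hx.2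
  obtain ⟨I, hI⟩ := Ideal.dvd_iff_le.2 ((Ideal.span_singleton_le_iff_mem _).2 hy)
  rw [mul_comm] at hI
  have hI0 : I ≠ ⊥ := fun h => hx.1 (by
    have h1 : y = 0 := by simpa [h] using hI
    simp [h1])
  obtain ⟨J, hJ⟩ : ∃ J : {I : Ideal (𝓞 F) // I ≠ ⊥ ∧ (I * B).IsPrincipal},
      Ideal.span {y} = J.1 * B := ⟨⟨I, hI0, y, hI.symm⟩, hI⟩
  obtain ⟨v, hv⟩ := Ideal.span_singleton_eq_span_singleton.1 ((hν' J).symm.trans hJ.symm)
  obtain ⟨u, hu⟩ : ∃ u : EU F, ((u : Fˣ) : F) = ((v : 𝓞 F) : F) := ⟨⟨_, v, rfl⟩, rfl⟩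
  have h1 : (y : F) = ((u : Fˣ) : F) * ν J := by
    rw [hu, ← hv, mul_comm]
    simp
  refine ⟨(J, u), h1, ?_⟩
  rintro ⟨I', u'⟩ h2
  dsimp only at h2
  obtain ⟨v', hv'⟩ := mem_EU.1 u'.2
  have h3 : ν I' * v' = y := by
    refine RingOfIntegers.ext ?_
    rw [h2, ← hv', mul_comm]
    simp
  have h4 : I' = J := Subtype.ext (mul_right_cancel₀ hB (by
    rw [hν', Ideal.span_singleton_eq_span_singleton.2 ⟨v', h3⟩]
    exact hJ))
  rw [h4] at h2 ⊢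
  rw [Subtype.ext (Units.ext (mul_right_cancel₀ (h0 _) (h2.symm.trans h1)))]

variable [Om F]

theorem cov_idL {I : Ideal (𝓞 F)} (hI : I ≠ ⊥) : cov (idL I) = nm I * cov (latO F) := by
  have h := relIndex_idL (I := I) (J := ⊤) top_ne_bot
  rw [Ideal.mul_top, idL_top] at h
  rw [cov_le isLat_latO (isLat_idL hI) (idL_top (F := F) ▸ idL_mono le_top), h, nm]

theorem norm_eq_absNorm (x : 𝓞 F) :
    Algebra.norm ℤ x = (Ideal.absNorm (Ideal.span {x}) : ℤ) := by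
  have h1 := Nin_nonneg (x : F)
  rw [← norm_eq_Nin, ← Algebra.coe_norm_int] at h1
  rw [Ideal.absNorm_span_singleton, Int.natAbs_of_nonneg (by exact_mod_cast h1)]

end Vale.Agent.P016
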