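import Vale.Agent.P016.KumA

/-! The Kummer field. -/

namespace Vale.Agent.P016

open Complex NumberField IsDedekindDomain MeasureTheory Filter
open scoped Classical ComplexConjugate nonZeroDivisors
open Vale.Agent.P026 (w)

theorem kum_not_pow {F : Type} [Field F] [NumberField F] {l : ℕ} (hl : l.Prime) {a : ℤ}
    (ha : ∀ b : ℤ, b ^ l ≠ a) (hd : Module.finrank ℚ F = l - 1) (b : F) : b ^ l ≠ a := fun h => by
  have h0 : (a : ℚ) ≠ 0 := Int.cast_ne_zero.2 fun e => ha 0 (by rw [e, zero_pow hl.ne_zero])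
  have h1 := congrArg (Algebra.norm ℚ) h
  rw [map_pow, ← map_intCast (algebraMap ℚ F), Algebra.norm_algebraMap, hd] at h1
  have h2 : (a / Algebra.norm ℚ b) ^ l = algebraMap ℤ ℚ a := by
    rw [div_pow, h1, div_eq_iff (pow_ne_zero _ h0), eq_intCast, ← pow_succ',
      Nat.sub_add_cancel hl.one_le]
  obtain ⟨c, hc⟩ := IsIntegrallyClosed.isIntegral_iff.1
    (IsIntegral.of_pow hl.pos (h2 ▸ isIntegral_algebraMap (R := ℤ)))
  exact ha c ((algebraMap ℤ ℚ).injective_int (by rw [map_pow, hc, h2]))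

theorem kum_basis {F K : Type} [Field F] [NumberField F] [Field K] [NumberField K] [Algebra F K]
    (b : PowerBasis ℚ F) (c : PowerBasis F K) {m n : ℕ} (hm : b.dim = m) (hn : c.dim = n) {ζ : F}
    (h : b.gen = ζ) : ∃ e : Module.Basis (Fin m × Fin n) ℚ K,
      ∀ i, e i = algebraMap F K ζ ^ (i.1 : ℕ) * c.gen ^ (i.2 : ℕ) := by
  subst hm hn h
  exact ⟨b.basis.smulTower c.basis, fun i => by simp [Algebra.smul_def]⟩

theorem exists_kummer {l : ℕ} (hl : l.Prime) (h2 : l ≠ 2) {a : ℤ} (ha : ∀ b : ℤ, b ^ l ≠ a) :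
    ∃ (K : Type) (_ : Field K) (_ : NumberField K) (ζ α : K), IsPrimitiveRoot ζ l ∧
      α ^ l = (a : K) ∧ ∃ e : Module.Basis (Fin (l - 1) × Fin l) ℚ K,
        ∀ i, e i = ζ ^ (i.1 : ℕ) * α ^ (i.2 : ℕ) := by
  have := NeZero.mk hl.ne_zero
  let F := CyclotomicField l ℚ
  have : IsCyclotomicExtension {l} ℚ F := CyclotomicField.isCyclotomicExtension l ℚ
  have hζ := IsCyclotomicExtension.zeta_spec l ℚ F
  have hd : Module.finrank ℚ F = l - 1 := by
    rw [IsCyclotomicExtension.Rat.finrank l F, Nat.totient_prime hl]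
  have hi := X_pow_sub_C_irreducible_of_prime hl (kum_not_pow hl ha hd)
  have := Fact.mk hi
  let K := AdjoinRoot (Polynomial.X ^ l - Polynomial.C (a : F))
  let pb := AdjoinRoot.powerBasis hi.ne_zero
  have := pb.finite
  have : NumberField K := .of_module_finite F K
  refine ⟨K, _, this, algebraMap F K _, pb.gen, hζ.map_of_injective (algebraMap F K).injective, ?_,
    kum_basis (hζ.powerBasis ℚ) pb ((hζ.powerBasis ℚ).finrank.symm.trans hd)
      Polynomial.natDegree_X_pow_sub_C (hζ.powerBasis_gen ℚ)⟩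
  exact (root_X_pow_sub_C_pow l (a : F)).trans (map_intCast _ a)

theorem kummer {l : ℕ} (hl : l.Prime) (h2 : l ≠ 2) {a : ℤ} (ha : ∀ b : ℤ, b ^ l ≠ a) :
    ∃ (K : Type) (_ : Field K) (_ : NumberField K) (_ : Om K) (D : ℕ), D ≠ 0 ∧
      dg K = (l - 1) * l ∧ Real.log D ≤ 2 * (l : ℝ) ^ 4 * (1 + Real.log a.natAbs) ∧
      sz K ≤ 4 * (l : ℝ) ^ 4 * (1 + Real.log a.natAbs) ∧
      ∀ p : ℕ, p.Prime → ¬ p ∣ D → l ∣ p - 1 → (a : ZMod p) ^ ((p - 1) / l) = 1 →
        ∃ T : Finset (PP K), T.card = (l - 1) * l ∧ ∀ P ∈ T, Ideal.absNorm P.asIdeal = p := by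
  obtain ⟨K, _, _, ζ, α, hζ, hα, e, he⟩ := exists_kummer hl h2 ha
  have h0 : a ≠ 0 := fun e => ha 0 (by rw [e, zero_pow hl.ne_zero])
  have h1 : (1 : ℝ) ≤ a.natAbs := by exact_mod_cast Int.natAbs_pos.2 h0
  have hn : ∀ φ : K →+* ℂ, ‖φ ζ‖ = 1 := fun φ =>
    (hζ.map_of_injective φ.injective).norm'_eq_one hl.ne_zero
  let z : 𝓞 K := ⟨ζ, hζ.isIntegral hl.pos⟩
  let y : 𝓞 K := ⟨α, IsIntegral.of_pow hl.pos (hα ▸ isIntegral_algebraMap (R := ℤ) (x := a))⟩
  have hint : ∀ i, IsIntegral ℤ (e i) := fun i => he i ▸ (z ^ (i.1 : ℕ) * y ^ (i.2 : ℕ)).2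
  obtain ⟨D, a1, a2, a3, a4⟩ := exists_D e hint h1 fun i φ => by
    have h3 : ‖φ α‖ ^ l = a.natAbs := by
      rw [← norm_pow, ← map_pow, hα, map_intCast, Complex.norm_intCast, Nat.cast_natAbs,
        Int.cast_abs]
    rw [he, map_mul, map_pow, map_pow, norm_mul, norm_pow, norm_pow, hn, one_pow, one_mul, ← h3]
    exact pow_le_pow_right₀ ((one_le_pow_iff_of_nonneg (norm_nonneg _) hl.ne_zero).1 (h3 ▸ h1))
      i.2.2.le
  have hd : dg K = (l - 1) * l := by simp [Module.finrank_eq_card_basis e]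
  have hL := Real.log_nonneg h1
  have h3 : (1 : ℝ) ≤ l := by exact_mod_cast hl.one_le
  have h4 : (dg K : ℝ) ≤ l ^ 2 := by
    rw [hd, sq]
    exact_mod_cast Nat.mul_le_mul_right _ (Nat.sub_le _ _)
  have h5 : (l : ℝ) ^ 2 ≤ l ^ 4 := pow_le_pow_right₀ h3 (by norm_num)
  have h6 : Real.log D ≤ 2 * (l : ℝ) ^ 4 * (1 + Real.log a.natAbs) := by
    have : (dg K : ℝ) ^ 2 ≤ (l ^ 2) ^ 2 := by gcongr
    nlinarith [mul_le_mul_of_nonneg_right (h4.trans h5) hL]
  refine ⟨K, _, _, ⟨ζ, fun φ h => h2 ?_⟩, D, a1, hd, h6, ?_, fun p hp hD ⟨m, hm⟩ hp' => ?_⟩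
  · refine (Nat.prime_dvd_prime_iff_eq hl Nat.prime_two).1
      ((hζ.map_of_injective φ.injective).dvd_of_pow_eq_one 2 ?_)
    rw [sq]
    nth_rw 2 [← Complex.conj_eq_iff_im.2 h]
    rw [Complex.mul_conj, Complex.normSq_eq_norm_sq, hn]
    simp
  · have h7 : Real.log (discr K).natAbs ≤ Real.log D := Real.log_le_log
      (by exact_mod_cast Int.natAbs_pos.2 (discr_ne_zero K)) (by exact_mod_cast a2)
    have h8 : (1 : ℝ) ≤ l ^ 4 := one_le_pow₀ h3
    unfold sz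
    nlinarith [mul_nonneg (zero_le_one.trans h8) hL]
  rw [← hd]
  have hp1 : p = l * m + 1 := by have := hp.pos; omega
  have h7 : z ^ p = z := by
    rw [hp1, pow_succ, pow_mul, show z ^ l = 1 from Subtype.ext hζ.pow_eq_one, one_pow, one_mul]
  have h8 : (p : 𝓞 K) ∣ y ^ p - y := by
    rw [hm, Nat.mul_div_cancel_left _ hl.pos] at hp'
    obtain ⟨c, hc⟩ := (ZMod.intCast_zmod_eq_zero_iff_dvd (a ^ m - 1) p).1 (by
      push_cast
      rw [hp', sub_self])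
    have h8 := congrArg (Int.cast : ℤ → 𝓞 K) hc
    push_cast at h8
    refine ⟨c * y, ?_⟩
    nth_rw 1 [hp1]
    rw [pow_succ, pow_mul, show y ^ l = a from Subtype.ext hα]
    linear_combination y * h8
  refine split_count hp (frob_all (fun i : Fin (l - 1) × Fin l => z ^ (i.1 : ℕ) * y ^ (i.2 : ℕ))
    hp hD (fun x => ?_) fun i => ?_)
  · have h9 := a4 x x.2
    rw [show (e : _ → K) = (algebraMap (𝓞 K) K).toIntAlgHom.toLinearMap ∘
      fun i : Fin (l - 1) × Fin l => z ^ (i.1 : ℕ) * y ^ (i.2 : ℕ) from funext he, Set.range_comp,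
      ← Submodule.map_span] at h9
    obtain ⟨u, hu, h9⟩ := h9
    rwa [← show u = (D : 𝓞 K) * x from Subtype.ext h9]
  · rw [mul_pow, ← pow_mul, mul_comm _ p, pow_mul, h7, ← mul_sub, ← pow_mul, mul_comm _ p, pow_mul]
    exact (h8.trans (sub_dvd_pow_sub_pow _ _ _)).mul_left _

end Vale.Agent.P016
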