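import Vale.Agent.P016.Cnt

/-! Orders with small generators, and completely split primes. -/

namespace Vale.Agent.P016

open Complex NumberField IsDedekindDomain MeasureTheory Filter
open scoped Classical ComplexConjugate nonZeroDivisors
open Vale.Agent.P026 (w)

variable {F : Type} [Field F] [NumberField F]

theorem exists_D {ι : Type} [Fintype ι] (e : Module.Basis ι ℚ F) (hint : ∀ i, IsIntegral ℤ (e i))
    {H : ℝ} (h1 : 1 ≤ H) (hH : ∀ i (φ : F →+* ℂ), ‖φ (e i)‖ ≤ H) :
    ∃ D : ℕ, D ≠ 0 ∧ (NumberField.discr F).natAbs ≤ D ∧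
      Real.log D ≤ 2 * dg F * (dg F + Real.log H) ∧
      ∀ x : F, IsIntegral ℤ x → (D : F) * x ∈ Submodule.span ℤ (Set.range e) := by
  let f := (integralBasis F).indexEquiv e
  let b := (RingOfIntegers.basis F).reindex f
  let e' : ι → 𝓞 F := fun i => ⟨e i, hint i⟩
  let T := b.toMatrix e'
  have hT : ∀ j, e' j = ∑ i, T i j • b i := fun j => (b.sum_toMatrix_smul_self e' j).symm
  have h2 : Algebra.discr ℚ e = ((T.det ^ 2 * discr F : ℤ) : ℚ) := by
    have := Algebra.discr_of_matrix_vecMul (integralBasis F ∘ f.symm) (T.map (Int.castRingHom ℚ))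
    rw [Algebra.discr_reindex, ← coe_discr, ← RingHom.mapMatrix_apply (Int.castRingHom ℚ),
      ← RingHom.map_det] at this
    rw [Int.cast_mul, Int.cast_pow, ← eq_intCast (Int.castRingHom ℚ), ← this]
    congr 1
    funext j
    refine (congrArg (algebraMap (𝓞 F) F) (hT j)).trans ?_
    simp [b, Matrix.vecMul, dotProduct, mul_comm]
  have h3 : T.det ^ 2 * discr F ≠ 0 := fun h =>
    Algebra.discr_not_zero_of_basis ℚ e (by rw [h2, h, Int.cast_zero])
  have h4 : ∀ j, T.det • b j = ∑ i, T.adjugate i j • e' i := fun j => by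
    simp_rw [hT, Finset.smul_sum, smul_smul, mul_comm (T.adjugate _ _)]
    rw [Finset.sum_comm]
    simp_rw [← Finset.sum_smul, ← Matrix.mul_apply, Matrix.mul_adjugate]
    simp [Matrix.one_apply]
  refine ⟨(T.det ^ 2 * discr F).natAbs, Int.natAbs_ne_zero.2 h3, ?_, ?_, fun x hx => ?_⟩
  · rw [Int.natAbs_mul]
    exact Nat.le_mul_of_pos_left _ (Int.natAbs_pos.2 (left_ne_zero_of_mul h3))
  · have hc : Fintype.card ι = dg F := (Module.finrank_eq_card_basis e).symm
    let g : ι ≃ (F →ₐ[ℚ] ℂ) := Fintype.equivOfCardEq (by rw [hc, AlgHom.card])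
    have h5 := congrArg norm (Algebra.discr_eq_det_embeddingsMatrixReindex_pow_two ℚ ℂ e g)
    have h6 := Matrix.det_le (A := Algebra.embeddingsMatrixReindex ℚ ℂ e g)
      (abv := NormedField.toAbsoluteValue ℂ) (x := H) fun i j => hH i (g j)
    rw [h2, norm_pow, map_intCast, Complex.norm_intCast] at h5
    have h7 : (1 : ℝ) ≤ dg F := by exact_mod_cast one_le_dg
    rw [hc] at h6
    rw [Nat.cast_natAbs, Int.cast_abs, h5]
    have h8 : ‖(Algebra.embeddingsMatrixReindex ℚ ℂ e g).det‖ ≤ (dg F * H) ^ dg F := by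
      refine h6.trans ?_
      rw [nsmul_eq_mul, mul_pow]
      gcongr
      exact_mod_cast Nat.factorial_le_pow _
    have h9 : 0 < ‖(Algebra.embeddingsMatrixReindex ℚ ℂ e g).det‖ ^ 2 :=
      h5 ▸ abs_pos.2 (Int.cast_ne_zero.2 h3)
    have h10 := Real.log_le_log h9 (pow_le_pow_left₀ (norm_nonneg _) h8 2)
    rw [Real.log_pow _ 2, Real.log_pow, Real.log_pow, Real.log_mul (by positivity) (by positivity)]
      at h10
    have h11 := Real.log_le_self (zero_le_one.trans h7)
    rw [Real.log_pow]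
    push_cast at h10 ⊢
    nlinarith
  · have h5 : ∀ y : 𝓞 F, T.det • y ∈ Submodule.span ℤ (Set.range e') := fun y => by
      rw [← b.sum_repr y, Finset.smul_sum]
      refine sum_mem fun j _ => ?_
      rw [smul_comm, h4]
      exact Submodule.smul_mem _ _ (sum_mem fun i _ =>
        Submodule.smul_mem _ _ (Submodule.subset_span ⟨i, rfl⟩))
    have h6 := Submodule.mem_map_of_mem (f := (algebraMap (𝓞 F) F).toIntAlgHom.toLinearMap)
      (h5 ⟨x, hx⟩)
    rw [Submodule.map_span, ← Set.range_comp] at h6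
    replace h6 : T.det • x ∈ Submodule.span ℤ (Set.range e) := h6
    obtain ⟨c, hc⟩ : T.det ∣ ((T.det ^ 2 * discr F).natAbs : ℤ) :=
      Int.dvd_natAbs.2 ((dvd_pow_self _ two_ne_zero).mul_right _)
    convert Submodule.smul_mem _ c h6 using 1
    rw [← Int.cast_natCast, hc]
    simp [mul_comm, mul_left_comm]

theorem frob_all {ι : Type} (e : ι → 𝓞 F) {D p : ℕ} (hp : p.Prime) (hD : ¬ p ∣ D)
    (hs : ∀ x : 𝓞 F, (D : 𝓞 F) * x ∈ Submodule.span ℤ (Set.range e))
    (he : ∀ i, (p : 𝓞 F) ∣ e i ^ p - e i) (x : 𝓞 F) : (p : 𝓞 F) ∣ x ^ p - x := by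
  have := Fact.mk hp
  let S : Submodule ℤ (𝓞 F) :=
    { carrier := {y | (p : 𝓞 F) ∣ y ^ p - y}
      zero_mem' := by simp [hp.ne_zero]
      add_mem' := fun {a b} ha hb => by
        obtain ⟨r, hr⟩ := exists_add_pow_prime_eq hp a b
        show (p : 𝓞 F) ∣ _ ^ p - _
        convert dvd_add (dvd_add ha hb) (dvd_mul_right (p : 𝓞 F) (a * b * r)) using 1
        rw [hr]
        ring
      smul_mem' := fun z y hy => by
        obtain ⟨c, hc⟩ := (ZMod.intCast_zmod_eq_zero_iff_dvd (z ^ p - z) p).1 (by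
          push_cast
          rw [ZMod.pow_card, sub_self])
        have h1 := congrArg (Int.cast : ℤ → 𝓞 F) hc
        push_cast at h1
        show (p : 𝓞 F) ∣ _ ^ p - _
        convert dvd_add (hy.mul_left ((z : 𝓞 F) ^ p)) (dvd_mul_right (p : 𝓞 F) (c * y)) using 1
        rw [zsmul_eq_mul]
        linear_combination y * h1 }
  obtain ⟨a, b, h⟩ := Nat.isCoprime_iff_coprime.2 ((hp.coprime_iff_not_dvd).2 hD)
  have h1 := add_mem (S.smul_mem a (x := p * x) (dvd_sub
    ((dvd_mul_right _ _).trans (dvd_pow_self _ hp.ne_zero)) (dvd_mul_right _ _)))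
    (S.smul_mem b (Submodule.span_le.2 (Set.range_subset_iff.2 he) (hs x)))
  have h2 := congrArg (Int.cast : ℤ → 𝓞 F) h
  push_cast at h2
  rwa [show a • ((p : 𝓞 F) * x) + b • ((D : 𝓞 F) * x) = x by
    rw [zsmul_eq_mul, zsmul_eq_mul]
    linear_combination x * h2] at h1

open Polynomial in
theorem kuma_norm {p : ℕ} (hp : p.Prime) (h : ∀ x : 𝓞 F, (p : 𝓞 F) ∣ x ^ p - x) (P : PP F)
    (hP : (p : 𝓞 F) ∈ P.asIdeal) : Ideal.absNorm P.asIdeal = p := by
  have := P.isMaximal
  let _ := Ideal.Quotient.field P.asIdeal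
  have := Ideal.finiteQuotientOfFreeOfNeBot P.asIdeal P.ne_bot
  have := Fintype.ofFinite (𝓞 F ⧸ P.asIdeal)
  have : CharP (𝓞 F ⧸ P.asIdeal) p :=
    (CharP.charP_iff_prime_eq_zero hp).2 (Ideal.Quotient.eq_zero_iff_mem.2 hP)
  obtain ⟨n, -, hn⟩ := FiniteField.card (𝓞 F ⧸ P.asIdeal) p
  have h1 := card_le_degree_of_subset_roots (p := (X ^ p - X : (𝓞 F ⧸ P.asIdeal)[X]))
    (Z := Finset.univ) fun x _ => by
      obtain ⟨x, rfl⟩ := Ideal.Quotient.mk_surjective x
      rw [mem_roots (FiniteField.X_pow_card_sub_X_ne_zero _ hp.one_lt)]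
      simpa using Ideal.Quotient.eq_zero_iff_mem.2 (P.asIdeal.mem_of_dvd (h x) hP)
  rw [FiniteField.X_pow_card_sub_X_natDegree_eq _ hp.one_lt, Finset.card_univ] at h1
  rw [Ideal.absNorm_apply, Submodule.cardQuot_apply, Nat.card_eq_fintype_card]
  exact h1.antisymm (hn ▸ Nat.le_self_pow n.ne_zero p)

theorem split_count {p : ℕ} (hp : p.Prime) (h : ∀ x : 𝓞 F, (p : 𝓞 F) ∣ x ^ p - x) :
    ∃ T : Finset (PP F), T.card = dg F ∧ ∀ P ∈ T, Ideal.absNorm P.asIdeal = p := by
  let I := Ideal.span {(p : 𝓞 F)}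
  have h0 : I ≠ ⊥ := by simpa [I] using hp.ne_zero
  have h1 : I.IsRadical := (Ideal.isRadical_iff_pow_one_lt p hp.one_lt).2 fun r hr => by
    simpa using sub_mem hr (Ideal.mem_span_singleton.2 (h r))
  have h2 := (UniqueFactorizationMonoid.squarefree_iff_nodup_normalizedFactors h0).1
    (IsRadical.squarefree h0 fun n J hJ => Ideal.dvd_iff_le.2 fun x hx =>
      h1 ⟨n, Ideal.dvd_iff_le.1 hJ (Ideal.pow_mem_pow hx n)⟩)
  let S : Finset (Ideal (𝓞 F)) := ⟨_, h2⟩
  have h3 : ∀ P ∈ S, Prime P := fun P hP =>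
    UniqueFactorizationMonoid.prime_of_normalized_factor P hP
  let g : S → PP F := fun P => ⟨P, Ideal.isPrime_of_prime (h3 P P.2), (h3 P P.2).ne_zero⟩
  have h4 : ∀ P ∈ S, Ideal.absNorm P = p := fun P hP => kuma_norm hp h (g ⟨P, hP⟩)
    (Ideal.dvd_iff_le.1 (UniqueFactorizationMonoid.dvd_of_mem_normalizedFactors hP)
      (Ideal.mem_span_singleton_self _))
  refine ⟨Finset.univ.image g, ?_, fun P hP => ?_⟩
  · rw [Finset.card_image_of_injective _ fun P Q e => Subtype.ext (congrArg (·.asIdeal) e),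
      Finset.card_univ, Fintype.card_coe]
    have h5 : ∏ P ∈ S, P = I := by
      rw [Finset.prod_eq_multiset_prod, Multiset.map_id']
      exact Ideal.prod_normalizedFactors_eq_self h0
    have h6 := congrArg Ideal.absNorm h5
    rw [map_prod, Finset.prod_congr rfl h4, Finset.prod_const, Ideal.absNorm_span_natCast,
      RingOfIntegers.rank] at h6
    exact Nat.pow_right_injective hp.two_le h6
  · obtain ⟨P, -, rfl⟩ := Finset.mem_image.1 hP
    exact h4 P P.2

end Vale.Agent.P016
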