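import Vale.Agent.P016.Arch

/-! Auxiliary algebra for lattices. -/

namespace Vale.Agent.P016

open Complex NumberField MeasureTheory Module
open scoped Classical ComplexConjugate

variable {F : Type} [Field F] [NumberField F]

theorem lta_coord (b : Basis (Fin (dg F)) ℚ F) (x : F) :
    x ∈ Submodule.span ℤ (Set.range b) ↔ ∀ i, ∃ k : ℤ, b.repr x i = k := by
  rw [Basis.mem_span_iff_repr_mem ℤ b x]
  refine forall_congr' fun i => ?_
  simp only [Set.mem_range, eq_intCast]
  exact exists_congr fun k => eq_comm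

theorem lta_iff {L : AddSubgroup F} :
    IsLat L ↔ Submodule.IsLattice ℚ (AddSubgroup.toIntSubmodule L) := by
  constructor
  · rintro ⟨b, hb⟩
    have h : AddSubgroup.toIntSubmodule L = Submodule.span ℤ (Set.range b) := by
      ext x; exact hb x
    rw [h]
    exact ⟨Submodule.fg_span (Set.finite_range b), by simp [Submodule.span_span_of_tower]⟩
  · intro h
    have hr : Module.finrank ℤ (AddSubgroup.toIntSubmodule L) = dg F := by
      have := Submodule.IsLattice.rank' ℚ (AddSubgroup.toIntSubmodule L)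
      unfold Module.finrank dg
      rw [this]; rfl
    let b0 := Module.finBasisOfFinrankEq ℤ (AddSubgroup.toIntSubmodule L) hr
    refine ⟨b0.extendOfIsLattice ℚ, fun x => ?_⟩
    have h1 : Set.range (b0.extendOfIsLattice ℚ) =
        (AddSubgroup.toIntSubmodule L).subtype '' Set.range b0 := by
      rw [← Set.range_comp]
      congr 1; funext i; simp
    rw [h1, ← Submodule.map_span, b0.span_eq, Submodule.map_top, Submodule.range_subtype]
    rfl

theorem lta_mul {L : AddSubgroup F} (hL : IsLat L) (x : F) :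
    ∃ m : ℕ, m ≠ 0 ∧ (m : F) * x ∈ L := by
  obtain ⟨b, hb⟩ := hL
  refine ⟨∏ i, (b.repr x i).den, Finset.prod_ne_zero_iff.2 fun i _ => (b.repr x i).den_ne_zero, ?_⟩
  rw [hb, lta_coord]
  intro i
  have h1 : (((∏ j, (b.repr x j).den : ℕ) : F)) * x = ((∏ j, (b.repr x j).den : ℕ) : ℚ) • x := by
    rw [Nat.cast_smul_eq_nsmul, nsmul_eq_mul]
  rw [h1, map_smul, Finsupp.smul_apply, smul_eq_mul,
    ← Finset.prod_erase_mul _ _ (Finset.mem_univ i)]
  refine ⟨(∏ j ∈ Finset.univ.erase i, (b.repr x j).den : ℕ) * (b.repr x i).num, ?_⟩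
  rw [Nat.cast_mul, mul_assoc, Rat.den_mul_eq_num]
  push_cast; rfl

theorem lta_exists_mul {L L' : AddSubgroup F} (hL : IsLat L) (hL' : IsLat L') :
    ∃ m : ℕ, m ≠ 0 ∧ ∀ x ∈ L, (m : F) * x ∈ L' := by
  obtain ⟨b, hb⟩ := hL
  choose m hm0 hm using fun i => lta_mul hL' (b i)
  refine ⟨∏ i, m i, Finset.prod_ne_zero_iff.2 fun i _ => hm0 i, fun x hx => ?_⟩
  rw [hb] at hx
  induction hx using Submodule.span_induction with
  | mem x hx =>
    obtain ⟨i, rfl⟩ := hx
    rw [← Finset.prod_erase_mul _ _ (Finset.mem_univ i), Nat.cast_mul, mul_assoc, ← nsmul_eq_mul]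
    exact nsmul_mem (hm i) _
  | zero => simp
  | add x y _ _ hx hy => rw [mul_add]; exact add_mem hx hy
  | smul a x _ hx => rw [mul_smul_comm]; exact zsmul_mem hx a

theorem lta_squeeze {L L' : AddSubgroup F} (hL : IsLat L) {c d : F} (hc : c ≠ 0) (hd : d ≠ 0)
    (h1 : ∀ x ∈ L, c * x ∈ L') (h2 : ∀ x ∈ L', d * x ∈ L) : IsLat L' := by
  have hL1 := lta_iff.1 hL
  rw [lta_iff]
  constructor
  · have hfg : (Submodule.map (LinearMap.mulLeft ℤ d⁻¹) (AddSubgroup.toIntSubmodule L)).FG :=
      hL1.fg.map _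
    have hle : AddSubgroup.toIntSubmodule L' ≤
        Submodule.map (LinearMap.mulLeft ℤ d⁻¹) (AddSubgroup.toIntSubmodule L) := by
      intro x hx
      exact ⟨d * x, h2 x hx, by simp [hd]⟩
    exact Submodule.FG.of_le hfg hle
  · rw [eq_top_iff]
    intro x _
    obtain ⟨m, hm0, hm⟩ := lta_mul hL (x / c)
    have h3 := h1 _ hm
    have h4 : x = ((m : ℚ)⁻¹) • (c * ((m : F) * (x / c))) := by
      have : (m : F) ≠ 0 := by exact_mod_cast hm0
      rw [Rat.smul_def]; push_cast; field_simp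
    rw [h4]
    exact Submodule.smul_mem _ _ (Submodule.subset_span h3)

theorem lta_dual {L : AddSubgroup F} (b : Basis (Fin (dg F)) ℚ F)
    (hb : ∀ x, x ∈ L ↔ x ∈ Submodule.span ℤ (Set.range b)) (x : F) :
    x ∈ dualL L ↔ x ∈ Submodule.span ℤ (Set.range b.traceDual) := by
  rw [Basis.traceDual_def, ← LinearMap.BilinForm.dualSubmodule_span_of_basis,
    LinearMap.BilinForm.mem_dualSubmodule]
  change (∀ y ∈ L, ∃ k : ℤ, Algebra.trace ℚ F (x * y) = k) ↔ _
  refine forall_congr' fun y => ?_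
  rw [hb, Submodule.mem_one, Algebra.traceForm_apply]
  refine imp_congr_right fun _ => exists_congr fun k => ?_
  rw [eq_intCast, eq_comm]

theorem lta_relIndex {L L' : AddSubgroup F} (hL : IsLat L) (hL' : IsLat L') :
    L'.relIndex L ≠ 0 := by
  obtain ⟨m, hm0, hm⟩ := lta_exists_mul hL hL'
  have hfg : AddGroup.FG L := by
    rw [← Module.Finite.iff_addGroup_fg]
    exact (Module.Finite.iff_fg (N := AddSubgroup.toIntSubmodule L)).2 (lta_iff.1 hL).fg
  have hf : Finite (L ⧸ L'.addSubgroupOf L) := by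
    refine AddCommGroup.finite_of_fg_isAddTorsion _ fun q => ?_
    obtain ⟨x, rfl⟩ := QuotientAddGroup.mk_surjective q
    rw [isOfFinAddOrder_iff_nsmul_eq_zero]
    refine ⟨m, Nat.pos_of_ne_zero hm0, ?_⟩
    rw [← QuotientAddGroup.mk_nsmul, QuotientAddGroup.eq_zero_iff, AddSubgroup.mem_addSubgroupOf]
    simpa [nsmul_eq_mul] using hm x x.2
  exact AddSubgroup.index_ne_zero_of_finite

theorem lta_discr {h : F} (hh : h ∈ dualL (latO F)) :
    IsIntegral ℤ (((NumberField.discr F : ℤ) : F) * h) := by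
  set b := integralBasis F with hb
  set T := Algebra.traceMatrix ℚ b with hT
  have hbi : ∀ i, IsIntegral ℤ (b i) := fun i => by
    rw [hb, integralBasis_apply]; exact (RingOfIntegers.basis F i).isIntegral_coe
  have hTi : ∀ i j, IsIntegral ℤ (T i j) := fun i j => by
    rw [hT, Algebra.traceMatrix_apply, Algebra.traceForm_apply]
    exact Algebra.isIntegral_trace ((hbi i).mul (hbi j))
  have hv : ∀ i, IsIntegral ℤ ((T.mulVec (b.equivFun h)) i) := fun i => by
    rw [hT, Algebra.traceMatrix_of_basis_mulVec]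
    obtain ⟨k, hk⟩ := hh (b i) (hbi i)
    simp only [hk]
    exact isIntegral_algebraMap (R := ℤ) (x := k)
  have hadj : ∀ i j, IsIntegral ℤ (T.adjugate i j) := fun i j => by
    rw [Matrix.adjugate_apply]
    refine IsIntegral.det fun k l => ?_
    rw [Matrix.updateRow_apply]
    split_ifs
    · rw [Pi.single_apply]; split_ifs
      · exact isIntegral_one
      · exact isIntegral_zero
    · exact hTi k l
  have hc : ∀ i, IsIntegral ℤ (T.det * b.equivFun h i) := fun i => by
    have h1 : T.adjugate.mulVec (T.mulVec (b.equivFun h)) = T.det • b.equivFun h := by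
      rw [Matrix.mulVec_mulVec, Matrix.adjugate_mul, Matrix.smul_mulVec, Matrix.one_mulVec]
    have h2 := congrFun h1 i
    rw [Pi.smul_apply, smul_eq_mul] at h2
    rw [← h2, Matrix.mulVec, dotProduct]
    exact IsIntegral.sum _ fun j _ => (hadj i j).mul (hv j)
  have hd : (((NumberField.discr F : ℤ) : F)) = algebraMap ℚ F T.det := by
    rw [hT, ← Algebra.discr_def, hb, ← coe_discr]; simp
  have he : (((NumberField.discr F : ℤ) : F)) * h =
      ∑ i, algebraMap ℚ F (T.det * b.equivFun h i) * b i := by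
    conv_lhs => rw [← b.sum_equivFun h, hd, Finset.mul_sum]
    refine Finset.sum_congr rfl fun i _ => ?_
    rw [map_mul, Algebra.smul_def, mul_assoc]
  rw [he]
  exact IsIntegral.sum _ fun i _ => ((hc i).algebraMap).mul (hbi i)

variable [Om F]

/-- The Minkowski embedding as a linear map over the integers. -/
noncomputable def ltaE : F →ₗ[ℤ] (Io F → ℂ) :=
  AddMonoidHom.toIntLinearMap ⟨⟨emb, emb_zero⟩, emb_add⟩

theorem ltaE_apply (x : F) : ltaE x = emb x := rfl

theorem lta_emb_smul (q : ℚ) (x : F) : emb (q • x) = (q : ℝ) • emb x := by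
  funext v
  simp [emb, Rat.smul_def]

theorem lta_emb_sum {ι : Type} (s : Finset ι) (f : ι → F) :
    emb (∑ i ∈ s, f i) = ∑ i ∈ s, emb (f i) := map_sum ltaE f s

theorem lta_li (b : Basis (Fin (dg F)) ℚ F) : LinearIndependent ℝ (fun i => emb (b i)) := by
  rw [Fintype.linearIndependent_iff]
  intro a ha j
  have h1 : ∑ v : Io F, 2 * ((∑ i, a i • emb (b i)) v * v.1 (b.traceDual j)).re =
      ∑ i, a i * ((Algebra.trace ℚ F (b i * b.traceDual j) : ℚ) : ℝ) := by
    simp only [trace_eq, Finset.sum_apply, Finset.sum_mul, Finset.mul_sum, re_sum]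
    rw [Finset.sum_comm]
    refine Finset.sum_congr rfl fun i _ => Finset.sum_congr rfl fun v _ => ?_
    simp only [Pi.smul_apply, emb, map_mul, real_smul, mul_assoc, re_ofReal_mul]
    ring
  rw [ha] at h1
  simp only [Basis.trace_mul_traceDual] at h1
  simpa [apply_ite] using h1.symm

theorem lta_finrank : Module.finrank ℝ (Io F → ℂ) = dg F := by
  rw [Module.finrank_pi_fintype, ← two_mul_rr]
  simp [rr, mul_comm]

/-- The real basis attached to a rational basis. -/
noncomputable def ltaB (b : Basis (Fin (dg F)) ℚ F) : Basis (Fin (dg F)) ℝ (Io F → ℂ) :=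
  basisOfLinearIndependentOfCardEqFinrank' _ (lta_li b) (by simp [lta_finrank])

theorem ltaB_apply (b : Basis (Fin (dg F)) ℚ F) (i : Fin (dg F)) : ltaB b i = emb (b i) := by
  simp [ltaB]

theorem ltaB_repr (b : Basis (Fin (dg F)) ℚ F) (x : F) (i : Fin (dg F)) :
    (ltaB b).repr (emb x) i = (b.repr x i : ℝ) := by
  have h : emb x = ∑ j, (b.repr x j : ℝ) • ltaB b j := by
    conv_lhs => rw [← b.sum_repr x, lta_emb_sum]
    simp only [lta_emb_smul, ltaB_apply]
  rw [h, ← Basis.equivFun_apply, ← Basis.equivFun_symm_apply, LinearEquiv.apply_symm_apply]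

theorem ltaB_det (b b' : Basis (Fin (dg F)) ℚ F) :
    (ltaB b).det (ltaB b') = ((b.det b' : ℚ) : ℝ) := by
  rw [Basis.det_apply, Basis.det_apply]
  have := (Rat.castHom ℝ).map_det (b.toMatrix b')
  rw [Rat.coe_castHom] at this
  rw [this]
  congr 1
  ext i j
  simp [Basis.toMatrix_apply, ltaB_apply, ltaB_repr]

theorem ltaB_span (b : Basis (Fin (dg F)) ℚ F) :
    Submodule.span ℤ (Set.range (ltaB b)) =
      Submodule.map ltaE (Submodule.span ℤ (Set.range b)) := by
  rw [Submodule.map_span, ← Set.range_comp]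
  congr 2; funext i; simp [ltaB_apply, ltaE_apply]

theorem lta_equiv {L : AddSubgroup F} (b : Basis (Fin (dg F)) ℚ F)
    (hb : ∀ x, x ∈ L ↔ x ∈ Submodule.span ℤ (Set.range b)) :
    ∃ e : L ≃ (Submodule.span ℤ (Set.range (ltaB b))).toAddSubgroup,
      ∀ y : L, ((e y : (Submodule.span ℤ (Set.range (ltaB b))).toAddSubgroup) : Io F → ℂ)
        = emb (y : F) := by
  let f : L → (Submodule.span ℤ (Set.range (ltaB b))).toAddSubgroup := fun y =>
    ⟨emb (y : F), by
      rw [Submodule.mem_toAddSubgroup, ltaB_span]; exact ⟨y, (hb y).1 y.2, rfl⟩⟩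
  refine ⟨Equiv.ofBijective f ⟨fun y y' h => ?_, fun z => ?_⟩, fun y => rfl⟩
  · exact Subtype.ext (emb_inj (congrArg Subtype.val h))
  · obtain ⟨z, hz⟩ := z
    have hz' := hz
    rw [Submodule.mem_toAddSubgroup, ltaB_span] at hz'
    obtain ⟨y, hy, rfl⟩ := hz'
    exact ⟨⟨y, (hb y).2 hy⟩, rfl⟩

theorem lta_FD {L : AddSubgroup F} (hL : IsLat L) :
    FD L = ZSpan.fundamentalDomain (ltaB hL.choose) := by
  unfold FD
  rw [dif_pos hL]
  ext z
  simp only [Set.mem_ofPred_eq, ZSpan.mem_fundamentalDomain, ← ltaB_apply]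
  constructor
  · rintro ⟨a, ha, rfl⟩ i
    rw [← Basis.equivFun_apply, ← Basis.equivFun_symm_apply, LinearEquiv.apply_symm_apply]
    exact ha i
  · intro h
    exact ⟨fun i => (ltaB hL.choose).repr z i, h, ((ltaB hL.choose).sum_repr z).symm⟩

theorem lta_idx {L L' : AddSubgroup F} (h : L' ≤ L) (b b' : Basis (Fin (dg F)) ℚ F)
    (hb : ∀ x, x ∈ L ↔ x ∈ Submodule.span ℤ (Set.range b))
    (hb' : ∀ x, x ∈ L' ↔ x ∈ Submodule.span ℤ (Set.range b')) :
    volume.real (ZSpan.fundamentalDomain (ltaB b')) =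
      (L'.relIndex L : ℝ) * volume.real (ZSpan.fundamentalDomain (ltaB b)) := by
  rw [ZSpan.measureReal_fundamentalDomain (ltaB b') volume (ltaB b), ltaB_det]
  have h1 := AddSubgroup.relIndex_eq_abs_det L' L h b' b
    (by ext x; rw [hb', ← Submodule.span_int_eq_addSubgroupClosure]; rfl)
    (by ext x; rw [hb, ← Submodule.span_int_eq_addSubgroupClosure]; rfl)
  have h2 : ((L'.relIndex L : ℕ) : ℝ) = |((b.det b' : ℚ) : ℝ)| := by exact_mod_cast h1
  rw [h2]

theorem lta_cov {L : AddSubgroup F} (b : Basis (Fin (dg F)) ℚ F)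
    (hb : ∀ x, x ∈ L ↔ x ∈ Submodule.span ℤ (Set.range b)) :
    cov L = volume.real (ZSpan.fundamentalDomain (ltaB b)) := by
  have hL : IsLat L := ⟨b, hb⟩
  have h := lta_idx le_rfl b hL.choose hb hL.choose_spec
  rw [AddSubgroup.relIndex_self, Nat.cast_one, one_mul] at h
  rw [← h, cov, lta_FD hL]; rfl

end Vale.Agent.P016
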