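import Vale.Agent.P016.Lat

/-! Fourier uniqueness and the general Poisson formula. -/

namespace Vale.Agent.P016

open Complex NumberField MeasureTheory
open scoped Classical ComplexConjugate

/-- A square integrable function orthogonal to all characters pulled back from the torus
vanishes, if the pull back map has a measurable left inverse. -/
theorem poisA_torus {d X : Type} [Fintype d] [MeasurableSpace X] {μ : Measure X}
    [IsFiniteMeasure μ] {φ : X → UnitAddTorus d} {ψ : UnitAddTorus d → X} (hφ : Measurable φ)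
    (hψ : Measurable ψ) (hid : ∀ᵐ z ∂μ, ψ (φ z) = z) {f : X → ℂ} (hf : MemLp f 2 μ)
    (h : ∀ n : d → ℤ, ∫ z, f z * conj (UnitAddTorus.mFourier n (φ z)) ∂μ = 0) :
    ∀ᵐ z ∂μ, f z = 0 := by
  set ν : Measure (UnitAddTorus d) := μ.map φ with hν
  have hφm : MeasurePreserving φ μ ν := ⟨hφ, rfl⟩
  have hψm : MeasurePreserving ψ ν μ := by
    refine ⟨hψ, ?_⟩
    rw [hν, Measure.map_map hψ hφ]
    have : (ψ ∘ φ) =ᵐ[μ] id := hid
    rw [Measure.map_congr this, Measure.map_id]
  have hF : MemLp (f ∘ ψ) 2 ν := hf.comp_measurePreserving hψm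
  have hd := (ContinuousMap.toLp_denseRange ℂ ν ℂ (p := 2) (by simp)).topologicalClosure_map_submodule
    (UnitAddTorus.span_mFourier_closure_eq_top (d := d))
  rw [← Submodule.dense_iff_topologicalClosure_eq_top] at hd
  have hz : hF.toLp _ = 0 := by
    refine Dense.eq_zero_of_inner_right (𝕜 := ℂ) hd ?_
    intro v hv
    obtain ⟨g, hg, rfl⟩ := hv
    induction hg using Submodule.span_induction with
    | mem g hg =>
      obtain ⟨n, rfl⟩ := hg
      rw [L2.inner_def]
      have e1 : ∀ᵐ t ∂ν, inner ℂ ((ContinuousMap.toLp (E := ℂ) 2 ν ℂ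
          (UnitAddTorus.mFourier n) : Lp ℂ 2 ν) t) ((hF.toLp _ : Lp ℂ 2 ν) t)
          = f (ψ t) * conj (UnitAddTorus.mFourier n t) := by
        filter_upwards [ContinuousMap.coeFn_toLp (p := 2) (𝕜 := ℂ) ν (UnitAddTorus.mFourier n),
          hF.coeFn_toLp] with t h1 h2
        rw [h1, h2]
        simp
      refine (integral_congr_ae e1).trans ?_
      have hm : AEStronglyMeasurable (fun t => f (ψ t) * conj (UnitAddTorus.mFourier n t)) ν :=
        hF.aestronglyMeasurable.mul
          (Complex.continuous_conj.comp (UnitAddTorus.mFourier n).continuous).aestronglyMeasurable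
      rw [hν, integral_map hφ.aemeasurable hm, ← h n]
      refine integral_congr_ae ?_
      filter_upwards [hid] with z hz
      rw [hz]
    | zero => simp
    | add g g' _ _ h1 h2 => rw [map_add, inner_add_left, h1, h2, add_zero]
    | smul a g _ h1 => rw [map_smul, inner_smul_left, h1, mul_zero]
  have h0 : ∀ᵐ t ∂ν, f (ψ t) = 0 := by
    have h1 := hF.coeFn_toLp
    rw [hz] at h1
    filter_upwards [h1, Lp.coeFn_zero ℂ 2 ν] with t h2 h3
    rw [h3] at h2
    exact h2.symm
  have h1 := hφm.quasiMeasurePreserving.ae h0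
  filter_upwards [h1, hid] with z h2 h3
  rwa [h3] at h2

variable {F : Type} [Field F] [NumberField F] [Om F]

theorem poisA_fin (L : AddSubgroup F) : IsFiniteMeasure (volume.restrict (FD L)) :=
  ⟨by rw [Measure.restrict_apply_univ, volume_FD]; exact ENNReal.ofReal_lt_top⟩

theorem poisA_unique {L : AddSubgroup F} (hL : IsLat L) {f : (Io F → ℂ) → ℂ}
    (hf : MemLp f 2 (volume.restrict (FD L)))
    (h : ∀ r ∈ dualL L, ∫ z in FD L, f z * conj (eA (emb r) z) = 0) :
    ∀ᵐ z ∂(volume.restrict (FD L)), f z = 0 := by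
  have := poisA_fin L
  obtain ⟨b, hb, hFD⟩ : ∃ b : Module.Basis (Fin (dg F)) ℚ F,
      (∀ x, x ∈ L ↔ x ∈ Submodule.span ℤ (Set.range b)) ∧ FD L = {z | ∃ a : Fin (dg F) → ℝ,
        (∀ i, a i ∈ Set.Ico (0 : ℝ) 1) ∧ z = ∑ i, a i • emb (b i)} :=
    ⟨hL.choose, hL.choose_spec, dif_pos hL⟩
  let X : Fin (dg F) → (Io F → ℂ) → ℝ := fun i z => ∑ v, 2 * (v.1 (b.traceDual i) * z v).re
  let φ : (Io F → ℂ) → UnitAddTorus (Fin (dg F)) := fun z i => (X i z : UnitAddCircle)
  let ψ : UnitAddTorus (Fin (dg F)) → (Io F → ℂ) := fun t =>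
    ∑ i, (AddCircle.measurableEquivIco (1 : ℝ) 0 (t i)).1 • emb (b i)
  have hX : ∀ i, Continuous (X i) := fun i => by fun_prop
  have hφ : Measurable φ :=
    measurable_pi_lambda _ fun i => AddCircle.measurable_mk'.comp (hX i).measurable
  have hψ : Measurable ψ := Finset.measurable_sum _ fun i _ =>
    (measurable_subtype_coe.comp ((AddCircle.measurableEquivIco (1 : ℝ) 0).measurable.comp
      (measurable_pi_apply i))).smul_const _
  refine poisA_torus hφ hψ ?_ hf fun n => ?_
  · filter_upwards [ae_restrict_mem (measurableSet_FD L)] with z hz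
    rw [hFD] at hz
    obtain ⟨a, ha, rfl⟩ := hz
    have e1 : ∀ i, X i (∑ j, a j • emb (b j)) = a i := by
      intro i
      have e2 : ∀ j, ∑ v : Io F, 2 * (v.1 (b.traceDual i) * v.1 (b j)).re =
          if j = i then 1 else 0 := by
        intro j
        have := trace_eq (b.traceDual i * b j)
        simp only [map_mul] at this
        rw [← this, b.trace_traceDual_mul]
        split_ifs <;> simp
      simp only [X, Finset.sum_apply, Pi.smul_apply, emb, Finset.mul_sum, re_sum, real_smul,
        mul_left_comm _ (a _ : ℂ), re_ofReal_mul, mul_left_comm _ (a _)]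
      rw [Finset.sum_comm]
      refine (Finset.sum_congr rfl fun j _ => (Finset.mul_sum _ _ _).symm.trans
        (congrArg (a j * ·) (e2 j))).trans ?_
      simp
    have e3 : ∀ u : ℝ, u ∈ Set.Ico (0 : ℝ) 1 →
        (AddCircle.measurableEquivIco (1 : ℝ) 0 (u : UnitAddCircle)).1 = u := fun u hu =>
      AddCircle.equivIco_coe_of_mem (p := (1 : ℝ)) (a := 0) (by simpa using hu)
    simp only [ψ, φ, e1, fun i => e3 _ (ha i)]
  · have hr : ∑ i, (n i : F) * b.traceDual i ∈ dualL L := by
      refine sum_mem fun i _ => ?_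
      rw [← zsmul_eq_mul]
      refine zsmul_mem (fun x hx => ?_) _
      rw [hb] at hx
      induction hx using Submodule.span_induction with
      | mem x hx =>
        obtain ⟨j, rfl⟩ := hx
        exact ⟨if j = i then 1 else 0, by rw [b.trace_traceDual_mul]; split_ifs <;> simp⟩
      | zero => exact ⟨0, by simp⟩
      | add x y _ _ h1 h2 =>
        obtain ⟨k, hk⟩ := h1
        obtain ⟨l, hl⟩ := h2
        exact ⟨k + l, by rw [mul_add, map_add, hk, hl, Int.cast_add]⟩
      | smul c x _ h1 =>
        obtain ⟨k, hk⟩ := h1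
        exact ⟨c * k, by rw [mul_smul_comm, map_zsmul, hk, zsmul_eq_mul, Int.cast_mul]⟩
    rw [← h _ hr]
    refine integral_congr_ae (Filter.Eventually.of_forall fun z => ?_)
    have : UnitAddTorus.mFourier n (φ z) = eA (emb (∑ i, (n i : F) * b.traceDual i)) z := by
      simp only [UnitAddTorus.mFourier, ContinuousMap.coe_mk, φ, fourier_coe_apply]
      rw [eA, ← Complex.exp_sum]
      refine congrArg cexp ?_
      have e4 : ∑ v : Io F, 2 * (emb (∑ i, (n i : F) * b.traceDual i) v * z v).re =
          ∑ i, (n i : ℝ) * X i z := by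
        simp only [X, emb, map_sum, map_mul, map_intCast, Finset.sum_mul, Finset.mul_sum, re_sum]
        rw [Finset.sum_comm]
        refine Finset.sum_congr rfl fun i _ => Finset.sum_congr rfl fun v _ => ?_
        rw [mul_assoc, ← ofReal_intCast, re_ofReal_mul]
        ring
      rw [e4, ofReal_sum, Finset.mul_sum]
      refine Finset.sum_congr rfl fun i _ => ?_
      push_cast
      ring
    simp only [this]

theorem poisA_cont (ξ : Io F → ℂ) : Continuous fun z => eA ξ z := by
  unfold eA
  fun_prop

theorem poisA_per {L : AddSubgroup F} {h y : F} (hh : h ∈ dualL L) (hy : y ∈ L) (x : Io F → ℂ) :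
    eA (emb h) (x + emb y) = eA (emb h) x := by
  rw [eA_add, ← eT_eq_eA, mem_dualL.1 hh y hy, mul_one]

theorem poisA_int {L : AddSubgroup F} {g : (Io F → ℂ) → ℂ} (hg : Continuous g) :
    MemLp g 2 (volume.restrict (FD L)) := by
  have := poisA_fin L
  obtain ⟨B, hB⟩ := (isBounded_FD L).isCompact_closure.exists_bound_of_continuousOn hg.continuousOn
  refine MemLp.of_bound hg.aestronglyMeasurable B ?_
  filter_upwards [ae_restrict_mem (measurableSet_FD L)] with z hz using hB z (subset_closure hz)

theorem poisA_main {L : AddSubgroup F} (hL : IsLat L) {f : (Io F → ℂ) → ℂ} (hc : Continuous f)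
    {C : ℝ} (hd : ∀ x, ‖f x‖ ≤ C * (1 + ‖x‖) ^ (-((dg F : ℝ) + 1)))
    (hs : Summable (fun h : dualL L => FT f (emb (h : F)))) (x : Io F → ℂ) :
    ∑' y : L, f (x + emb (y : F)) =
      (cov L : ℂ)⁻¹ * ∑' h : dualL L, FT f (emb (h : F)) * eA (emb (h : F)) x := by
  have := poisA_fin L
  have : Countable L := IsLat.countable
  have : Countable (dualL L) := IsLat.countable
  have hC : 0 ≤ C := by simpa using (norm_nonneg _).trans (hd 0)
  have hP : Continuous fun x => ∑' y : L, f (x + emb (y : F)) := by
    refine continuous_iff_continuousAt.2 fun x₀ => ?_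
    refine (continuousOn_tsum (s := Metric.ball 0 (‖x₀‖ + 1))
      (fun y => (hc.comp (continuous_add_const _)).continuousOn)
      ((summable_lat_rpow hL (s := dg F + 1) (by linarith)).mul_left
        (C * (1 + (‖x₀‖ + 1)) ^ ((dg F : ℝ) + 1))) fun y z hz => ?_).continuousAt
      (Metric.isOpen_ball.mem_nhds (by simp))
    refine (hd _).trans ?_
    rw [mul_assoc]
    refine mul_le_mul_of_nonneg_left ?_ hC
    rw [mem_ball_zero_iff] at hz
    have h1 : ‖emb (y : F)‖ ≤ ‖z + emb (y : F)‖ + ‖z‖ := by
      simpa using norm_sub_le (z + emb (y : F)) z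
    have h2 := norm_nonneg (z + emb (y : F))
    have h3 := norm_nonneg x₀
    rw [Real.rpow_neg (by positivity), Real.rpow_neg (by positivity), ← div_eq_mul_inv,
      le_div_iff₀ (by positivity), inv_mul_le_iff₀ (by positivity),
      ← Real.mul_rpow (by positivity) (by positivity)]
    exact Real.rpow_le_rpow (by positivity) (by nlinarith) (by positivity)
  have hQ : Continuous fun x => ∑' h : dualL L, FT f (emb (h : F)) * eA (emb (h : F)) x :=
    continuous_tsum (fun h => continuous_const.mul (poisA_cont _)) hs.norm fun h x => by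
      rw [norm_mul, norm_eA, mul_one]
  have hfi : Integrable f := by
    refine ((integrable_one_add_norm (μ := volume) (r := dg F + 1) ?_).const_mul C).mono'
      hc.aestronglyMeasurable (ae_of_all _ hd)
    rw [Module.finrank_pi_fintype]
    simp only [finrank_real_complex, Finset.sum_const, Finset.card_univ, smul_eq_mul]
    rw [← two_mul_rr, mul_comm, rr]
    linarith
  have hD := hP.sub (hQ.const_mul (cov L : ℂ)⁻¹)
  have h0 := poisA_unique hL (poisA_int hD) fun r hr => by
    have he : Continuous fun z => conj (eA (emb r) z) := continuous_conj.comp (poisA_cont _)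
    have hg : Integrable fun z => f z * conj (eA (emb r) z) :=
      hfi.mul_bdd (c := 1) he.aestronglyMeasurable (ae_of_all _ fun z => by simp [norm_eA])
    have a1 : ∫ z in FD L, (∑' y : L, f (z + emb (y : F))) * conj (eA (emb r) z) =
        FT f (emb r) := by
      rw [FT, ← (integral_FD hL hg).tsum_eq, ← integral_tsum]
      · simp only [fun (y : L) z => poisA_per hr y.2 z, tsum_mul_right]
      · exact fun y => ((hc.mul he).comp (continuous_add_const _)).aestronglyMeasurable
      · rw [← lintegral_FD hL (f := fun z => ‖f z * conj (eA (emb r) z)‖ₑ)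
          (hc.mul he).measurable.enorm]
        exact hg.2.ne
    have a2 : ∫ z in FD L, (∑' h : dualL L, FT f (emb (h : F)) * eA (emb (h : F)) z) *
        conj (eA (emb r) z) = FT f (emb r) * cov L := by
      have a3 : ∀ (h : dualL L) z, FT f (emb (h : F)) * eA (emb (h : F)) z * conj (eA (emb r) z) =
          FT f (emb (h : F)) * eA (emb ((h : F) - r)) z := fun h z => by
        rw [sub_eq_add_neg, emb_add, emb_neg, eA_add_left, eA_comm (-emb r), eA_neg,
          eA_comm z, mul_assoc]
      simp only [← tsum_mul_right, a3]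
      rw [← (hasSum_integral_of_summable_integral_norm
        (F := fun (h : dualL L) z => FT f (emb (h : F)) * eA (emb ((h : F) - r)) z)
        (fun h => (poisA_int ((poisA_cont _).const_mul _)).integrable one_le_two) ?_).tsum_eq,
        tsum_eq_single ⟨r, hr⟩ fun h hh => ?_]
      · rw [integral_const_mul, sub_self, integral_eA hL (zero_mem _), if_pos rfl]
      · rw [integral_const_mul, integral_eA hL (sub_mem h.2 hr),
          if_neg fun h1 => hh (Subtype.ext (sub_eq_zero.1 h1)), mul_zero]
      · simp only [norm_mul, norm_eA, mul_one, integral_const, smul_eq_mul]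
        exact hs.norm.mul_left _
    simp only [Pi.sub_apply, sub_mul, mul_assoc]
    rw [integral_sub ((poisA_int (hP.fun_mul he)).integrable one_le_two)
      ((poisA_int ((hQ.fun_mul he).const_mul _)).integrable one_le_two), integral_const_mul, a1, a2,
      mul_left_comm, inv_mul_cancel₀ (ofReal_ne_zero.2 (cov_pos hL).ne'), mul_one, sub_self]
  have hper : ∀ (y : L) z, ((fun x => ∑' y : L, f (x + emb (y : F))) - fun x => (cov L : ℂ)⁻¹ *
      ∑' h : dualL L, FT f (emb (h : F)) * eA (emb (h : F)) x) (z + emb (y : F)) =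
      ((fun x => ∑' y : L, f (x + emb (y : F))) - fun x => (cov L : ℂ)⁻¹ *
      ∑' h : dualL L, FT f (emb (h : F)) * eA (emb (h : F)) x) z := by
    intro y z
    simp only [Pi.sub_apply, fun h : dualL L => poisA_per h.2 y.2 z]
    rw [← (Equiv.addLeft y).tsum_eq fun y' : L => f (z + emb (y' : F))]
    simp only [Equiv.coe_addLeft, AddSubgroup.coe_add, emb_add, add_assoc]
  have h1 := lintegral_FD hL hD.measurable.enorm
  simp only [hper] at h1
  rw [lintegral_congr_ae (g := fun _ => 0) (h0.mono fun z hz => by simp only [hz, enorm_zero])] at h1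
  simp only [lintegral_zero, tsum_zero] at h1
  rw [lintegral_eq_zero_iff hD.measurable.enorm] at h1
  have h2 := (Continuous.ae_eq_iff_eq volume hD continuous_zero).1
    (h1.mono fun z hz => by simpa using hz)
  exact sub_eq_zero.1 (congrFun h2 x)

end Vale.Agent.P016
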