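import Vale.Agent.P016.Lat
import Vale.Agent.P016.PoisA

/-! Poisson summation and Fourier uniqueness for lattices. -/

namespace Vale.Agent.P016

open Complex NumberField MeasureTheory
open scoped Classical ComplexConjugate
open Vale.Agent.P026 (w kk fk)

variable {F : Type} [Field F] [NumberField F] [Om F]

theorem poisson {L : AddSubgroup F} (hL : IsLat L) {f : (Io F → ℂ) → ℂ} (hc : Continuous f)
    {C : ℝ} (hd : ∀ x, ‖f x‖ ≤ C * (1 + ‖x‖) ^ (-((dg F : ℝ) + 1)))
    (hs : Summable (fun h : dualL L => FT f (emb (h : F)))) (x : Io F → ℂ) :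
    ∑' y : L, f (x + emb (y : F)) =
      (cov L : ℂ)⁻¹ * ∑' h : dualL L, FT f (emb (h : F)) * eA (emb (h : F)) x :=
  poisA_main hL hc hd hs x

/-- Fourier uniqueness on the fundamental domain. -/
theorem fourier_unique {L : AddSubgroup F} (hL : IsLat L) {f : (Io F → ℂ) → ℂ}
    (hf : MemLp f 2 (volume.restrict (FD L)))
    (h : ∀ r ∈ dualL L, ∫ z in FD L, f z * conj (eA (emb r) z) = 0) :
    ∀ᵐ z ∂(volume.restrict (FD L)), f z = 0 :=
  poisA_unique hL hf h

theorem pois_form (a : ℝ) (ξ z : ℂ) : (Real.exp (-(a * normSq z)) : ℂ) *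
    conj (cexp (2 * Real.pi * I * ((2 * (ξ * z).re : ℝ) : ℂ))) =
      cexp (-(a : ℂ) * ‖z‖ ^ 2 + (-(4 * Real.pi * I)) * (inner ℝ (conj ξ) z : ℝ)) := by
  rw [← Complex.exp_conj, Complex.ofReal_exp, ← Complex.exp_add, Complex.inner,
    Complex.normSq_eq_norm_sq, conj_conj, mul_comm z]
  refine congrArg cexp ?_
  simp only [map_mul, conj_ofReal, conj_I, map_ofNat]
  push_cast
  ring

/-- The Gaussian integral at one place. -/
theorem gauss_int_one {a : ℝ} (ha : 0 < a) (ξ : ℂ) :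
    Integrable (fun x : ℂ => (Real.exp (-(a * normSq x)) : ℂ)) ∧
    ∫ x : ℂ, (Real.exp (-(a * normSq x)) : ℂ) *
        conj (cexp (2 * Real.pi * I * ((2 * (ξ * x).re : ℝ) : ℂ))) =
      ((Real.pi / a * Real.exp (-(4 * Real.pi ^ 2 * normSq ξ / a)) : ℝ) : ℂ) := by
  constructor
  · have := GaussianFourier.integrable_cexp_neg_mul_sq_norm_add (V := ℂ) (b := a)
      (by simpa using ha) 0 0
    refine this.congr (ae_of_all _ fun z => ?_)
    simp [Complex.normSq_eq_norm_sq]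
  · simp only [pois_form]
    rw [GaussianFourier.integral_cexp_neg_mul_sq_norm_add (by simpa using ha), RCLike.norm_conj,
      finrank_real_complex, ofReal_mul, Complex.ofReal_exp, Complex.normSq_eq_norm_sq,
      show ((2 : ℕ) : ℂ) / 2 = 1 by norm_num, cpow_one]
    have ha' : (a : ℂ) ≠ 0 := by exact_mod_cast ha.ne'
    refine congrArg₂ _ (by push_cast; ring) (congrArg _ ?_)
    push_cast
    field_simp
    rw [I_sq]
    ring

theorem FT_gauss {a : Io F → ℝ} (ha : ∀ v, 0 < a v) (ξ : Io F → ℂ) :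
    Integrable (fun x : Io F → ℂ => (Real.exp (-∑ v, a v * normSq (x v)) : ℂ)) ∧
    FT (fun x => (Real.exp (-∑ v, a v * normSq (x v)) : ℂ)) ξ =
      ((∏ v, Real.pi / a v * Real.exp (-(4 * Real.pi ^ 2 * normSq (ξ v) / a v)) : ℝ) : ℂ) := by
  have h1 : ∀ x : Io F → ℂ, (Real.exp (-∑ v, a v * normSq (x v)) : ℂ) =
      ∏ v, (Real.exp (-(a v * normSq (x v))) : ℂ) := fun x => by
    rw [← Finset.sum_neg_distrib, Real.exp_sum, ofReal_prod]
  simp only [h1]
  refine ⟨Integrable.fintype_prod (f := fun v (z : ℂ) => (Real.exp (-(a v * normSq z)) : ℂ))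
    fun v => (gauss_int_one (ha v) 0).1, ?_⟩
  simp only [FT, eA_eq_prod, map_prod, ← Finset.prod_mul_distrib]
  rw [integral_fintype_prod_volume_eq_prod fun v (z : ℂ) => (Real.exp (-(a v * normSq z)) : ℂ) *
    conj (cexp (2 * Real.pi * I * ((2 * (ξ v * z).re : ℝ) : ℂ))), ofReal_prod]
  exact Finset.prod_congr rfl fun v _ => (gauss_int_one (ha v) (ξ v)).2

theorem pois_min {a : Io F → ℝ} (ha : ∀ v, 0 < a v) : ∃ c : ℝ, 0 < c ∧ ∀ x : Io F → ℝ,
    (∀ v, 0 ≤ x v) → c * ∑ v, x v ≤ ∑ v, a v * x v := by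
  obtain ⟨v₀, h⟩ := Finite.exists_min a
  refine ⟨a v₀, ha v₀, fun x hx => ?_⟩
  rw [Finset.mul_sum]
  exact Finset.sum_le_sum fun v _ => mul_le_mul_of_nonneg_right (h v) (hx v)

theorem pois_summable {L : AddSubgroup F} (hL : IsLat L) {a : Io F → ℝ} (ha : ∀ v, 0 < a v) :
    Summable fun x : L => Real.exp (-∑ v, a v * sqv (x : F) v) := by
  obtain ⟨c, hc, h⟩ := pois_min ha
  refine Summable.of_nonneg_of_le (fun _ => (Real.exp_pos _).le) (fun x => ?_)
    (summable_lat_gauss hL hc 0)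
  rw [pow_zero, one_mul]
  exact Real.exp_le_exp.2 (neg_le_neg (h _ (sqv_nonneg _)))

theorem pois_decay {a : Io F → ℝ} (ha : ∀ v, 0 < a v) (s : ℝ) (hs : 0 ≤ s) : ∃ C : ℝ,
    ∀ x : Io F → ℂ, ‖(Real.exp (-∑ v, a v * normSq (x v)) : ℂ)‖ ≤ C * (1 + ‖x‖) ^ (-s) := by
  obtain ⟨c, hc, h⟩ := pois_min ha
  refine ⟨Real.exp (s ^ 2 / (4 * c)), fun x => ?_⟩
  have h0 := norm_nonneg x
  have h1 : ‖x‖ ^ 2 ≤ ∑ v, normSq (x v) := by
    have h2 : 0 ≤ ∑ v, normSq (x v) := Finset.sum_nonneg fun v _ => normSq_nonneg _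
    rw [← Real.le_sqrt h0 h2, pi_norm_le_iff_of_nonneg (Real.sqrt_nonneg _)]
    refine fun v => Real.le_sqrt_of_sq_le ?_
    rw [← normSq_eq_norm_sq]
    exact Finset.single_le_sum (f := fun v => normSq (x v)) (fun v _ => normSq_nonneg _)
      (Finset.mem_univ v)
  have h3 := h (fun v => normSq (x v)) fun v => normSq_nonneg _
  rw [norm_real, Real.norm_of_nonneg (Real.exp_pos _).le, Real.rpow_def_of_pos (by positivity),
    ← Real.exp_add, Real.exp_le_exp]
  have h4 : Real.log (1 + ‖x‖) ≤ ‖x‖ := by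
    linarith [Real.log_le_sub_one_of_pos (show 0 < 1 + ‖x‖ by positivity)]
  have h5 : s * ‖x‖ - c * ‖x‖ ^ 2 ≤ s ^ 2 / (4 * c) := by
    rw [le_div_iff₀ (by positivity)]
    nlinarith [sq_nonneg (s - 2 * c * ‖x‖)]
  nlinarith [mul_le_mul_of_nonneg_left h4 hs, mul_le_mul_of_nonneg_left h1 hc.le]

theorem pois_coset {L : AddSubgroup F} (hL : IsLat L) {a : Io F → ℝ} (ha : ∀ v, 0 < a v) (r : F) :
    ∑' y : L, (Real.exp (-(Real.pi * ∑ v, a v * sqv (r + y) v)) : ℂ) =
      ((cov L * ∏ v, a v : ℝ) : ℂ)⁻¹ * ∑' h : dualL L, eT ((h : F) * r) *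
        (Real.exp (-(4 * Real.pi * ∑ v, sqv (h : F) v / a v)) : ℂ) := by
  have hpi := Real.pi_pos
  have ha' : ∀ v, 0 < Real.pi * a v := fun v => mul_pos hpi (ha v)
  obtain ⟨C, hC⟩ := pois_decay ha' ((dg F : ℝ) + 1) (by positivity)
  have h1 : ∀ h : F, FT (fun x => (Real.exp (-∑ v, Real.pi * a v * normSq (x v)) : ℂ)) (emb h) =
      ((∏ v, a v : ℝ) : ℂ)⁻¹ * (Real.exp (-(4 * Real.pi * ∑ v, sqv h v / a v)) : ℂ) := by
    intro h
    rw [(FT_gauss ha' _).2, ← ofReal_inv, ← ofReal_mul, Finset.prod_mul_distrib, ← Real.exp_sum,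
      ← Finset.prod_inv_distrib, Finset.mul_sum, ← Finset.sum_neg_distrib]
    refine congrArg _ (congrArg₂ _ (Finset.prod_congr rfl fun v _ => ?_)
      (congrArg _ (Finset.sum_congr rfl fun v _ => ?_)))
    · have := (ha v).ne'
      field_simp
    · have := (ha v).ne'
      show -(4 * Real.pi ^ 2 * sqv h v / (Real.pi * a v)) = _
      field_simp
  have h2 := poisson hL (by fun_prop) hC ?_ (emb r)
  · simp only [h1, ← emb_add, ← eT_eq_eA, mul_assoc (_⁻¹), tsum_mul_left] at h2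
    rw [ofReal_mul, mul_inv, mul_assoc]
    simp only [mul_comm (eT _)]
    rw [← h2]
    simp only [Finset.mul_sum, ← mul_assoc]
    rfl
  · simp only [h1]
    refine (summable_ofReal.2 ((pois_summable hL.dual (a := fun v => 4 * Real.pi / a v)
      fun v => div_pos (by positivity) (ha v)).congr fun h => ?_)).mul_left _
    rw [Finset.mul_sum]
    exact congrArg _ (congrArg _ (Finset.sum_congr rfl fun v _ => by ring))

/-- Poisson summation for Gaussians against a periodic function. -/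
theorem poisson_per {L L' : AddSubgroup F} (hL : IsLat L) (hL' : IsLat L') (hle : L' ≤ L)
    {f : F → ℂ} (hs : ∀ x, f x ≠ 0 → x ∈ L) (hp : ∀ x y, x - y ∈ L' → f x = f y)
    {a : Io F → ℝ} (ha : ∀ v, 0 < a v) :
    ∑' x : L, f x * (Real.exp (-(Real.pi * ∑ v, a v * sqv (x : F) v)) : ℂ) =
      ((cov L' * ∏ v, a v : ℝ) : ℂ)⁻¹ * ∑' h : dualL L',
        qsum L' (fun x => f x * eT ((h : F) * x)) *
          (Real.exp (-(4 * Real.pi * ∑ v, sqv (h : F) v / a v)) : ℂ) := by
  obtain ⟨s, -, h1, h2, h3⟩ := exists_reps (hL.relIndex_ne hL')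
  have hpi := Real.pi_pos
  let e : s × L' ≃ L := Equiv.ofBijective
    (fun p => ⟨(p.1 : F) + p.2, add_mem (h1 _ p.1.2) (hle p.2.2)⟩) ⟨by
      rintro ⟨r, y⟩ ⟨r', y'⟩ h
      have h4 : (r : F) + y = r' + y' := congrArg Subtype.val h
      have h5 : r = r' := Subtype.ext (h2 _ r.2 _ r'.2 (by
        rw [show (r : F) - r' = y' - y by linear_combination h4]
        exact sub_mem y'.2 y.2))
      subst h5
      rw [Subtype.ext (add_left_cancel h4)], fun x => by
      obtain ⟨r, hr, h4⟩ := h3 x x.2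
      exact ⟨(⟨r, hr⟩, ⟨_, h4⟩), Subtype.ext (add_sub_cancel _ _)⟩⟩
  have hsum : Summable fun x : L =>
      f x * (Real.exp (-(Real.pi * ∑ v, a v * sqv (x : F) v)) : ℂ) := by
    refine Summable.of_norm_bounded ((pois_summable hL (a := fun v => Real.pi * a v)
      fun v => mul_pos hpi (ha v)).mul_left (∑ r ∈ s, ‖f r‖)) fun x => ?_
    obtain ⟨r, hr, h4⟩ := h3 x x.2
    rw [norm_mul, norm_real, Real.norm_of_nonneg (Real.exp_pos _).le, hp _ _ h4, Finset.mul_sum]
    simp only [mul_assoc]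
    exact mul_le_mul_of_nonneg_right (Finset.single_le_sum (f := fun r => ‖f r‖)
      (fun _ _ => norm_nonneg _) hr) (Real.exp_pos _).le
  have hq : ∀ h : dualL L', qsum L' (fun x => f x * eT ((h : F) * x)) =
      ∑ r : s, f r * eT ((h : F) * r) := fun h => by
    rw [Finset.sum_coe_sort s fun x => f x * eT ((h : F) * x)]
    refine qsum_eq_sum (fun x y hxy => ?_) s h2 fun x hx => h3 x (hs x (left_ne_zero_of_mul hx))
    rw [hp x y hxy, show (h : F) * x = h * y + h * (x - y) by ring, eT_add,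
      mem_dualL.1 h.2 _ hxy, mul_one]
  rw [← e.tsum_eq, Summable.tsum_prod (by exact e.summable_iff.2 hsum), tsum_fintype]
  simp only [hq, Finset.sum_mul]
  rw [Summable.tsum_finsetSum fun r _ => ?_, Finset.mul_sum]
  · refine Finset.sum_congr rfl fun r _ => ?_
    have h4 : ∀ y : L', f ((r : F) + y) = f r := fun y => hp _ _ (by simp)
    simp only [mul_assoc (f r), tsum_mul_left, mul_left_comm _ (f r), ← pois_coset hL' ha]
    rw [← tsum_mul_left]
    exact tsum_congr fun y => congrArg (· * _) (h4 y)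
  · refine Summable.of_norm_bounded ((pois_summable hL'.dual (a := fun v => 4 * Real.pi / a v)
      fun v => div_pos (by positivity) (ha v)).mul_left ‖f r‖) fun h => le_of_eq ?_
    rw [norm_mul, norm_mul, norm_eT, mul_one, norm_real, Real.norm_of_nonneg (Real.exp_pos _).le,
      Finset.mul_sum]
    exact congrArg _ (congrArg _ (congrArg _ (Finset.sum_congr rfl fun v _ => by ring)))

theorem pois_cov {L : AddSubgroup F} (hO : IsLat L) (hle : L ≤ dualL L) :
    (2 ^ rr F : ℝ)⁻¹ ≤ cov L := by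
  have hpi := Real.pi_pos
  have h := pois_coset hO (a := fun _ => 2) (fun _ => two_pos) 0
  simp only [zero_add, mul_zero, eT_zero, one_mul, Finset.prod_const, Finset.card_univ] at h
  rw [← ofReal_tsum, ← ofReal_tsum, ← ofReal_inv, ← ofReal_mul, ofReal_inj] at h
  have e1 : ∀ x : F, -(Real.pi * ∑ v, 2 * sqv x v) = -∑ v, 2 * Real.pi * sqv x v := fun x => by
    rw [Finset.mul_sum]
    exact congrArg _ (Finset.sum_congr rfl fun v _ => by ring)
  have e2 : ∀ x : F, -(4 * Real.pi * ∑ v, sqv x v / 2) = -∑ v, 2 * Real.pi * sqv x v := fun x => by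
    rw [Finset.mul_sum]
    exact congrArg _ (Finset.sum_congr rfl fun v _ => by ring)
  simp only [e1, e2] at h
  have s1 := pois_summable hO (a := fun _ => 2 * Real.pi) fun _ => by positivity
  have s2 := pois_summable hO.dual (a := fun _ => 2 * Real.pi) fun _ => by positivity
  have h1 : ∑' x : L, Real.exp (-∑ v, 2 * Real.pi * sqv (x : F) v) ≤
      ∑' x : dualL L, Real.exp (-∑ v, 2 * Real.pi * sqv (x : F) v) :=
    s1.tsum_le_tsum_of_inj (AddSubgroup.inclusion hle) (AddSubgroup.inclusion_injective hle)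
      (fun _ _ => (Real.exp_pos _).le) (fun _ => le_rfl) s2
  have h2 : 0 < ∑' x : L, Real.exp (-∑ v, 2 * Real.pi * sqv (x : F) v) :=
    s1.tsum_pos (fun _ => (Real.exp_pos _).le) 0 (Real.exp_pos _)
  have h3 := cov_pos hO
  generalize ∑' x : L, Real.exp (-∑ v, 2 * Real.pi * sqv (x : F) v) = A at h h1 h2
  generalize ∑' x : dualL L, Real.exp (-∑ v, 2 * Real.pi * sqv (x : F) v) = B at h h1
  rw [eq_inv_mul_iff_mul_eq₀ (by positivity)] at h
  rw [← h] at h1
  rw [inv_le_iff_one_le_mul₀' (by positivity), mul_comm]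
  exact (le_mul_iff_one_le_left h2).1 h1

theorem cov_latO_ge : (2 ^ rr F : ℝ)⁻¹ ≤ cov (latO F) := by
  refine pois_cov isLat_latO fun x hx y hy => ?_
  obtain ⟨k, hk⟩ := IsIntegrallyClosed.isIntegral_iff.1
    (Algebra.isIntegral_trace (L := ℚ) ((mem_latO.1 hx).mul (mem_latO.1 hy)))
  exact ⟨k, hk.symm⟩

end Vale.Agent.P016
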