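import Vale.Agent.P016.SplA
import Vale.Agent.P016.LogD

/-! Factorisation of the zeta function of the extension, and removal of Euler factors. -/

namespace Vale.Agent.P016

open Complex NumberField IsDedekindDomain MeasureTheory Filter
open scoped Classical ComplexConjugate nonZeroDivisors
open Vale.Agent.P026 (w)

/-- Two solutions of the same linear equation on a half plane are proportional. -/
theorem ode_const {u v L : ℂ → ℂ} {σ : ℝ} (hu : ∀ s : ℂ, σ < s.re → HasDerivAt u (-(u s * L s)) s)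
    (hv : ∀ s : ℂ, σ < s.re → HasDerivAt v (-(v s * L s)) s) (hu0 : ∀ s : ℂ, σ < s.re → u s ≠ 0)
    (hv0 : ∀ s : ℂ, σ < s.re → v s ≠ 0) :
    ∃ c : ℂ, c ≠ 0 ∧ ∀ s : ℂ, σ < s.re → u s = c * v s := by
  have hconv : Convex ℝ {s : ℂ | σ < s.re} := convex_halfSpace_re_gt σ
  have hopen : IsOpen {s : ℂ | σ < s.re} := isOpen_lt continuous_const continuous_re
  have hd : ∀ s : ℂ, σ < s.re → HasDerivAt (fun s => u s / v s) 0 s := fun s hs => by
    have h := (hu s hs).fun_div (hv s hs) (hv0 s hs)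
    have e : (-(u s * L s) * v s - u s * -(v s * L s)) / v s ^ 2 = 0 := by
      rw [div_eq_zero_iff]; left; ring
    rwa [e] at h
  have h0 : σ < (((σ + 1 : ℝ) : ℂ)).re := by simp
  refine ⟨u ((σ + 1 : ℝ) : ℂ) / v ((σ + 1 : ℝ) : ℂ), div_ne_zero (hu0 _ h0) (hv0 _ h0),
    fun s hs => ?_⟩
  have h := hopen.is_const_of_deriv_eq_zero (𝕜 := ℂ) (f := fun s => u s / v s)
    hconv.isPreconnected (fun s hs => (hd s hs).differentiableAt.differentiableWithinAt)
    (fun s hs => (hd s hs).deriv) (x := s) hs h0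
  rw [← h, div_mul_cancel₀ _ (hv0 s hs)]

theorem spl_norm_lt {N : ℝ} (hN : 2 ≤ N) {a s : ℂ} (ha : ‖a‖ ≤ 1) (hs : 0 < s.re) :
    ‖a * (N : ℂ) ^ (-s)‖ < 1 := by
  rw [norm_mul, norm_cpow_eq_rpow_re_of_pos (by linarith), neg_re]
  have h : N ^ (-s.re) < 1 := Real.rpow_lt_one_of_one_lt_of_neg (by linarith) (by linarith)
  have h0 : 0 ≤ N ^ (-s.re) := Real.rpow_nonneg (by linarith) _
  nlinarith [norm_nonneg a]

theorem spl_one_sub_ne {z : ℂ} (h : ‖z‖ < 1) : 1 - z ≠ 0 := fun e => by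
  rw [sub_eq_zero] at e; rw [← e] at h; simp at h

theorem spl_factor_deriv {N : ℝ} (hN : 2 ≤ N) {a s : ℂ} (ha : ‖a‖ ≤ 1) (hs : 0 < s.re) :
    HasDerivAt (fun s : ℂ => 1 - a * (N : ℂ) ^ (-s))
      ((1 - a * (N : ℂ) ^ (-s)) * ell N (a * (N : ℂ) ^ (-s))) s := by
  have hN0 : (N : ℂ) ≠ 0 := ofReal_ne_zero.2 (by linarith)
  have h1 : HasDerivAt (fun s : ℂ => (N : ℂ) ^ (-s)) ((N : ℂ) ^ (-s) * log (N : ℂ) * (-1)) s :=
    (hasDerivAt_neg' s).const_cpow (Or.inl hN0)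
  have h2 := (h1.const_mul a).const_sub 1
  have e : -(a * ((N : ℂ) ^ (-s) * log (N : ℂ) * (-1))) =
      (1 - a * (N : ℂ) ^ (-s)) * ell N (a * (N : ℂ) ^ (-s)) := by
    have := spl_one_sub_ne (spl_norm_lt hN ha hs)
    rw [ell, ofReal_log (by linarith : (0 : ℝ) ≤ N)]
    field_simp
  rwa [e] at h2

theorem spl_prod_deriv {ι : Type} (T : Finset ι) {N : ι → ℝ} (hN : ∀ i, 2 ≤ N i) {a : ι → ℂ}
    (ha : ∀ i, ‖a i‖ ≤ 1) {s : ℂ} (hs : 0 < s.re) :
    HasDerivAt (fun s : ℂ => ∏ i ∈ T, (1 - a i * (N i : ℂ) ^ (-s)))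
      ((∏ i ∈ T, (1 - a i * (N i : ℂ) ^ (-s))) * ∑ i ∈ T, ell (N i) (a i * (N i : ℂ) ^ (-s))) s := by
  induction T using Finset.induction_on with
  | empty => simpa using hasDerivAt_const s (1 : ℂ)
  | insert i T hi ih =>
    simp only [Finset.prod_insert hi, Finset.sum_insert hi]
    have h := (spl_factor_deriv (hN i) (ha i) hs).fun_mul ih
    refine h.congr_deriv ?_
    ring

theorem spl_ell_zero (N : ℝ) : ell N 0 = 0 := by simp [ell]

theorem euler {F : Type} [Field F] [NumberField F] {f : Ideal (𝓞 F) → ℂ} (hf : CM f) {M : ℕ}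
    (hM : M ≠ 0) : ∃ E : ℂ → ℂ, Differentiable ℂ E ∧
      ∀ s : ℂ, (dg F : ℝ) + 3 < s.re → zf (fun I => cpM M I * f I) s = E s * zf f s := by
  set T : Finset (PP F) := (finite_bad (F := F) hM).toFinset with hT
  have hmem : ∀ P : PP F, P ∈ T ↔ (M : 𝓞 F) ∈ P.asIdeal := fun P => by
    rw [hT, Set.Finite.mem_toFinset]; rfl
  have hg : CM fun I => cpM M I * f I := (cm_cpM M).mul' hf
  have hpos : ∀ s : ℂ, (dg F : ℝ) + 3 < s.re → 0 < s.re := fun s hs => by
    have : (0 : ℝ) ≤ dg F := Nat.cast_nonneg _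
    linarith
  set E0 : ℂ → ℂ := fun s => ∏ P ∈ T, (1 - f P.asIdeal * (nm P.asIdeal : ℂ) ^ (-s)) with hE0
  have hlf : ∀ s : ℂ, (dg F : ℝ) + 3 < s.re → lf (fun I => cpM M I * f I) s =
      lf f s - ∑ P ∈ T, ell (nm P.asIdeal) (f P.asIdeal * (nm P.asIdeal : ℂ) ^ (-s)) := by
    intro s hs
    have h1 := hasSum_lf hg hs.le
    have h2 := hasSum_lf hf hs.le
    have h3 : HasSum (fun P : PP F => if P ∈ T then
        ell (nm P.asIdeal) (f P.asIdeal * (nm P.asIdeal : ℂ) ^ (-s)) else 0)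
        (∑ P ∈ T, ell (nm P.asIdeal) (f P.asIdeal * (nm P.asIdeal : ℂ) ^ (-s))) := by
      have h := hasSum_sum_of_ne_finset_zero (L := .unconditional _) (s := T)
        (f := fun P : PP F => if P ∈ T then
          ell (nm P.asIdeal) (f P.asIdeal * (nm P.asIdeal : ℂ) ^ (-s)) else 0)
        (fun P hP => if_neg hP)
      rwa [Finset.sum_congr rfl fun P hP => if_pos hP] at h
    refine h1.unique ((h2.sub h3).congr_fun fun P => ?_)
    rw [cpM_prime]
    by_cases hP : (M : 𝓞 F) ∈ P.asIdeal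
    · rw [if_pos hP, if_pos ((hmem P).2 hP), zero_mul, zero_mul, spl_ell_zero, sub_self]
    · rw [if_neg hP, if_neg (fun h => hP ((hmem P).1 h)), one_mul, sub_zero]
  obtain ⟨c, -, hc⟩ := ode_const (u := zf fun I => cpM M I * f I) (v := fun s => E0 s * zf f s)
    (L := lf fun I => cpM M I * f I) (σ := (dg F : ℝ) + 3) (fun s hs => hasDerivAt_zf hg hs)
    (fun s hs => by
      have h := (spl_prod_deriv T (fun P : PP F => two_le_nm P) (fun P => hf.le P.asIdeal)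
        (hpos s hs)).fun_mul (hasDerivAt_zf hf hs)
      refine h.congr_deriv ?_
      rw [hlf s hs]
      simp only [hE0]
      ring)
    (fun s hs => zf_ne_zero hg hs.le)
    (fun s hs => mul_ne_zero (Finset.prod_ne_zero_iff.2 fun P _ =>
      spl_one_sub_ne (spl_norm_lt (two_le_nm P) (hf.le _) (hpos s hs))) (zf_ne_zero hf hs.le))
  refine ⟨fun s => c * E0 s, Differentiable.const_mul ?_ c, fun s hs => by rw [hc s hs, mul_assoc]⟩
  refine Differentiable.fun_finsetProd fun P _ => ?_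
  have hN0 : (nm P.asIdeal : ℂ) ≠ 0 := ofReal_ne_zero.2 (by linarith [two_le_nm P])
  exact (((differentiable_id.neg).const_cpow (Or.inl hN0)).const_mul _).const_sub 1

variable {K L : Type} [Field K] [NumberField K] [Field L] [NumberField L] [Algebra K L]

theorem spl_dg_le (h2 : Module.finrank K L = 2) : dg K ≤ dg L := by
  have := Module.finrank_mul_finrank ℚ K L
  rw [h2] at this
  unfold dg
  omega

theorem spl_ch3_one : ch3 1 = 1 := map_one _

theorem spl_ch3_two : ch3 2 = -1 := by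
  have h : quadraticChar (ZMod 3) 2 = -1 := by
    rw [quadraticChar_neg_one_iff_not_isSquare]
    decide
  simp [ch3, h]

theorem spl_ell_sq {N : ℝ} (hN : 2 ≤ N) {s : ℂ} (hs : 0 < s.re) :
    ell (N ^ 2) (1 * ((N ^ 2 : ℝ) : ℂ) ^ (-s)) =
      ell N (1 * (N : ℂ) ^ (-s)) + ell N (1 * -1 * (N : ℂ) ^ (-s)) := by
  have h1 := spl_one_sub_ne (spl_norm_lt hN (a := 1) (by simp) hs)
  have h2 := spl_one_sub_ne (spl_norm_lt hN (a := -1) (by simp) hs)
  have e : ((N ^ 2 : ℝ) : ℂ) ^ (-s) = (N : ℂ) ^ (-s) * (N : ℂ) ^ (-s) := by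
    rw [sq, ofReal_mul, mul_cpow_ofReal_nonneg (by linarith) (by linarith)]
  rw [e]
  generalize (N : ℂ) ^ (-s) = z at h1 h2 ⊢
  have h3 : 1 - z * z ≠ 0 := by
    have : 1 - z * z = (1 - 1 * z) * (1 - -1 * z) := by ring
    rw [this]; exact mul_ne_zero h1 h2
  simp only [ell, Real.log_pow, one_mul] at h1 ⊢
  push_cast
  rw [← mul_add, div_add_div _ _ h1 h2]
  have e2 : (1 - z) * (1 - -1 * z) = 1 - z * z := by ring
  rw [e2]
  ring

theorem split_lf (h2 : Module.finrank K L = 2) {ω : L} (hω : ω ^ 2 + ω + 1 = 0)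
    (hK : ω ∉ Set.range (algebraMap K L)) {M : ℕ} (h3 : 3 ∣ M) {s : ℂ}
    (hs : (dg L : ℝ) + 3 ≤ s.re) :
    lf (F := L) (cpM M) s = lf (F := K) (cpM M) s + lf (F := K) (fun I => cpM M I * tw ch3 I) s := by
  have hsK : (dg K : ℝ) + 3 ≤ s.re := by
    have : (dg K : ℝ) ≤ dg L := by exact_mod_cast spl_dg_le h2
    linarith
  have hs0 : 0 < s.re := by
    have : (0 : ℝ) ≤ dg K := Nat.cast_nonneg _
    linarith
  have h1 := (hasSum_lf (cm_cpM (F := L) M) hs).tsum_fiberwise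
    (fun Q : PP L => HeightOneSpectrum.under (𝓞 K) Q)
  have h4 := (hasSum_lf (cm_cpM (F := K) M) hsK).add
    (hasSum_lf ((cm_cpM (F := K) M).mul' (cm_tw ch3)) hsK)
  refine h1.unique (h4.congr_fun fun P => ?_)
  have hS : ∀ Q : PP L, Q ∈ (fun Q : PP L => HeightOneSpectrum.under (𝓞 K) Q) ⁻¹' {P} ↔
      Q.asIdeal.LiesOver P.asIdeal := fun Q => by
    rw [Set.mem_preimage, Set.mem_singleton_iff, HeightOneSpectrum.ext_iff,
      HeightOneSpectrum.under_asIdeal, Ideal.liesOver_iff, eq_comm]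
  have hM : ∀ Q : PP L, Q.asIdeal.LiesOver P.asIdeal →
      cpM M Q.asIdeal = cpM M P.asIdeal := fun Q hQ => by
    have : (M : 𝓞 L) ∈ Q.asIdeal ↔ (M : 𝓞 K) ∈ P.asIdeal := by
      rw [Ideal.mem_of_liesOver Q.asIdeal P.asIdeal, map_natCast]
    rw [cpM_prime, cpM_prime, if_congr this rfl rfl]
  by_cases hP : (M : 𝓞 K) ∈ P.asIdeal
  · have h0 : cpM M P.asIdeal = 0 := by rw [cpM_prime, if_pos hP]
    rw [h0, zero_mul, zero_mul, zero_mul, spl_ell_zero, add_zero]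
    refine (tsum_congr fun Q => ?_).trans tsum_zero
    rw [hM Q.1 ((hS Q.1).1 Q.2), h0, zero_mul, spl_ell_zero]
  · have h0 : cpM M P.asIdeal = 1 := by rw [cpM_prime, if_neg hP]
    have h3' : (3 : 𝓞 K) ∉ P.asIdeal := fun h => by
      obtain ⟨k, rfl⟩ := h3
      refine hP ?_
      push_cast
      exact Ideal.mul_mem_right _ _ h
    have htw : tw ch3 P.asIdeal = ch3 ((Ideal.absNorm P.asIdeal % 3 : ℕ) : ZMod 3) := by
      rw [tw, if_neg P.ne_bot, ZMod.natCast_mod]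
    rw [tsum_subtype _ (fun Q : PP L =>
      ell (nm Q.asIdeal) (cpM M Q.asIdeal * (nm Q.asIdeal : ℂ) ^ (-s))), h0, htw]
    rcases fiber h2 hω hK P h3' with ⟨hr, Q1, Q2, hne, hQ, e1, e2⟩ | ⟨hr, Q1, hQ, e1⟩
    · rw [tsum_eq_sum (s := {Q1, Q2}) fun Q hQ' => Set.indicator_of_notMem (fun h => hQ' (by
          simpa using (hQ Q).1 ((hS Q).1 h))) _, Finset.sum_pair hne,
        Set.indicator_of_mem ((hS Q1).2 ((hQ Q1).2 (Or.inl rfl))),
        Set.indicator_of_mem ((hS Q2).2 ((hQ Q2).2 (Or.inr rfl))),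
        hM Q1 ((hQ Q1).2 (Or.inl rfl)), hM Q2 ((hQ Q2).2 (Or.inr rfl)), h0, hr, Nat.cast_one,
        spl_ch3_one, mul_one]
      simp only [nm, e1, e2]
    · rw [tsum_eq_single Q1 fun Q hQ' => Set.indicator_of_notMem (fun h => hQ'
          ((hQ Q).1 ((hS Q).1 h))) _, Set.indicator_of_mem ((hS Q1).2 ((hQ Q1).2 rfl)),
        hM Q1 ((hQ Q1).2 rfl), h0, hr, Nat.cast_ofNat, spl_ch3_two]
      have e : nm Q1.asIdeal = nm P.asIdeal ^ 2 := by simp only [nm, e1, Nat.cast_pow]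
      rw [e]
      exact spl_ell_sq (two_le_nm P) hs0

theorem split_zf (h2 : Module.finrank K L = 2) {ω : L} (hω : ω ^ 2 + ω + 1 = 0)
    (hK : ω ∉ Set.range (algebraMap K L)) {M : ℕ} (h3 : 3 ∣ M) : ∃ c : ℂ, ∀ s : ℂ,
    (dg L : ℝ) + 3 < s.re → zf (F := L) (cpM M) s =
      c * (zf (F := K) (cpM M) s * zf (F := K) (fun I => cpM M I * tw ch3 I) s) := by
  have hsK : ∀ s : ℂ, (dg L : ℝ) + 3 < s.re → (dg K : ℝ) + 3 < s.re := fun s hs => by
    have : (dg K : ℝ) ≤ dg L := by exact_mod_cast spl_dg_le h2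
    linarith
  have hg : CM (F := K) fun I => cpM M I * tw ch3 I := (cm_cpM M).mul' (cm_tw ch3)
  obtain ⟨c, -, hc⟩ := ode_const (u := zf (F := L) (cpM M))
    (v := fun s => zf (F := K) (cpM M) s * zf (F := K) (fun I => cpM M I * tw ch3 I) s)
    (L := lf (F := L) (cpM M)) (σ := (dg L : ℝ) + 3) (fun s hs => hasDerivAt_zf (cm_cpM M) hs)
    (fun s hs => by
      have h := (hasDerivAt_zf (cm_cpM (F := K) M) (hsK s hs)).fun_mul (hasDerivAt_zf hg (hsK s hs))
      refine h.congr_deriv ?_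
      rw [split_lf h2 hω hK h3 hs.le]
      ring)
    (fun s hs => zf_ne_zero (cm_cpM M) hs.le)
    (fun s hs => mul_ne_zero (zf_ne_zero (cm_cpM M) (hsK s hs).le) (zf_ne_zero hg (hsK s hs).le))
  exact ⟨c, hc⟩

end Vale.Agent.P016
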