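import Vale.Agent.P016.Cnt

/-! Decomposition of primes in the extension by a cube root of unity. -/

namespace Vale.Agent.P016

open Complex NumberField IsDedekindDomain MeasureTheory Filter
open scoped Classical ComplexConjugate nonZeroDivisors
open Vale.Agent.P026 (w)

variable {K L : Type} [Field K] [NumberField K] [Field L] [NumberField L] [Algebra K L]

omit [NumberField K] in
theorem spla_card (k : Type*) [Field k] [Finite k] (h3 : (3 : k) ≠ 0) :
    Nat.card k % 3 ≠ 0 ∧ ((∃ w : k, w ^ 2 + w + 1 = 0) ↔ Nat.card k % 3 = 1) := by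
  have := Fintype.ofFinite k
  have := Fact.mk Nat.prime_three
  have h1 := Fintype.one_lt_card (α := k)
  rw [Nat.card_eq_fintype_card]
  refine ⟨fun h => h3 ?_, fun ⟨w, hw⟩ => ?_, fun h => ?_⟩
  · obtain ⟨x, hx⟩ := exists_prime_addOrderOf_dvd_card (G := k) 3 (Nat.dvd_of_mod_eq_zero h)
    have h2 := addOrderOf_nsmul_eq_zero x
    rw [hx, nsmul_eq_mul, mul_eq_zero] at h2
    refine h2.elim (by simp) fun e => ?_
    simp [e] at hx
  · have h2 : orderOf w = 3 := orderOf_eq_prime (by linear_combination (w - 1) * hw) fun e =>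
      h3 (by rw [e] at hw; linear_combination hw)
    have h4 := orderOf_dvd_of_pow_eq_one (FiniteField.pow_card_sub_one_eq_one w fun e => by
      simp [e] at hw)
    rw [h2] at h4
    omega
  · obtain ⟨x, hx⟩ := exists_prime_orderOf_dvd_card (G := kˣ) 3 (by
      rw [Fintype.card_units]
      omega)
    have h2 : (x : k) ^ 3 = 1 := by rw [← hx, ← Units.val_pow_eq_pow_val, pow_orderOf_eq_one]; rfl
    refine ⟨x, (mul_eq_zero.1 (show ((x : k) - 1) * _ = 0 by linear_combination h2)).resolve_left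
      fun e => ?_⟩
    rw [Units.val_eq_one.1 (sub_eq_zero.1 e)] at hx
    simp at hx

theorem spla_norm (P : PP K) (h3 : (3 : 𝓞 K) ∉ P.asIdeal) : Ideal.absNorm P.asIdeal % 3 ≠ 0 ∧
    ((∃ z, z ^ 2 + z + 1 ∈ P.asIdeal) ↔ Ideal.absNorm P.asIdeal % 3 = 1) := by
  have := P.isMaximal
  let _ := Ideal.Quotient.field P.asIdeal
  have := Ideal.finiteQuotientOfFreeOfNeBot P.asIdeal P.ne_bot
  have h := spla_card (𝓞 K ⧸ P.asIdeal) fun e => h3 (Ideal.Quotient.eq_zero_iff_mem.1 e)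
  rw [Ideal.Quotient.mk_surjective.exists] at h
  simp only [← Ideal.Quotient.eq_zero_iff_mem, map_add, map_pow, map_one]
  exact h

open Polynomial in
theorem fiber (h2 : Module.finrank K L = 2) {ω : L} (hω : ω ^ 2 + ω + 1 = 0)
    (hK : ω ∉ Set.range (algebraMap K L)) (P : PP K) (h3 : (3 : 𝓞 K) ∉ P.asIdeal) :
    (Ideal.absNorm P.asIdeal % 3 = 1 ∧ ∃ Q1 Q2 : PP L, Q1 ≠ Q2 ∧
        (∀ Q : PP L, Q.asIdeal.LiesOver P.asIdeal ↔ Q = Q1 ∨ Q = Q2) ∧
        Ideal.absNorm Q1.asIdeal = Ideal.absNorm P.asIdeal ∧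
        Ideal.absNorm Q2.asIdeal = Ideal.absNorm P.asIdeal) ∨
      (Ideal.absNorm P.asIdeal % 3 = 2 ∧ ∃ Q1 : PP L,
        (∀ Q : PP L, Q.asIdeal.LiesOver P.asIdeal ↔ Q = Q1) ∧
        Ideal.absNorm Q1.asIdeal = Ideal.absNorm P.asIdeal ^ 2) := by
  have hP := P.isMaximal
  have h0 := P.ne_bot
  have hsum := (Ideal.sum_ramification_inertia (𝓞 L) K L h0).trans h2
  set S := IsDedekindDomain.primesOverFinset P.asIdeal (𝓞 L)
  have hm : ∀ I, I ∈ S ↔ I ∈ P.asIdeal.primesOver (𝓞 L) := fun I =>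
    IsDedekindDomain.mem_primesOverFinset_iff h0 _
  have hS : ∀ Q : PP L, Q.asIdeal ∈ S ↔ Q.asIdeal.LiesOver P.asIdeal := fun Q =>
    (hm _).trans ⟨fun h => h.2, fun h => ⟨Q.isPrime, h⟩⟩
  have hS' : ∀ I ∈ S, ∃ Q : PP L, Q.asIdeal = I := fun I hI =>
    have h := (hm _).1 hI
    have := h.2
    ⟨⟨I, h.1, Ideal.ne_bot_of_liesOver_of_ne_bot h0 I⟩, rfl⟩
  have hef : ∀ I ∈ S, 1 ≤ P.asIdeal.inertiaDeg' I ∧ P.asIdeal.inertiaDeg' I ≤
      P.asIdeal.ramificationIdx' I * P.asIdeal.inertiaDeg' I ∧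
      Ideal.absNorm I = Ideal.absNorm P.asIdeal ^ P.asIdeal.inertiaDeg' I := fun I hI =>
    have h := (hm _).1 hI
    have := h.1
    have := h.2
    ⟨Ideal.inertiaDeg'_pos _ _, Nat.le_mul_of_pos_left _ (Nat.pos_of_ne_zero
      (Ideal.IsDedekindDomain.ramificationIdx'_ne_zero_of_liesOver _ h0)),
      Ideal.absNorm_eq_pow_inertiaDeg'_of_liesOver _ _ P.isPrime h0⟩
  have h3' : ∀ Q : PP L, Q.asIdeal.LiesOver P.asIdeal → (3 : 𝓞 L) ∉ Q.asIdeal := fun Q hQ h =>
    h3 ((Ideal.mem_of_liesOver Q.asIdeal P.asIdeal 3).2 (by rwa [map_ofNat]))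
  let u : 𝓞 L := ⟨ω, ⟨X ^ 2 + X + 1, by monicity!, by simpa using hω⟩⟩
  have hu : u ^ 2 + u + 1 = 0 := Subtype.ext hω
  obtain ⟨I, hI⟩ : S.Nonempty := Finset.nonempty_of_sum_ne_zero (hsum ▸ two_ne_zero)
  obtain ⟨Q1, rfl⟩ := hS' I hI
  obtain ⟨a1, a2⟩ := spla_norm P h3
  rcases (by omega : Ideal.absNorm P.asIdeal % 3 = 1 ∨ Ideal.absNorm P.asIdeal % 3 = 2) with h | h
  · obtain ⟨z, hz⟩ := a2.2 h
    have : Algebra.IsQuadraticExtension K L := ⟨h2⟩
    obtain ⟨σ, hσ⟩ := not_forall.1 (mt (IsGalois.mem_range_algebraMap_iff_fixed ω).2 hK)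
    let τ := RingOfIntegers.mapAlgEquiv σ
    have h4 : τ u = -1 - u := Subtype.ext (show σ ω = -1 - ω from by
      have e := congrArg σ hω
      rw [map_add, map_add, map_pow, map_one, map_zero] at e
      refine (mul_eq_zero.1 (show (σ ω - ω) * (σ ω - (-1 - ω)) = 0 by
        linear_combination e - hω)).elim (fun h => absurd (sub_eq_zero.1 h) hσ) sub_eq_zero.1)
    have := (hS Q1).1 hI
    have := Q1.isPrime
    obtain ⟨Q2, hQ2⟩ := hS' (Q1.asIdeal.comap τ) ((hm _).2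
      ⟨inferInstance, inferInstance⟩)
    have hI2 : Q2.asIdeal ∈ S := hQ2 ▸ (hm _).2
      ⟨inferInstance, inferInstance⟩
    have hne : Q1.asIdeal ≠ Q2.asIdeal := fun e => by
      have h5 : ∀ y ∈ Q1.asIdeal, τ y ∈ Q1.asIdeal := fun y hy => (e.trans hQ2).le hy
      have h6 := (Ideal.mem_of_liesOver Q1.asIdeal P.asIdeal _).1 hz
      simp only [map_add, map_pow, map_one] at h6
      set y := algebraMap (𝓞 K) (𝓞 L) z
      have h7 : τ y = y := τ.commutes z
      have h8 : u - y ∈ Q1.asIdeal ∧ -1 - u - y ∈ Q1.asIdeal := by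
        rcases Q1.isPrime.mem_or_mem (x := u - y) (y := -1 - u - y)
          (by convert h6 using 1; linear_combination -hu) with h8 | h8
        · exact ⟨h8, by simpa [h4, h7] using h5 _ h8⟩
        · exact ⟨by simpa [h4, h7] using h5 _ h8, h8⟩
      refine h3' Q1 inferInstance ?_
      convert neg_mem (Ideal.pow_mem_of_mem _ (sub_mem h8.1 h8.2) 2 two_pos) using 1
      linear_combination 4 * hu
    have h5 : S.card ≤ 2 := by
      rw [← hsum, Finset.card_eq_sum_ones]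
      exact Finset.sum_le_sum fun I hI => (hef I hI).1.trans (hef I hI).2.1
    have h6 : {Q1.asIdeal, Q2.asIdeal} = S := Finset.eq_of_subset_of_card_le
      (Finset.insert_subset hI (Finset.singleton_subset_iff.2 hI2)) (by rwa [Finset.card_pair hne])
    rw [← h6, Finset.sum_pair hne] at hsum
    obtain ⟨b1, b2, b3⟩ := hef _ hI
    obtain ⟨c1, c2, c3⟩ := hef _ hI2
    refine .inl ⟨h, Q1, Q2, fun e => hne (e ▸ rfl), fun Q => ?_, ?_, ?_⟩
    · rw [← hS, ← h6]
      simp [HeightOneSpectrum.ext_iff]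
    · rw [b3, show P.asIdeal.inertiaDeg' Q1.asIdeal = 1 by omega, pow_one]
    · rw [c3, show P.asIdeal.inertiaDeg' Q2.asIdeal = 1 by omega, pow_one]
  · have h4 : ∀ I ∈ S, 2 ≤ P.asIdeal.inertiaDeg' I := fun I hI => by
      obtain ⟨Q, rfl⟩ := hS' I hI
      have h4 := (spla_norm Q (h3' Q ((hS Q).1 hI))).2.1 ⟨u, hu ▸ zero_mem _⟩
      obtain ⟨b1, -, b3⟩ := hef _ hI
      by_contra h5
      rw [b3, show P.asIdeal.inertiaDeg' Q.asIdeal = 1 by omega, pow_one] at h4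
      omega
    have h5 := Finset.card_nsmul_le_sum S _ 2 fun I hI => (h4 I hI).trans (hef I hI).2.1
    rw [hsum, smul_eq_mul] at h5
    have h6 : {Q1.asIdeal} = S := Finset.eq_of_subset_of_card_le
      (Finset.singleton_subset_iff.2 hI) (by rw [Finset.card_singleton]; omega)
    rw [← h6, Finset.sum_singleton] at hsum
    obtain ⟨b1, b2, b3⟩ := hef _ hI
    have := h4 _ hI
    refine .inr ⟨h, Q1, fun Q => ?_, ?_⟩
    · rw [← hS, ← h6]
      simp [HeightOneSpectrum.ext_iff]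
    · rw [b3, show P.asIdeal.inertiaDeg' Q1.asIdeal = 2 by omega]

end Vale.Agent.P016
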