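import Vale.Agent.P016.Lat

/-! Units: partition of unity, balancing, counting in boxes. -/

namespace Vale.Agent.P016

open Complex NumberField MeasureTheory
open scoped Classical ComplexConjugate
open Vale.Agent.P026 (w kk fk)

variable {F : Type} [Field F] [NumberField F] [Om F]

theorem unitGrp_Nin {E : Subgroup Fˣ} (hE : UnitGrp E) (u : E) : Nin (((u : Fˣ) : F)) = 1 :=
  Nin_unit (Units.ne_zero _) (hE.1 _ u.2) (by simpa using hE.1 _ (inv_mem u.2))
theorem unitGrp_lg_sum {E : Subgroup Fˣ} (hE : UnitGrp E) (u : E) :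
    ∑ v, lg (((u : Fˣ) : F)) v = 0 := by
  rw [sum_lg (Units.ne_zero _), unitGrp_Nin hE, Real.log_one]
theorem un_lg (v : Io F) (z : F) :
    lg z v = (InfinitePlace.mk v.1).mult * Real.log (InfinitePlace.mk v.1 z) := by
  have h : ¬ (InfinitePlace.mk v.1).IsReal := fun h => Om.im_ne v.1 (by
    have := RingHom.congr_fun (ComplexEmbedding.isReal_iff.1 (InfinitePlace.isReal_mk_iff.1 h)) Om.eta
    rw [ComplexEmbedding.conjugate_coe_eq] at this
    exact conj_eq_iff_im.1 this)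
  rw [InfinitePlace.mult, if_neg h, InfinitePlace.apply, lg, sqv_eq, Real.log_pow]
theorem un_lg_mul {E : Subgroup Fˣ} (u u' : E) :
    lg (((u * u' : E) : Fˣ) : F) = lg ((u : Fˣ) : F) + lg ((u' : Fˣ) : F) :=
  lg_mul (Units.ne_zero _) (Units.ne_zero _)
theorem un_lg_inv {E : Subgroup Fˣ} (u : E) : lg (((u⁻¹ : E) : Fˣ) : F) = -lg ((u : Fˣ) : F) := by
  rw [← lg_inv]
  simp
theorem un_card : ∑ _v : Io F, (1 : ℝ) = rr F := by simp [rr]
omit [Om F] in
theorem un_countable (E : Subgroup Fˣ) : Countable E :=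
  have : Countable F := (Module.finBasis ℚ F).equivFun.injective.countable
  (Units.val_injective.comp Subtype.val_injective).countable
/-- A balanced vector is controlled by its sum. -/
theorem un_bal {x : Io F → ℝ} {T : ℝ} (h : ∀ v v', |x v - x v'| ≤ T) (v : Io F) :
    |rr F * x v - ∑ v', x v'| ≤ rr F * T := by
  rw [← un_card, Finset.sum_mul, Finset.sum_mul, ← Finset.sum_sub_distrib]
  exact (Finset.abs_sum_le_sum_abs _ _).trans (Finset.sum_le_sum fun v' _ => by simpa using h v v')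
theorem un_box (B : ℝ) : {x : F | IsIntegral ℤ x ∧ ∀ v, sqv x v ≤ B}.Finite := by
  refine (Embeddings.finite_of_norm_le F ℂ (√B)).subset fun x hx => ⟨hx.1, fun φ => ?_⟩
  rcases arch_cases φ with h | h
  · exact Real.le_sqrt_of_sq_le (sqv_eq x ⟨φ, h⟩ ▸ hx.2 _)
  · have := Real.le_sqrt_of_sq_le (sqv_eq x ⟨ComplexEmbedding.conjugate φ, h⟩ ▸ hx.2 _)
    simpa using this
/-- Dirichlet balancing. -/
theorem exists_bal {E : Subgroup Fˣ} (hE : UnitGrp E) : ∃ T : ℝ, 0 ≤ T ∧ ∀ x : Io F → ℝ,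
    ∃ u : E, ∀ v v', |(x + lg ((u : Fˣ) : F)) v - (x + lg ((u : Fˣ) : F)) v'| ≤ T := by
  obtain ⟨k, hk, hk'⟩ := hE.2
  choose pl hpl hpl' using fun x : InfinitePlace F => exists_place x
  let b := (Units.basisUnitLattice F).ofZLatticeBasis ℝ (Units.unitLattice F)
  have hk0 : (0 : ℝ) < k := by exact_mod_cast hk
  have hr : (0 : ℝ) < rr F := by exact_mod_cast rr_pos
  have hB : 0 ≤ k * ∑ i, ‖b i‖ := by positivity
  refine ⟨2 * ((rr F + 1) * (k * ∑ i, ‖b i‖)), by positivity, fun x => ?_⟩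
  let z : Units.dirichletUnitTheorem.logSpace F := fun p => -(x (pl p.1) - (∑ v, x v) / rr F) / k
  have h1 := ZSpan.norm_fract_le b z
  obtain ⟨u, -, hu⟩ : (ZSpan.floor b z).1 ∈ Units.unitLattice F :=
    (Units.basisUnitLattice F).ofZLatticeBasis_span ℝ _ ▸ (ZSpan.floor b z).2
  let u' : E := ⟨Units.map (algebraMap (𝓞 F) F) u.toMul ^ k,
    hk' _ (u.toMul : 𝓞 F).2 (u.toMul⁻¹ : (𝓞 F)ˣ).1.2⟩
  let d : Io F → ℝ := fun v => (x + lg ((u' : Fˣ) : F)) v - (∑ v, x v) / rr F
  have h2 : ∑ v, d v = 0 := by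
    simp only [d, Pi.add_apply, Finset.sum_sub_distrib, Finset.sum_add_distrib,
      unitGrp_lg_sum hE u', Finset.sum_const, Finset.card_univ, nsmul_eq_mul]
    rw [show (Fintype.card (Io F) : ℝ) = rr F from rfl]
    field_simp
    ring
  have h3 : ∀ v, v ≠ pl Units.dirichletUnitTheorem.w₀ → |d v| ≤ k * ∑ i, ‖b i‖ := fun v hv => by
    have h4 := (norm_le_pi_norm _ ⟨InfinitePlace.mk v.1, fun h => hv (hpl' _ _ h)⟩).trans h1
    rw [ZSpan.fract_apply, ← hu, Pi.sub_apply, Real.norm_eq_abs] at h4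
    have h5 : d v = -(k * (z ⟨InfinitePlace.mk v.1, fun h => hv (hpl' _ _ h)⟩ -
        (InfinitePlace.mk v.1).mult * Real.log (InfinitePlace.mk v.1 (u.toMul : F)))) := by
      simp only [d, z, u', ← hpl' _ v rfl, Pi.add_apply, un_lg, Units.val_pow_eq_pow_val, map_pow,
        Real.log_pow, Units.coe_map, MonoidHom.coe_coe]
      field_simp
      ring
    rw [h5, abs_neg, abs_mul, abs_of_pos hk0]
    exact mul_le_mul_of_nonneg_left h4 hk0.le
  have h4 : ∀ v, |d v| ≤ (rr F + 1) * (k * ∑ i, ‖b i‖) := fun v => by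
    by_cases hv : v = pl Units.dirichletUnitTheorem.w₀
    · rw [← Finset.add_sum_erase _ _ (Finset.mem_univ v), add_eq_zero_iff_eq_neg] at h2
      rw [h2, abs_neg]
      refine (Finset.abs_sum_le_sum_abs _ _).trans ((Finset.sum_le_card_nsmul _ _ _ fun v' hv' =>
        h3 v' (hv ▸ Finset.ne_of_mem_erase hv')).trans ?_)
      rw [nsmul_eq_mul]
      gcongr
      exact (Nat.cast_le.2 (Finset.card_le_univ _)).trans (le_add_of_nonneg_right zero_le_one)
    · nlinarith [h3 v hv]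
  refine ⟨u', fun v v' => ?_⟩
  have h5 := abs_sub (d v) (d v')
  simp only [d, sub_sub_sub_cancel_right] at h5
  linarith [h4 v, h4 v']
theorem finite_bal {E : Subgroup Fˣ} (hE : UnitGrp E) (T : ℝ) (x : Io F → ℝ) :
    {u : E | ∀ v v', |(x + lg ((u : Fˣ) : F)) v - (x + lg ((u : Fˣ) : F)) v'| ≤ T}.Finite := by
  refine Set.Finite.of_finite_image (f := fun u : E => ((u : Fˣ) : F))
    ((un_box (Real.exp (T + 2 * ‖x‖))).subset ?_)
    (Units.val_injective.comp Subtype.val_injective).injOn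
  rintro _ ⟨u, hu, rfl⟩
  refine ⟨hE.1 _ u.2, fun v => ?_⟩
  rw [← exp_lg (Units.ne_zero _), Real.exp_le_exp]
  have h := un_bal (x := lg ((u : Fˣ) : F)) (T := T + 2 * ‖x‖) (fun v v' => by
    have h1 := abs_le.1 (hu v v')
    have h2 := abs_le.1 (norm_le_pi_norm x v)
    have h3 := abs_le.1 (norm_le_pi_norm x v')
    simp only [Pi.add_apply] at h1
    exact abs_le.2 ⟨by linarith, by linarith⟩) v
  rw [unitGrp_lg_sum hE, sub_zero] at h
  exact le_of_mul_le_mul_left (le_of_abs_le h) (by exact_mod_cast rr_pos)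
theorem exists_isUP {E : Subgroup Fˣ} (hE : UnitGrp E) : ∃ β, IsUP E β := by
  obtain ⟨T, -, hT⟩ := exists_bal hE
  have := un_countable E
  let b : (Io F → ℝ) → ℝ := fun x => if ∀ v v', |x v - x v'| ≤ T then 1 else 0
  have b0 : ∀ x, 0 ≤ b x := fun x => by simp only [b]; split_ifs <;> norm_num
  have b1 : ∀ x, b x ≤ 1 := fun x => by simp only [b]; split_ifs <;> norm_num
  have b2 : ∀ x, b x ≠ 0 → ∀ v v', |x v - x v'| ≤ T := fun x h => by
    by_contra h1
    exact h (if_neg h1)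
  have b3 : Measurable b := Measurable.ite (by measurability) measurable_const measurable_const
  have b4 : ∀ x (c : ℝ), b (fun v => x v + c) = b x := fun x c => by
    simp only [b, add_sub_add_right_eq_sub]
  have b5 : ∀ x, (Function.support fun u : E => b (x + lg ((u : Fˣ) : F))).Finite := fun x =>
    (finite_bal hE T x).subset fun u hu => b2 _ hu
  let n : (Io F → ℝ) → ℝ := fun x => ∑' u : E, b (x + lg ((u : Fˣ) : F))
  have n1 : ∀ x, 1 ≤ n x := fun x => by
    obtain ⟨u, hu⟩ := hT x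
    exact (if_pos hu).symm.trans_le
      ((summable_of_hasFiniteSupport (b5 x)).le_tsum u fun _ _ => b0 _)
  have n2 : ∀ x (u : E), n (x + lg ((u : Fˣ) : F)) = n x := fun x u => by
    simp only [n, add_assoc, ← un_lg_mul]
    exact (Equiv.mulLeft u).tsum_eq fun u' : E => b (x + lg ((u' : Fˣ) : F))
  refine ⟨fun x => b x / n x, b3.div (Measurable.tsum fun u => b3.comp (measurable_add_const _)),
    fun x => div_nonneg (b0 x) (zero_le_one.trans (n1 x)), fun x => div_le_one_of_le₀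
      ((b1 x).trans (n1 x)) (zero_le_one.trans (n1 x)),
    ⟨T, fun x h => b2 x (div_ne_zero_iff.1 h).1⟩, fun x c => ?_,
    fun x => (b5 x).subset fun u hu => (div_ne_zero_iff.1 hu).1, fun x => ?_⟩
  · rw [b4]
    refine congrArg _ (tsum_congr fun u => ?_)
    rw [← b4 (x + _) c]
    exact congrArg b (funext fun v => add_right_comm _ _ _)
  · simp only [n2]
    rw [tsum_div_const]
    exact div_self (one_pos.trans_le (n1 x)).ne'
theorem un_inv {E : Subgroup Fˣ} {β : (Io F → ℝ) → ℝ} (hβ : IsUP E β) (x : Io F → ℝ) :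
    HasSum (fun u : E => β (x + lg (((u⁻¹ : E) : Fˣ) : F))) 1 := by
  have h := (summable_of_hasFiniteSupport (L := .unconditional E) (hβ.fin x)).hasSum
  rw [hβ.sum x] at h
  exact (Equiv.inv E).hasSum_iff.2 h
/-- Unfolding over the units. -/
theorem lintegral_up {E : Subgroup Fˣ} {β : (Io F → ℝ) → ℝ} (hβ : IsUP E β)
    {g : (Io F → ℝ) → ENNReal} (hg : Measurable g) :
    ∫⁻ x, ENNReal.ofReal (β x) * ∑' u : E, g (x + lg ((u : Fˣ) : F)) = ∫⁻ x, g x := by
  have := un_countable E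
  have hb : ∀ c, Measurable fun x => ENNReal.ofReal (β (x + c)) := fun c =>
    (hβ.meas.comp (measurable_add_const c)).ennreal_ofReal
  have h1 : ∀ u : E, ∫⁻ x, ENNReal.ofReal (β x) * g (x + lg ((u : Fˣ) : F)) =
      ∫⁻ x, ENNReal.ofReal (β (x + lg (((u⁻¹ : E) : Fˣ) : F))) * g x := fun u => by
    rw [← lintegral_add_right_eq_self (fun x => ENNReal.ofReal (β (x + lg _)) * g x)
      (lg ((u : Fˣ) : F))]
    simp only [un_lg_inv, add_neg_cancel_right]
  simp only [← ENNReal.tsum_mul_left]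
  rw [lintegral_tsum fun u => (hβ.meas.ennreal_ofReal.fun_mul
    (hg.fun_comp (measurable_add_const _))).aemeasurable]
  simp only [h1]
  rw [← lintegral_tsum fun u => ((hb _).fun_mul hg).aemeasurable]
  refine lintegral_congr fun x => ?_
  rw [ENNReal.tsum_mul_right, ← ENNReal.ofReal_tsum_of_nonneg (fun _ => hβ.nonneg _)
    (un_inv hβ x).summable, (un_inv hβ x).tsum_eq, ENNReal.ofReal_one, one_mul]
theorem integral_up {E : Subgroup Fˣ} {β : (Io F → ℝ) → ℝ} (hβ : IsUP E β)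
    {g : (Io F → ℝ) → ℂ} (hm : Measurable g) (hg : Integrable g) :
    Integrable (fun x => (β x : ℂ) * ∑' u : E, g (x + lg ((u : Fˣ) : F))) ∧
      ∫ x, (β x : ℂ) * ∑' u : E, g (x + lg ((u : Fˣ) : F)) = ∫ x, g x := by
  have := un_countable E
  have h0 := lintegral_up hβ hm.enorm
  have m1 : ∀ u : E, Measurable fun x => (β x : ℂ) * g (x + lg ((u : Fˣ) : F)) := fun u =>
    (measurable_ofReal.comp hβ.meas).mul (hm.comp (measurable_add_const _))
  have m2 : ∀ u : E, Measurable fun x => (β (x + lg (((u⁻¹ : E) : Fˣ) : F)) : ℂ) * g x := fun u =>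
    (measurable_ofReal.comp (hβ.meas.comp (measurable_add_const _))).mul hm
  have e1 : ∀ x z, ‖(β x : ℂ) * z‖ₑ = ENNReal.ofReal (β x) * ‖z‖ₑ := fun x z => by
    rw [enorm_mul, ← ofReal_norm (β x : ℂ), norm_real, Real.norm_of_nonneg (hβ.nonneg x)]
  have h1 : ∑' u : E, ∫⁻ x, ‖(β x : ℂ) * g (x + lg ((u : Fˣ) : F))‖ₑ ≠ ⊤ := by
    rw [← lintegral_tsum fun u => (m1 u).enorm.aemeasurable]
    simp only [e1, ENNReal.tsum_mul_left]
    exact h0 ▸ hg.2.ne
  have h2 : ∀ (u : E) x, (β x : ℂ) * g (x + lg ((u : Fˣ) : F)) =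
      (fun x => (β (x + lg (((u⁻¹ : E) : Fˣ) : F)) : ℂ) * g x) (x + lg ((u : Fˣ) : F)) :=
    fun u x => by simp only [un_lg_inv, add_neg_cancel_right]
  constructor
  · refine ⟨((measurable_ofReal.comp hβ.meas).mul (Measurable.tsum fun u =>
      hm.comp (measurable_add_const _))).aestronglyMeasurable, lt_of_le_of_lt ?_ hg.2⟩
    rw [← h0]
    exact lintegral_mono fun x => (e1 _ _).trans_le (mul_le_mul_right enorm_tsum_le_tsum_enorm _)
  · simp only [← tsum_mul_left]
    rw [integral_tsum (fun u => (m1 u).aestronglyMeasurable) h1]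
    rw [tsum_congr fun u => (lintegral_congr fun x => congrArg enorm (h2 u x)).trans
      (lintegral_add_right_eq_self (fun x => ‖(β (x + lg _) : ℂ) * g x‖ₑ) _)] at h1
    rw [tsum_congr fun u => (integral_congr_ae (Filter.Eventually.of_forall (h2 u))).trans
      (integral_add_right_eq_self (fun x => (β (x + lg _) : ℂ) * g x) _),
      ← integral_tsum (fun u => (m2 u).aestronglyMeasurable) h1]
    refine integral_congr_ae (Filter.Eventually.of_forall fun x => ?_)
    beta_reduce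
    rw [tsum_mul_right, ← ofReal_tsum, (un_inv hβ x).tsum_eq, ofReal_one, one_mul]
/-- Integrals of functions of the sum of the coordinates against the partition of unity. -/
theorem integral_up_diag {E : Subgroup Fˣ} {β : (Io F → ℝ) → ℝ} (hβ : IsUP E β) :
    ∃ k0 : ℝ, 0 ≤ k0 ∧ ∀ g : ℝ → ℝ, Measurable g → Integrable g →
      Integrable (fun x : Io F → ℝ => β x * g (∑ v, x v)) ∧
        ∫ x : Io F → ℝ, β x * g (∑ v, x v) = k0 * ∫ s, g s := by
  obtain ⟨T, hT⟩ := hβ.supp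
  have hr : (1 : ℝ) ≤ rr F := by exact_mod_cast rr_pos
  have hS : Measurable fun x : Io F → ℝ => ∑ v, x v := by fun_prop
  have hb := hβ.meas.ennreal_ofReal
  let μ : Measure ℝ := (volume.withDensity fun x => ENNReal.ofReal (β x)).map fun x => ∑ v, x v
  have hμ : ∀ A, MeasurableSet A → μ A =
      ∫⁻ x, A.indicator 1 (∑ v, x v) * ENNReal.ofReal (β x) := fun A hA => by
    rw [Measure.map_apply hS hA, withDensity_apply _ (hS hA), ← lintegral_indicator (hS hA)]
    refine lintegral_congr fun x => ?_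
    by_cases h : ∑ v, x v ∈ A <;> simp [h]
  have i1 : μ.IsAddLeftInvariant := (forall_measure_preimage_add_iff μ).1 fun c A hA => by
    rw [hμ _ hA, hμ _ (measurable_const_add c hA), ← lintegral_add_right_eq_self
      (fun x => A.indicator 1 (∑ v, x v) * ENNReal.ofReal (β x)) fun _ => c / rr F]
    refine lintegral_congr fun x => ?_
    have h1 : ∑ v, (x + fun _ => c / rr F : Io F → ℝ) v = c + ∑ v, x v := by
      simp only [Pi.add_apply, Finset.sum_add_distrib, Finset.sum_const, Finset.card_univ,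
        nsmul_eq_mul]
      rw [show (Fintype.card (Io F) : ℝ) = rr F from rfl]
      field_simp
      ring
    rw [h1, show β (x + fun _ => c / rr F) = β x from hβ.diag x _]
    rfl
  have i2 : IsFiniteMeasureOnCompacts μ := ⟨fun K hK => by
    obtain ⟨R, hR, hR'⟩ := hK.isBounded.exists_pos_norm_le
    rw [hμ _ hK.measurableSet]
    refine lt_of_le_of_lt (lintegral_mono (g := (Metric.closedBall 0 (R + T)).indicator 1)
      fun x => ?_) (by
        rw [lintegral_indicator_one measurableSet_closedBall]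
        exact measure_closedBall_lt_top)
    by_cases h1 : ∑ v, x v ∈ K
    · by_cases h2 : β x = 0
      · simp [h2]
      · have h3 : x ∈ Metric.closedBall (0 : Io F → ℝ) (R + T) := by
          have h4 := (abs_nonneg _).trans (hT x h2 (Classical.arbitrary _) (Classical.arbitrary _))
          rw [mem_closedBall_zero_iff, pi_norm_le_iff_of_nonneg (by positivity)]
          intro v
          have h5 := abs_le.1 (un_bal (hT x h2) v)
          have h6 := abs_le.1 (hR' _ h1)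
          exact abs_le.2 ⟨by nlinarith, by nlinarith⟩
        simpa [h1, h3] using hβ.le_one x
    · simp [h1]⟩
  have h := Measure.isAddLeftInvariant_eq_smul μ volume
  have hlt : ∀ᵐ x : Io F → ℝ, ENNReal.ofReal (β x) < ⊤ :=
    Filter.Eventually.of_forall fun _ => ENNReal.ofReal_lt_top
  refine ⟨μ.addHaarScalarFactor volume, NNReal.coe_nonneg _, fun g hg hg' => ⟨?_, ?_⟩⟩
  · have h1 : Integrable g μ := h ▸ hg'.smul_measure_nnreal
    rw [integrable_map_measure hg.aestronglyMeasurable hS.aemeasurable,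
      integrable_withDensity_iff_integrable_smul' hb hlt] at h1
    simpa only [ENNReal.toReal_ofReal (hβ.nonneg _), smul_eq_mul, Function.comp] using h1
  · have h1 : ∫ s, g s ∂μ = μ.addHaarScalarFactor volume • ∫ s, g s := by
      rw [← integral_smul_nnreal_measure, ← h]
    rw [integral_map hS.aemeasurable hg.aestronglyMeasurable,
      integral_withDensity_eq_integral_toReal_smul hb hlt] at h1
    simpa only [ENNReal.toReal_ofReal (hβ.nonneg _), smul_eq_mul, NNReal.smul_def] using h1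
theorem un_pow {E : Subgroup Fˣ} (hE : UnitGrp E) : ∃ A : ℝ, 1 ≤ A ∧ ∀ y : Io F → ℝ,
    (∀ v, 0 < y v) → ∃ u : E, ∀ v, (sqv ((u : Fˣ) : F) v * y v) ^ rr F ≤ A * ∏ v', y v' := by
  obtain ⟨T, hT0, hT⟩ := exists_bal hE
  refine ⟨Real.exp (rr F * T), Real.one_le_exp (by positivity), fun y hy => ?_⟩
  obtain ⟨u, hu⟩ := hT fun v => Real.log (y v)
  refine ⟨u, fun v => ?_⟩
  have h := le_of_abs_le (un_bal hu v)
  simp only [Pi.add_apply, Finset.sum_add_distrib, unitGrp_lg_sum hE, add_zero] at h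
  rw [← exp_lg (Units.ne_zero _), ← Real.exp_log (hy v), ← Real.exp_add, ← Real.exp_nat_mul,
    ← Real.exp_log (Finset.prod_pos fun v _ => hy v), Real.log_prod fun v _ => (hy v).ne',
    ← Real.exp_add, Real.exp_le_exp]
  linarith
omit [Om F] in
theorem un_grp : ∃ E : Subgroup Fˣ, UnitGrp E :=
  ⟨{ carrier := {u | IsIntegral ℤ (u : F) ∧ IsIntegral ℤ ((u⁻¹ : Fˣ) : F)}
     one_mem' := ⟨isIntegral_one, isIntegral_one⟩
     mul_mem' := fun h h' => ⟨h.1.mul h'.1, by rw [mul_inv_rev]; exact h'.2.mul h.2⟩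
     inv_mem' := fun h => ⟨h.2, h.1⟩ },
    fun _ h => h.1, 1, one_pos, fun u h h' => by rw [pow_one]; exact ⟨h, h'⟩⟩
/-- Elements with bounded denominator in a box. -/
theorem card_box_le {m : ℕ} (hm : m ≠ 0) : ∃ C : ℝ, 0 < C ∧ ∀ (T : Io F → ℝ), (∀ v, 0 < T v) →
    ∀ s : Finset F, (∀ x ∈ s, x ≠ 0 ∧ IsIntegral ℤ ((m : F) * x) ∧ ∀ v, sqv x v ≤ T v) →
      (s.card : ℝ) ≤ C * ∏ v, T v := by
  obtain ⟨E, hE⟩ := un_grp (F := F)
  obtain ⟨A, hA, hA'⟩ := un_pow hE
  obtain ⟨C, hC, hC'⟩ := card_lat_le (isLat_latO (F := F))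
  have hm' : (0 : ℝ) < m := by positivity
  have hn : dg F ≠ 0 := Module.finrank_pos.ne'
  refine ⟨C * (2 ^ dg F * (m ^ dg F * A)), by positivity, fun T hT s hs => ?_⟩
  have hP : 0 < ∏ v, T v := Finset.prod_pos fun v _ => hT v
  rcases s.eq_empty_or_nonempty with rfl | ⟨x, hx⟩
  · rw [Finset.card_empty, Nat.cast_zero]
    positivity
  obtain ⟨u, hu⟩ := hA' T hT
  obtain ⟨ρ, h0, h1⟩ : ∃ ρ : ℝ, 0 ≤ ρ ∧ ρ ^ dg F = m ^ dg F * (A * ∏ v, T v) :=
    ⟨_, by positivity, Real.rpow_inv_natCast_pow (by positivity) hn⟩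
  have h2 : 1 ≤ ρ := by
    have h3 := one_le_Nin (mul_ne_zero (Nat.cast_ne_zero.2 hm) (hs x hx).1) (hs x hx).2.1
    have h4 : Nin x ≤ ∏ v, T v :=
      Finset.prod_le_prod (fun v _ => sqv_nonneg x v) fun v _ => (hs x hx).2.2 v
    rw [Nin_mul, Nin_natCast] at h3
    rw [← one_le_pow_iff_of_nonneg h0 hn, h1]
    exact h3.trans (by gcongr; nlinarith)
  have h3 := hC' 0 ρ h0 (s.image fun x => ((u : Fˣ) : F) * (m * x)) fun y hy => by
    obtain ⟨x, hx, rfl⟩ := Finset.mem_image.1 hy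
    refine ⟨mem_latO.2 ((hE.1 _ u.2).mul (hs x hx).2.1), ?_⟩
    rw [zero_add, pi_norm_le_iff_of_nonneg h0]
    intro v
    rw [← pow_le_pow_iff_left₀ (norm_nonneg _) h0 hn, h1, ← two_mul_rr, pow_mul, pow_mul, emb,
      ← sqv_eq, sqv_mul, sqv_mul, mul_left_comm, mul_pow, show sqv (m : F) v = m ^ 2 by
        simp [sqv, sq]]
    refine mul_le_mul_of_nonneg_left (le_trans ?_ (hu v)) (by positivity)
    have := sqv_nonneg x v
    have := sqv_nonneg ((u : Fˣ) : F) v
    gcongr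
    exact (hs x hx).2.2 v
  rw [Finset.card_image_of_injective _ fun x y h => mul_left_cancel₀ (Nat.cast_ne_zero.2 hm)
    (mul_left_cancel₀ (Units.ne_zero _) h)] at h3
  calc (s.card : ℝ) ≤ C * (2 * ρ) ^ dg F := h3.trans (by gcongr; linarith)
    _ = _ := by rw [mul_pow, h1]; ring
theorem box_sum {m : ℕ} (hm : m ≠ 0) : ∃ C : ℝ, 0 < C ∧ ∀ (t : Io F → ℝ), (∀ v, 0 < t v) →
    Summable (fun x : F => if x ≠ 0 ∧ IsIntegral ℤ ((m : F) * x) then
      ∏ v, ((1 + t v * sqv x v) ^ 2)⁻¹ else 0) ∧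
    ∑' x : F, (if x ≠ 0 ∧ IsIntegral ℤ ((m : F) * x) then ∏ v, ((1 + t v * sqv x v) ^ 2)⁻¹ else 0)
      ≤ C / ∏ v, t v := by
  obtain ⟨C, hC, hC'⟩ := card_box_le (F := F) hm
  refine ⟨C * 4 ^ rr F, by positivity, fun t ht => ?_⟩
  have hP : 0 < ∏ v, t v := Finset.prod_pos fun v _ => ht v
  have h0 : ∀ x v, 0 ≤ t v * sqv x v := fun x v => mul_nonneg (ht v).le (sqv_nonneg x v)
  choose k hk hk' using fun (x : F) (v : Io F) =>
    exists_nat_pow_near (le_add_of_nonneg_right (h0 x v) : 1 ≤ 1 + t v * sqv x v) one_lt_two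
  have key : ∀ s : Finset F, ∑ x ∈ s, (if x ≠ 0 ∧ IsIntegral ℤ ((m : F) * x) then
      ∏ v, ((1 + t v * sqv x v) ^ 2)⁻¹ else 0) ≤ C * 4 ^ rr F / ∏ v, t v := fun s => by
    rw [← Finset.sum_filter, ← Finset.sum_fiberwise_of_maps_to (g := k)
      (t := Fintype.piFinset fun _ => Finset.range ((s ×ˢ Finset.univ).sup (fun p => k p.1 p.2) + 1))
      fun x hx => Fintype.mem_piFinset.2 fun v => Finset.mem_range.2 (Nat.lt_succ_of_le
        (Finset.le_sup (f := fun p : F × Io F => k p.1 p.2) (b := (x, v))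
          (Finset.mk_mem_product (Finset.mem_filter.1 hx).1 (Finset.mem_univ v))))]
    refine (Finset.sum_le_sum (g := fun i => C * 2 ^ rr F / (∏ v, t v) * ∏ v, (1 / 2) ^ i v)
      fun i _ => ?_).trans ?_
    · refine (Finset.sum_le_card_nsmul _ _ (∏ v, (1 / 4) ^ i v) fun x hx => ?_).trans ?_
      · refine Finset.prod_le_prod (fun v _ => by positivity) fun v _ => ?_
        rw [← (Finset.mem_filter.1 hx).2, one_div_pow, one_div, show (4 : ℝ) = 2 ^ 2 by norm_num,
          ← pow_mul, mul_comm 2, pow_mul]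
        gcongr
        exact hk x v
      · rw [nsmul_eq_mul]
        refine (mul_le_mul_of_nonneg_right (hC' (fun v => 2 ^ (i v + 1) / t v)
          (fun v => div_pos (by positivity) (ht v)) _ fun x hx => ?_) (by positivity)).trans_eq ?_
        · simp only [Finset.mem_filter] at hx
          refine ⟨hx.1.2.1, hx.1.2.2, fun v => ?_⟩
          rw [le_div_iff₀ (ht v), ← hx.2]
          linarith [hk' x v]
        · have : ∀ v, (2 : ℝ) ^ (i v + 1) * (1 / 4) ^ i v = 2 * (1 / 2) ^ i v := fun v => by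
            rw [pow_succ', mul_assoc, ← mul_pow]
            norm_num
          rw [Finset.prod_div_distrib, mul_div_assoc', div_mul_eq_mul_div, mul_assoc,
            ← Finset.prod_mul_distrib, Finset.prod_congr rfl fun v _ => this v,
            Finset.prod_mul_distrib, Finset.prod_const, Finset.card_univ, rr]
          ring
    · rw [← Finset.mul_sum, ← Finset.prod_univ_sum]
      refine (mul_le_mul_of_nonneg_left (Finset.prod_le_prod (g := fun _ => 2)
        (fun v _ => by positivity) fun v _ => sum_geometric_two_le _) (by positivity)).trans_eq ?_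
      rw [Finset.prod_const, Finset.card_univ, show (4 : ℝ) = 2 * 2 by norm_num, mul_pow, rr]
      ring
  have h1 : 0 ≤ fun x : F => if x ≠ 0 ∧ IsIntegral ℤ ((m : F) * x) then
      ∏ v, ((1 + t v * sqv x v) ^ 2)⁻¹ else 0 := fun x => by
    beta_reduce
    split_ifs
    · positivity
    · rfl
  exact ⟨summable_of_sum_le h1 key, Real.tsum_le_of_sum_le h1 key⟩
theorem un_dy {J : Type} (s : Finset J) (f : J → ℝ) (k : J → ℕ) {A : ℝ} (hA : 0 ≤ A)
    (h : ∀ i, ∑ j ∈ s with k j = i, f j ≤ A * (1 / 2) ^ i) : ∑ j ∈ s, f j ≤ A * 2 := by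
  rw [← Finset.sum_fiberwise_of_maps_to (t := Finset.range (s.sup k + 1)) (g := k)
    fun j hj => Finset.mem_range.2 (Nat.lt_succ_of_le (Finset.le_sup hj))]
  refine (Finset.sum_le_sum fun i _ => h i).trans ?_
  rw [← Finset.mul_sum]
  exact mul_le_mul_of_nonneg_left (sum_geometric_two_le _) hA
theorem un_sum {J : Type} {n : J → ℝ} (hn : ∀ j, 0 < n j) {c : ℝ} (hc : 0 ≤ c)
    (h : ∀ X : ℝ, 0 < X → ∀ s : Finset J, (∀ j ∈ s, n j ≤ X) → (s.card : ℝ) ≤ c * X)
    (s : Finset J) : ∑ j ∈ s, min (n j ^ (-(1 / 2) : ℝ)) (n j ^ (-(3 / 2) : ℝ)) ≤ 12 * c := by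
  have h1 : ∀ j, 1 ≤ n j → ∃ k : ℕ, 4 ^ k ≤ n j ∧ n j < 4 ^ (k + 1) := fun j hj =>
    exists_nat_pow_near hj (by norm_num)
  have h2 : ∀ j, ¬ 1 ≤ n j → ∃ k : ℕ, (1 / 4) ^ (k + 1) < n j ∧ n j ≤ (1 / 4) ^ k := fun j hj =>
    exists_nat_pow_near_of_lt_one (hn j) (not_le.1 hj).le (by norm_num) (by norm_num)
  choose! k hk using h1
  choose! l hl using h2
  have e : ∀ (i : ℕ) (a : ℝ), ((4 : ℝ) ^ i) ^ a = (2 ^ (2 * a)) ^ i := fun i a => by
    rw [← Real.rpow_natCast, ← Real.rpow_natCast, ← Real.rpow_mul (by norm_num),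
      ← Real.rpow_mul (by norm_num), show (4 : ℝ) = 2 ^ (2 : ℝ) by norm_num,
      ← Real.rpow_mul (by norm_num)]
    congr 1
    ring
  rw [← Finset.sum_filter_add_sum_filter_not s fun j => 1 ≤ n j]
  have a1 := un_dy (s.filter fun j => 1 ≤ n j)
    (fun j => min (n j ^ (-(1 / 2) : ℝ)) (n j ^ (-(3 / 2) : ℝ))) k (A := c * 4) (by positivity)
    fun i => by
      refine (Finset.sum_le_card_nsmul _ _ ((1 / 8) ^ i) fun j hj => ?_).trans ?_
      · simp only [Finset.mem_filter] at hj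
        refine (min_le_right _ _).trans ((Real.rpow_le_rpow_of_nonpos (by positivity)
          (hj.2 ▸ (hk j hj.1.2).1) (by norm_num)).trans_eq ?_)
        rw [e]
        norm_num
      · rw [nsmul_eq_mul]
        refine (mul_le_mul_of_nonneg_right (h (4 ^ (i + 1)) (by positivity) _ fun j hj => ?_)
          (by positivity)).trans_eq ?_
        · simp only [Finset.mem_filter] at hj
          exact hj.2 ▸ (hk j hj.1.2).2.le
        · rw [pow_succ', ← mul_assoc, mul_assoc (c * 4), ← mul_pow]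
          norm_num
  have a2 := un_dy (s.filter fun j => ¬ 1 ≤ n j)
    (fun j => min (n j ^ (-(1 / 2) : ℝ)) (n j ^ (-(3 / 2) : ℝ))) l (A := c * 2) (by positivity)
    fun i => by
      refine (Finset.sum_le_card_nsmul _ _ (2 ^ (i + 1)) fun j hj => ?_).trans ?_
      · simp only [Finset.mem_filter] at hj
        refine (min_le_left _ _).trans ((Real.rpow_le_rpow_of_nonpos (by positivity)
          (hj.2 ▸ (hl j hj.1.2).1.le) (by norm_num)).trans_eq ?_)
        rw [one_div_pow, one_div, Real.inv_rpow (by positivity), e, ← inv_pow]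
        norm_num
      · rw [nsmul_eq_mul]
        refine (mul_le_mul_of_nonneg_right (h ((1 / 4) ^ i) (by positivity) _ fun j hj => ?_)
          (by positivity)).trans_eq ?_
        · simp only [Finset.mem_filter] at hj
          exact hj.2 ▸ (hl j hj.1.2).2
        · rw [pow_succ', mul_mul_mul_comm, ← mul_pow]
          norm_num
  linarith
/-- Counting orbits. -/
theorem card_tr_le {E : Subgroup Fˣ} (hE : UnitGrp E) {m : ℕ} (hm : m ≠ 0) : ∃ C : ℝ, 0 < C ∧
    ∀ {J : Type} (S : Set F) (ν : J → F), IsTr E S ν →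
      (∀ x ∈ S, x ≠ 0 ∧ IsIntegral ℤ ((m : F) * x)) → ∀ X : ℝ, 0 < X →
        ∀ s : Finset J, (∀ j ∈ s, Nin (ν j) ≤ X) → (s.card : ℝ) ≤ C * X := by
  obtain ⟨C, hC, hC'⟩ := card_box_le (F := F) hm
  obtain ⟨A, hA, hA'⟩ := un_pow hE
  refine ⟨C * A, by positivity, fun S ν h hS X hX s hs => ?_⟩
  have h0 : ∀ j, ν j ≠ 0 := fun j => right_ne_zero_of_mul (hS _ (h.1 j 1)).1
  choose u hu using fun j => hA' (sqv (ν j)) (sqv_pos (h0 j))
  obtain ⟨ρ, h1, h2⟩ : ∃ ρ : ℝ, 0 < ρ ∧ ρ ^ rr F = A * X :=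
    ⟨_, by positivity, Real.rpow_inv_natCast_pow (by positivity) (rr_pos (F := F)).ne'⟩
  have h3 := hC' (fun _ => ρ) (fun _ => h1) (s.image fun j => ((u j : Fˣ) : F) * ν j)
    fun y hy => by
      obtain ⟨j, hj, rfl⟩ := Finset.mem_image.1 hy
      refine ⟨(hS _ (h.1 j _)).1, (hS _ (h.1 j _)).2, fun v => ?_⟩
      rw [← pow_le_pow_iff_left₀ (sqv_nonneg _ v) h1.le (rr_pos (F := F)).ne', h2, sqv_mul]
      exact (hu j v).trans (mul_le_mul_of_nonneg_left (hs j hj) (zero_le_one.trans hA))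
  rw [Finset.card_image_of_injective _ fun i j hij => congrArg Prod.fst
    ((h.2 _ (h.1 i (u i))).unique (y₁ := (i, u i)) (y₂ := (j, u j)) rfl hij),
    Finset.prod_const, Finset.card_univ] at h3
  rw [mul_assoc, ← h2]
  exact h3
theorem tsum_tr_le {E : Subgroup Fˣ} (hE : UnitGrp E) {m : ℕ} (hm : m ≠ 0) : ∃ C : ℝ, 0 < C ∧
    ∀ {J : Type} (S : Set F) (ν : J → F), IsTr E S ν →
      (∀ x ∈ S, x ≠ 0 ∧ IsIntegral ℤ ((m : F) * x)) → ∀ a : ℝ, 0 < a →
        Summable (fun j => min ((a * Nin (ν j)) ^ (-(1 / 2) : ℝ)) ((a * Nin (ν j)) ^ (-(3 / 2) : ℝ))) ∧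
        ∑' j, min ((a * Nin (ν j)) ^ (-(1 / 2) : ℝ)) ((a * Nin (ν j)) ^ (-(3 / 2) : ℝ))
          ≤ C / a := by
  obtain ⟨C, hC, hC'⟩ := card_tr_le hE hm
  refine ⟨12 * C, by positivity, fun S ν h hS a ha => ?_⟩
  have h0 : ∀ j, 0 < a * Nin (ν j) := fun j =>
    mul_pos ha (Nin_pos (right_ne_zero_of_mul (hS _ (h.1 j 1)).1))
  have key := un_sum h0 (c := C / a) (by positivity) fun X hX s hs =>
    (hC' S ν h hS (X / a) (by positivity) s fun j hj => (le_div_iff₀' ha).2 (hs j hj)).trans_eq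
      (by ring)
  rw [mul_div_assoc]
  have h1 := fun j => le_min (Real.rpow_nonneg (h0 j).le (-(1 / 2)))
    (Real.rpow_nonneg (h0 j).le (-(3 / 2)))
  exact ⟨summable_of_sum_le h1 key, Real.tsum_le_of_sum_le h1 key⟩
/-- Reindexing a sum over S by a transversal. -/
theorem IsTr.exists_equiv {J : Type} {E : Subgroup Fˣ} {S : Set F} {ν : J → F} (h : IsTr E S ν) :
    ∃ φ : J × E ≃ S, ∀ p, (φ p : F) = ((p.2 : Fˣ) : F) * ν p.1 :=
  ⟨Equiv.ofBijective (fun p => ⟨_, h.1 p.1 p.2⟩)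
    ⟨fun p _ hpq => (h.2 _ (h.1 p.1 p.2)).unique rfl (congrArg Subtype.val hpq),
      fun x => (h.2 x x.2).exists.imp fun _ hp => Subtype.ext hp.symm⟩, fun _ => rfl⟩
theorem exists_isTr {E : Subgroup Fˣ} {S : Set F} (h0 : (0 : F) ∉ S)
    (hS : ∀ x ∈ S, ∀ u : E, ((u : Fˣ) : F) * x ∈ S) :
    ∃ S0 : Set F, IsTr E S (fun j : S0 => (j : F)) := by
  let q : F → MulAction.orbitRel.Quotient E F := Quotient.mk _
  have hq : ∀ (u : E) x, q (((u : Fˣ) : F) * x) = q x := fun u x => Quotient.sound ⟨u, rfl⟩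
  refine ⟨{x | x ∈ S ∧ (q x).out = x}, fun j u => hS _ j.2.1 u, fun x hx => ?_⟩
  obtain ⟨u, hu⟩ : ∃ u : E, ((u : Fˣ) : F) * x = (q x).out := Quotient.mk_out (s := MulAction.orbitRel E F) x
  refine ⟨(⟨(q x).out, hu ▸ hS x hx u, by rw [← hu, hq, hu]⟩, u⁻¹), ?_, ?_⟩
  · simp [← hu]
  · rintro ⟨⟨y, hy⟩, u'⟩ h
    have h1 : x = ((u' : Fˣ) : F) * y := h
    have h2 : y = (q x).out := by rw [h1, hq, hy.2]
    refine Prod.ext (Subtype.ext h2) (eq_inv_of_mul_eq_one_right (Subtype.ext (Units.ext ?_)))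
    rw [← h2, h1, ← mul_assoc] at hu
    exact mul_left_eq_self₀.1 hu |>.resolve_right fun h3 => h0 (h3 ▸ hy.1)

end Vale.Agent.P016
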