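import Vale.Agent.P016.IdL
import Vale.Agent.P016.UA

/-! The theta identity for one ideal class. -/

namespace Vale.Agent.P016

open Complex NumberField IsDedekindDomain MeasureTheory Filter
open scoped Classical ComplexConjugate nonZeroDivisors
open Vale.Agent.P026 (w)

variable {F : Type} [Field F] [NumberField F] [Om F]

omit [Om F] in
/-- A periodic function supported on B, bounded by one, has a small sum over the cosets. -/
theorem th1_qsum {q : ℕ} {B : Ideal (𝓞 F)} (hq : q ≠ 0) (hB : B ≠ ⊥) : ∃ s : Finset F,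
    s.card = q ^ dg F ∧ (∀ x ∈ s, x ∈ idL B) ∧ ∀ g : F → ℂ, (∀ x, g x ≠ 0 → x ∈ idL B) →
      (∀ x y, x - y ∈ idL (Ideal.span {(q : 𝓞 F)} * B) → g x = g y) →
      qsum (idL (Ideal.span {(q : 𝓞 F)} * B)) g = ∑ x ∈ s, g x := by
  have e : (idL (Ideal.span {(q : 𝓞 F)} * B)).relIndex (idL B) = q ^ dg F := by
    have := nm_span_nat (F := F) q
    rw [relIndex_idL hB]
    unfold nm at this
    exact_mod_cast this
  obtain ⟨s, h1, h2, h3, h4⟩ := exists_reps (e.trans_ne (pow_ne_zero _ hq))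
  exact ⟨s, h1.trans e, h2, fun g hg hp => qsum_eq_sum hp s h3 fun x hx => h4 x (hg x hx)⟩

/-- The character transported to the elements of B. -/
theorem th1_fun {q : ℕ} (χ : DirichletCharacter ℂ q) {B : Ideal (𝓞 F)}
    (hc : IsCoprime B (Ideal.span {(q : 𝓞 F)})) : ∃ f : F → ℂ,
    (∀ x, f x ≠ 0 → x ∈ idL B) ∧ (∀ x, ‖f x‖ ≤ 1) ∧
    (∀ x y, x - y ∈ idL (Ideal.span {(q : 𝓞 F)} * B) → f x = f y) ∧
    (∀ (u : EU F) x, f (((u : Fˣ) : F) * x) = f x) ∧ (q = 1 → ∀ x ∈ idL B, f x = 1) ∧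
    ∀ (I : Ideal (𝓞 F)) (y : 𝓞 F), I ≠ ⊥ → I * B = Ideal.span {y} → f y = tw χ I := by
  have hu : IsUnit ((Ideal.absNorm B : ℕ) : ZMod q) :=
    (ZMod.isUnit_iff_coprime _ _).2 (absNorm_coprime hc)
  have h1 : ‖χ ((Ideal.absNorm B : ℕ) : ZMod q)‖ = 1 := by
    rw [← hu.unit_spec]
    exact χ.unit_norm_eq_one _
  have h0 : χ ((Ideal.absNorm B : ℕ) : ZMod q) ≠ 0 := by
    rw [← norm_ne_zero_iff, h1]
    exact one_ne_zero
  let g : 𝓞 F → ℂ := fun y => χ ((Ideal.absNorm (Ideal.span {y}) : ℕ) : ZMod q) *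
    (χ ((Ideal.absNorm B : ℕ) : ZMod q))⁻¹
  let f : F → ℂ := fun x => if h : x ∈ idL B then g (mem_idL.1 h).choose else 0
  have hf : ∀ y ∈ B, f (y : 𝓞 F) = g y := fun y hy => by
    have h := coe_mem_idL.2 hy
    simp only [f, dif_pos h]
    exact congrArg g (RingOfIntegers.coe_injective (mem_idL.1 h).choose_spec.2)
  have hf0 : ∀ x, x ∉ idL B → f x = 0 := fun x hx => dif_neg hx
  have hle : idL (Ideal.span {(q : 𝓞 F)} * B) ≤ idL B := idL_mono Ideal.mul_le_right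
  refine ⟨f, fun x hx => by_contra fun h => hx (hf0 x h), fun x => ?_, fun x y hxy => ?_,
    fun u x => ?_, fun hq x hx => ?_, fun I y hI hy => ?_⟩
  · by_cases hx : x ∈ idL B
    · obtain ⟨y, hy, rfl⟩ := mem_idL.1 hx
      rw [hf y hy, norm_mul, norm_inv, h1, inv_one, mul_one]
      exact χ.norm_le_one _
    · rw [hf0 x hx, norm_zero]
      exact zero_le_one
  · by_cases hx : x ∈ idL B
    · have hy : y ∈ idL B := by simpa using sub_mem hx (hle hxy)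
      obtain ⟨x, hx', rfl⟩ := mem_idL.1 hx
      obtain ⟨y, hy', rfl⟩ := mem_idL.1 hy
      have h2 : x - y ∈ Ideal.span {(q : 𝓞 F)} * B := coe_mem_idL.1 (by simpa using hxy)
      have h3 := norm_cong (Ideal.mem_span_singleton.1 (Ideal.mul_le_left h2))
      rw [norm_eq_absNorm, norm_eq_absNorm, Int.cast_natCast, Int.cast_natCast] at h3
      rw [hf x hx', hf y hy']
      simp only [g, h3]
    · have hy : y ∉ idL B := fun hy => hx (by simpa using add_mem (hle hxy) hy)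
      rw [hf0 x hx, hf0 y hy]
  · by_cases hx : x ∈ idL B
    · obtain ⟨x, hx', rfl⟩ := mem_idL.1 hx
      obtain ⟨v, hv⟩ := mem_EU.1 u.2
      have e : ((u : Fˣ) : F) * (x : 𝓞 F) = ((v * x : 𝓞 F) : F) := by
        rw [← hv]
        simp
      rw [e, hf _ (B.mul_mem_left _ hx'), hf x hx']
      simp only [g, Ideal.span_singleton_mul_left_unit v.isUnit]
    · refine (hf0 _ fun h => hx ?_).trans (hf0 x hx).symm
      have := EU_mul_mem u⁻¹ h
      simpa using this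
  · subst hq
    obtain ⟨y, hy, rfl⟩ := mem_idL.1 hx
    rw [hf y hy]
    simp only [g, Subsingleton.elim ((_ : ℕ) : ZMod 1) 1, map_one, inv_one, mul_one]
  · have hyB : y ∈ B := Ideal.mul_le_right (hy.ge (Ideal.mem_span_singleton_self y))
    rw [hf y hyB, tw, if_neg hI]
    simp only [g, ← hy, map_mul, Nat.cast_mul, mul_inv_cancel_right₀ h0]

theorem theta_class : ∃ k0 : ℝ, 0 ≤ k0 ∧ ∀ (q : ℕ) (χ : DirichletCharacter ℂ q)
    (B : Ideal (𝓞 F)), q ≠ 0 → B ≠ ⊥ → IsCoprime B (Ideal.span {(q : 𝓞 F)}) →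
    ∃ (S0 : Set F) (Q0 Q : ℂ) (u : S0 → ℂ),
      IsTr (EU F) {h : F | h ≠ 0 ∧ h ∈ dualL (idL (Ideal.span {(q : 𝓞 F)} * B))}
        (fun j : S0 => (j : F)) ∧
      ‖Q0‖ ≤ 1 ∧ ‖Q‖ ≤ (q : ℝ) ^ dg F ∧ (∀ j, ‖u j‖ ≤ (q : ℝ) ^ dg F) ∧
      (q = 1 → Q0 = 1 ∧ Q = 1) ∧ ∀ X : ℝ, 0 < X →
        Summable (fun j : S0 => Vk F (4 ^ rr F * Real.exp (1 / 2) * X * (nm B * Nin (j : F)))) ∧
        (k0 : ℂ) * Q0 + ∑' I : {I : Ideal (𝓞 F) // I ≠ ⊥ ∧ (I * B).IsPrincipal},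
            tw χ I.1 * (Vk F (nm I.1 / X) : ℂ) =
          ((X * Real.exp (1 / 4) / ((q : ℝ) ^ dg F * cov (latO F)) : ℝ) : ℂ) * ((k0 : ℂ) * Q +
            ∑' j : S0, u j *
              (Vk F (4 ^ rr F * Real.exp (1 / 2) * X * (nm B * Nin (j : F))) : ℂ)) := by
  obtain ⟨k0, hk0, h⟩ := ua (unitGrp_EU (F := F))
  refine ⟨k0, hk0, fun q χ B hq hB hc => ?_⟩
  obtain ⟨f, f1, f2, f3, f4, f5, f6⟩ := th1_fun χ hc
  obtain ⟨s, s1, s2, s3⟩ := th1_qsum hq hB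
  obtain ⟨ν, n1, n2⟩ := exists_tr hB
  have hq' : Ideal.span {(q : 𝓞 F)} * B ≠ ⊥ :=
    mul_ne_zero (by simpa [Ideal.span_singleton_eq_bot] using hq) hB
  obtain ⟨S0, hS0⟩ := exists_isTr (E := EU F)
    (S := {h : F | h ≠ 0 ∧ h ∈ dualL (idL (Ideal.span {(q : 𝓞 F)} * B))}) (fun h => h.1 rfl)
    fun x hx u => ⟨mul_ne_zero (u : Fˣ).ne_zero hx.1, EU_mul_mem_dual u hx.2⟩
  have hb : ∀ g : F → ℂ, (∀ x, ‖g x‖ ≤ 1) → ‖∑ x ∈ s, g x‖ ≤ (q : ℝ) ^ dg F := fun g hg => by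
    refine (norm_sum_le _ _).trans ((Finset.sum_le_card_nsmul _ _ 1 fun x _ => hg x).trans ?_)
    rw [s1, nsmul_eq_mul, mul_one, Nat.cast_pow]
  have hN : 0 < nm B := one_pos.trans_le (one_le_nm hB)
  refine ⟨S0, f 0, qsum (idL (Ideal.span {(q : 𝓞 F)} * B)) f, fun j => qsum
    (idL (Ideal.span {(q : 𝓞 F)} * B)) (fun x => f x * eT ((j : F) * x)), hS0, f2 0, ?_,
    fun j => ?_, fun h1 => ⟨f5 h1 0 (zero_mem _), ?_⟩, fun X hX => ?_⟩
  · rw [s3 f f1 f3]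
    exact hb f f2
  · have hj : (j : F) ∈ dualL (idL (Ideal.span {(q : 𝓞 F)} * B)) := by
      simpa using (hS0.1 j 1).2
    beta_reduce
    rw [s3 (fun x => f x * eT ((j : F) * x)) (fun x hx => f1 x (left_ne_zero_of_mul hx))
      fun x y hxy => ?_]
    · exact hb _ fun x => by rw [norm_mul, norm_eT, mul_one]; exact f2 x
    · rw [f3 x y hxy, show (j : F) * x = j * y + j * (x - y) by ring, eT_add,
        mem_dualL.1 hj _ hxy, mul_one]
  · rw [s3 f f1 f3, Finset.sum_congr rfl fun x hx => f5 h1 x (s2 x hx), Finset.sum_const, s1, h1,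
      one_pow, one_smul]
  · obtain ⟨-, h2, h3⟩ := h (idL B) _ f _ _ _ (isLat_idL hB) (isLat_idL hq')
      (idL_mono Ideal.mul_le_right) (fun u x hx => EU_mul_mem u hx) f1 f3 f4 n2 (fun x hx => hx)
      (fun x h0 hx => ⟨h0, f1 x hx⟩) hS0 (X * nm B) (mul_pos hX hN)
    have e1 : ∀ j : S0, 4 ^ rr F * Real.exp (1 / 2) * (X * nm B) * Nin (j : F) =
        4 ^ rr F * Real.exp (1 / 2) * X * (nm B * Nin (j : F)) := fun j => by ring
    have e2 : ∀ I, Nin (ν I : F) / (X * nm B) = nm I.1 / X := fun I => by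
      rw [Nin_eq_absNorm, ← n1 I, ← nm, nm_mul, mul_div_mul_right _ _ hN.ne']
    have e3 : X * nm B / cov (idL (Ideal.span {(q : 𝓞 F)} * B)) * Real.exp (1 / 4) =
        X * Real.exp (1 / 4) / ((q : ℝ) ^ dg F * cov (latO F)) := by
      rw [cov_idL hq', nm_mul, nm_span_nat]
      field_simp
    have e4 : ∀ I, f (ν I) = tw χ I.1 := fun I => f6 _ _ I.2.1 (n1 I)
    simp only [e1, e2, e3, e4] at h2 h3
    exact ⟨h2, h3⟩

end Vale.Agent.P016
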