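import Vale.Agent.P016.Th1

/-! The theta identity summed over the classes. -/

namespace Vale.Agent.P016

open Complex NumberField IsDedekindDomain MeasureTheory Filter
open scoped Classical ComplexConjugate nonZeroDivisors
open Vale.Agent.P026 (w)

variable {F : Type} [Field F] [NumberField F] [Om F]

theorem th2_int {q : ℕ} {B : Ideal (𝓞 F)} {h : F}
    (hh : h ∈ dualL (idL (Ideal.span {(q : 𝓞 F)} * B))) {y : 𝓞 F} (hy : y ∈ B) :
    ∃ z : 𝓞 F, (z : F) = (((NumberField.discr F).natAbs * q : ℕ) : F) * h * y := by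
  have h1 : h * (q * y) ∈ dualL (latO F) := by
    intro x hx
    obtain ⟨x, rfl⟩ : ∃ z : 𝓞 F, (z : F) = x := ⟨⟨x, mem_latO.1 hx⟩, rfl⟩
    obtain ⟨k, hk⟩ := hh (((q : 𝓞 F) * (y * x) : 𝓞 F) : F) (coe_mem_idL.2
      (Ideal.mul_mem_mul (Ideal.mem_span_singleton_self _) (Ideal.mul_mem_right _ _ hy)))
    refine ⟨k, ?_⟩
    rw [← hk]
    refine congrArg _ ?_
    simp [mul_assoc]
  have h2 := discr_mul_dual h1
  have h3 : IsIntegral ℤ ((((NumberField.discr F).natAbs * q : ℕ) : F) * h * y) := by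
    rw [Nat.cast_mul, ← Int.cast_natCast (NumberField.discr F).natAbs, Int.natCast_natAbs]
    rcases abs_choice (NumberField.discr F) with e | e
    · rw [e, mul_assoc, mul_assoc, mul_left_comm (q : F)]
      exact h2
    · rw [e, Int.cast_neg, mul_assoc, mul_assoc, mul_left_comm (q : F), neg_mul]
      exact h2.neg
  exact ⟨⟨_, h3⟩, rfl⟩

theorem th2_ideal {q : ℕ} {B : Ideal (𝓞 F)} {h : F}
    (hh : h ∈ dualL (idL (Ideal.span {(q : 𝓞 F)} * B))) : ∃ (J : Ideal (𝓞 F)) (x : 𝓞 F),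
    (x : F) = (((NumberField.discr F).natAbs * q : ℕ) : F) * h * (Ideal.absNorm B : ℕ) ∧
      Ideal.span {x} * B = Ideal.span {((Ideal.absNorm B : ℕ) : 𝓞 F)} * J := by
  obtain ⟨x, hx⟩ := th2_int hh (Ideal.absNorm_mem B)
  have hx' : (x : F) = (((NumberField.discr F).natAbs * q : ℕ) : F) * h * (Ideal.absNorm B : ℕ) := by
    rw [hx]
    simp
  have : Ideal.span {((Ideal.absNorm B : ℕ) : 𝓞 F)} ∣ Ideal.span {x} * B := by
    rw [Ideal.dvd_iff_le, Ideal.span_singleton_mul_le_iff]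
    intro y hy
    obtain ⟨z, hz⟩ := th2_int hh hy
    refine Ideal.mem_span_singleton'.2 ⟨z, RingOfIntegers.ext ?_⟩
    have : (z : F) * (Ideal.absNorm B : ℕ) = (x : F) * (y : F) := by
      rw [hz, hx']
      ring
    simpa using this
  obtain ⟨J, hJ⟩ := this
  exact ⟨J, x, hx', hJ⟩

theorem th2_Cv {σ : ℝ} (hσ : 0 < σ) : 0 ≤ Cv (rr F) σ := by
  have := Real.Gamma_pos_of_pos hσ
  have := Real.pi_pos
  unfold Cv
  positivity

/-- The dual sums are bounded by a sum over integral ideals. -/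
theorem dual_sum {q : ℕ} (hq : q ≠ 0) (B : ClassGroup (𝓞 F) → (Ideal (𝓞 F))⁰)
    (hB : ∀ κ, ClassGroup.mk0 (B κ) = κ) (S0 : ClassGroup (𝓞 F) → Set F)
    (hS : ∀ κ, IsTr (EU F)
      {h : F | h ≠ 0 ∧ h ∈ dualL (idL (Ideal.span {(q : 𝓞 F)} * (B κ : Ideal (𝓞 F))))}
      (fun j : S0 κ => (j : F))) {c : ℝ} (hc : 0 < c) :
    ∑ κ, ∑' j : S0 κ, Vk F (c * (nm (B κ : Ideal (𝓞 F)) * Nin (j : F))) ≤
      Cv (rr F) (dg F + 3) *
        (c / (((NumberField.discr F).natAbs * q : ℕ) : ℝ) ^ dg F) ^ (-((dg F : ℝ) + 3)) * (3 / 2) := by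
  have hmem : ∀ p : Σ κ, S0 κ, (p.2 : F) ≠ 0 ∧
      (p.2 : F) ∈ dualL (idL (Ideal.span {(q : 𝓞 F)} * (B p.1 : Ideal (𝓞 F)))) := fun p => by
    simpa using (hS p.1).1 p.2 1
  choose J x hx hJ using fun p : Σ κ, S0 κ => th2_ideal (hmem p).2
  have hD : (NumberField.discr F).natAbs * q ≠ 0 :=
    mul_ne_zero (Int.natAbs_ne_zero.2 (NumberField.discr_ne_zero F)) hq
  set D := (NumberField.discr F).natAbs * q
  have hB0 : ∀ κ, (B κ : Ideal (𝓞 F)) ≠ ⊥ := fun κ => nonZeroDivisors.coe_ne_zero (B κ)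
  have hm : ∀ κ, Ideal.absNorm (B κ : Ideal (𝓞 F)) ≠ 0 := fun κ =>
    mt Ideal.absNorm_eq_zero_iff.1 (hB0 κ)
  have hx0 : ∀ p, x p ≠ 0 := fun p h => by
    have h1 := hx p
    rw [h] at h1
    exact mul_ne_zero (mul_ne_zero (Nat.cast_ne_zero.2 hD) (hmem p).1) (Nat.cast_ne_zero.2 (hm _))
      (h1.symm.trans (map_zero _))
  have hinj : Function.Injective J := by
    rintro ⟨κ, j⟩ ⟨κ', j'⟩ h
    have h1 := hJ ⟨κ, j⟩
    have h2 := hJ ⟨κ', j'⟩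
    have hk : κ = κ' := by
      rw [← hB κ, ← hB κ', ClassGroup.mk0_eq_mk0_iff]
      refine ⟨_, _, mul_ne_zero (Nat.cast_ne_zero.2 (hm κ')) (hx0 ⟨κ, j⟩),
        mul_ne_zero (Nat.cast_ne_zero.2 (hm κ)) (hx0 ⟨κ', j'⟩), ?_⟩
      rw [← Ideal.span_singleton_mul_span_singleton, ← Ideal.span_singleton_mul_span_singleton,
        mul_assoc, mul_assoc, h1, h2, h, mul_left_comm]
    subst hk
    rw [h, ← h2] at h1
    obtain ⟨v, hv⟩ := Ideal.span_singleton_eq_span_singleton.1 (mul_right_cancel₀ (hB0 κ) h1)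
    let u : EU F := ⟨Units.map (algebraMap (𝓞 F) F).toMonoidHom v, v, rfl⟩
    have h3 : (j' : F) = ((u : Fˣ) : F) * j := by
      have h4 : (x ⟨κ, j⟩ : F) * ((u : Fˣ) : F) = x ⟨κ, j'⟩ := by
        rw [← hv]
        exact (map_mul (algebraMap (𝓞 F) F) _ _).symm
      rw [hx, hx] at h4
      refine mul_left_cancel₀ (mul_ne_zero (Nat.cast_ne_zero.2 hD) (Nat.cast_ne_zero.2 (hm κ))) ?_
      linear_combination -h4
    have h5 := ((hS κ).2 j' (hmem ⟨κ, j'⟩)).unique (y₁ := (j, u)) (y₂ := (j', 1)) h3 (by simp)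
    have h6 : j = j' := (Prod.ext_iff.1 h5).1
    rw [h6]
  have hDp : (0 : ℝ) < (D : ℝ) ^ dg F := by positivity
  have hN : ∀ p, nm (B p.1 : Ideal (𝓞 F)) * Nin (p.2 : F) = nm (J p) / (D : ℝ) ^ dg F := by
    intro p
    have h1 := congrArg nm (hJ p)
    have h2 : nm (Ideal.span {x p}) = Nin (x p : F) := (Nin_eq_absNorm _).symm
    rw [nm_mul, nm_mul, nm_span_nat, h2, hx, Nin_mul, Nin_mul, Nin_natCast, Nin_natCast] at h1
    have h3 : (0 : ℝ) < (Ideal.absNorm (B p.1 : Ideal (𝓞 F)) : ℝ) ^ dg F :=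
      pow_pos (Nat.cast_pos.2 (Nat.pos_of_ne_zero (hm _))) _
    rw [eq_div_iff hDp.ne']
    refine mul_left_cancel₀ h3.ne' ?_
    linear_combination h1
  have hσ : (0 : ℝ) < dg F + 3 := by positivity
  set K := Cv (rr F) (dg F + 3) * (c / (D : ℝ) ^ dg F) ^ (-((dg F : ℝ) + 3)) with hK
  have hK0 : 0 ≤ K := mul_nonneg (th2_Cv hσ) (by positivity)
  have hs := summable_nm (F := F) (σ := dg F + 3) (by linarith)
  have hle : ∀ p : Σ κ, S0 κ, Vk F (c * (nm (B p.1 : Ideal (𝓞 F)) * Nin (p.2 : F))) ≤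
      K * nm (J p) ^ (-((dg F : ℝ) + 3)) := by
    intro p
    have h0 : 0 < nm (B p.1 : Ideal (𝓞 F)) * Nin (p.2 : F) :=
      mul_pos (zero_lt_one.trans_le (one_le_nm (hB0 _))) (Nin_pos (hmem p).1)
    refine (Vk_le hσ (mul_pos hc h0)).trans (le_of_eq ?_)
    rw [hN, mul_div_assoc', mul_div_right_comm, Real.mul_rpow (by positivity) (nm_nonneg _), hK,
      Cv, mul_assoc _ (_ ^ _) (_ ^ _)]
  have hs1 : Summable fun p : Σ κ, S0 κ => K * nm (J p) ^ (-((dg F : ℝ) + 3)) :=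
    (hs.comp_injective hinj).mul_left K
  have hs2 : Summable fun p : Σ κ, S0 κ =>
      Vk F (c * (nm (B p.1 : Ideal (𝓞 F)) * Nin (p.2 : F))) :=
    Summable.of_nonneg_of_le (fun p => Vk_nonneg _) hle hs1
  refine (hs2.tsum_sigma.trans (tsum_fintype _)).symm.trans_le
    ((hs2.tsum_le_tsum hle hs1).trans ?_)
  rw [tsum_mul_left]
  exact mul_le_mul_of_nonneg_left ((tsum_comp_le_tsum_of_inj hs
    (fun I => Real.rpow_nonneg (nm_nonneg I) _) hinj).trans (tsum_nm_le le_rfl)) hK0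

theorem th2_split {q : ℕ} (χ : DirichletCharacter ℂ q) (B : ClassGroup (𝓞 F) → (Ideal (𝓞 F))⁰)
    (hB : ∀ κ, ClassGroup.mk0 (B κ) = κ) {X : ℝ} (hX : 0 < X) :
    sm (tw (F := F) χ) nm (Vk F) X⁻¹ =
      ∑ κ, ∑' I : {I : Ideal (𝓞 F) // I ≠ ⊥ ∧ (I * (B κ : Ideal (𝓞 F))).IsPrincipal},
        tw χ I.1 * (Vk F (nm I.1 / X) : ℂ) := by
  have hσ : (0 : ℝ) < dg F + 2 := by positivity
  set f : Ideal (𝓞 F) → ℂ := fun I => tw χ I * (Vk F (nm I / X) : ℂ) with hf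
  have hf0 : f ⊥ = 0 := by simp only [hf, (cm_tw χ).bot, zero_mul]
  have hs : Summable f := by
    refine Summable.of_norm_bounded ((summable_nm (F := F) le_rfl).mul_left
      (Cv (rr F) (dg F + 2) * X⁻¹ ^ (-((dg F : ℝ) + 2)))) fun I => ?_
    by_cases hI : I = ⊥
    · rw [hI, hf0, norm_zero]
      exact mul_nonneg (mul_nonneg (th2_Cv hσ) (by positivity)) (Real.rpow_nonneg (nm_nonneg _) _)
    have h1 : 0 < nm I := zero_lt_one.trans_le (one_le_nm hI)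
    rw [hf, norm_mul, Complex.norm_real, Real.norm_of_nonneg (Vk_nonneg _)]
    refine (mul_le_of_le_one_left (Vk_nonneg _) ((cm_tw χ).le I)).trans
      ((Vk_le hσ (div_pos h1 hX)).trans (le_of_eq ?_))
    rw [div_eq_inv_mul (nm I), Real.mul_rpow (by positivity) h1.le, Cv, mul_assoc _ (_ ^ _) (_ ^ _)]
  have h1 : ∀ κ, ∑' I : {I : Ideal (𝓞 F) // I ≠ ⊥ ∧ (I * (B κ : Ideal (𝓞 F))).IsPrincipal},
      tw χ I.1 * (Vk F (nm I.1 / X) : ℂ) = ∑' I, Set.indicator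
        {I : Ideal (𝓞 F) | I ≠ ⊥ ∧ (I * (B κ : Ideal (𝓞 F))).IsPrincipal} f I :=
    fun κ => tsum_subtype {I : Ideal (𝓞 F) | I ≠ ⊥ ∧ (I * (B κ : Ideal (𝓞 F))).IsPrincipal} f
  rw [Finset.sum_congr rfl fun κ _ => h1 κ, ← Summable.tsum_finsetSum fun κ _ => hs.indicator _]
  refine tsum_congr fun I => ?_
  change f I = _
  by_cases hI : I = ⊥
  · rw [hI, hf0]
    exact (Finset.sum_eq_zero fun κ _ => Set.indicator_of_notMem (fun h => h.1 rfl) _).symm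
  have hI0 : I ∈ (Ideal (𝓞 F))⁰ := mem_nonZeroDivisors_of_ne_zero hI
  have h2 : ∀ κ, (I * (B κ : Ideal (𝓞 F))).IsPrincipal ↔ κ = (ClassGroup.mk0 ⟨I, hI0⟩)⁻¹ := by
    intro κ
    rw [← ClassGroup.mk0_eq_one_iff (mul_mem hI0 (B κ).2), eq_inv_iff_mul_eq_one, mul_comm κ]
    have : (⟨I * (B κ : Ideal (𝓞 F)), mul_mem hI0 (B κ).2⟩ : (Ideal (𝓞 F))⁰) = ⟨I, hI0⟩ * B κ := rfl
    rw [this, map_mul, hB]
  rw [Finset.sum_eq_single (ClassGroup.mk0 ⟨I, hI0⟩)⁻¹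
    (fun κ _ hκ => Set.indicator_of_notMem (fun h => hκ ((h2 κ).1 h.2)) _)
    (fun h => absurd (Finset.mem_univ _) h), Set.indicator_of_mem]
  exact ⟨hI, (h2 _).2 rfl⟩

theorem theta_all : ∃ κ : ℝ, 0 ≤ κ ∧ ∀ (q : ℕ) (χ : DirichletCharacter ℂ q), q ≠ 0 →
    ∃ (Q0 Q : ℂ) (T : ℝ → ℂ), ‖Q0‖ ≤ κ ∧ ‖Q‖ ≤ κ * (q : ℝ) ^ dg F ∧ (q = 1 → Q0 = κ ∧ Q = κ) ∧
      ∀ X : ℝ, 0 < X →
        ‖T X‖ ≤ (q : ℝ) ^ dg F * (Cv (rr F) (dg F + 3) * (4 ^ rr F * Real.exp (1 / 2) * X /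
          (((NumberField.discr F).natAbs * q : ℕ) : ℝ) ^ dg F) ^ (-((dg F : ℝ) + 3)) * (3 / 2)) ∧
        Q0 + sm (tw (F := F) χ) nm (Vk F) X⁻¹ =
          ((X * Real.exp (1 / 4) / ((q : ℝ) ^ dg F * cov (latO F)) : ℝ) : ℂ) * (Q + T X) := by
  obtain ⟨k0, hk, H⟩ := theta_class (F := F)
  refine ⟨k0 * Fintype.card (ClassGroup (𝓞 F)), by positivity, fun q χ hq => ?_⟩
  choose B hB hc using exists_rep (F := F) hq
  choose S0 Q0 Q u hS h0 h1 hu h2 hX using fun κ =>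
    H q χ (B κ) hq (nonZeroDivisors.coe_ne_zero (B κ)) (hc κ)
  have hn : ∀ (g : ClassGroup (𝓞 F) → ℂ) (A : ℝ), (∀ κ, ‖g κ‖ ≤ A) →
      ‖(k0 : ℂ) * ∑ κ, g κ‖ ≤ k0 * Fintype.card (ClassGroup (𝓞 F)) * A := by
    intro g A hg
    rw [norm_mul, Complex.norm_real, Real.norm_of_nonneg hk, mul_assoc]
    refine mul_le_mul_of_nonneg_left ((norm_sum_le _ _).trans
      ((Finset.sum_le_sum fun κ _ => hg κ).trans (le_of_eq ?_))) hk
    simp
  refine ⟨k0 * ∑ κ, Q0 κ, k0 * ∑ κ, Q κ, fun X => ∑ κ, ∑' j : S0 κ, u κ j *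
    (Vk F (4 ^ rr F * Real.exp (1 / 2) * X * (nm (B κ : Ideal (𝓞 F)) * Nin (j : F))) : ℂ),
    by simpa using hn Q0 1 h0, hn Q _ h1, fun h => ?_, fun X hX0 => ⟨?_, ?_⟩⟩
  · simp [fun κ => (h2 κ h).1, fun κ => (h2 κ h).2]
  · refine (norm_sum_le _ _).trans (le_trans ?_ (mul_le_mul_of_nonneg_left
      (dual_sum hq B hB S0 hS (by positivity)) (by positivity)))
    rw [Finset.mul_sum]
    refine Finset.sum_le_sum fun κ _ => ?_
    refine tsum_of_norm_bounded ((hX κ X hX0).1.hasSum.mul_left _) fun j => ?_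
    rw [norm_mul, Complex.norm_real, Real.norm_of_nonneg (Vk_nonneg _)]
    exact mul_le_mul_of_nonneg_right (hu κ j) (Vk_nonneg _)
  · rw [th2_split χ B hB hX0, Finset.mul_sum, Finset.mul_sum, ← Finset.sum_add_distrib,
      ← Finset.sum_add_distrib, Finset.mul_sum]
    exact Finset.sum_congr rfl fun κ _ => (hX κ X hX0).2

end Vale.Agent.P016
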