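import Vale.Agent.P016.Th2
import Vale.Agent.P016.Cont

/-! Asymptotics of the smoothed ideal counts, uniformly in the field. -/

namespace Vale.Agent.P016

open Complex NumberField IsDedekindDomain MeasureTheory Filter
open scoped Classical ComplexConjugate nonZeroDivisors
open Vale.Agent.P026 (w)

theorem ker_Vk {F : Type} [Field F] [NumberField F] [Om F] : Ker (Vk F) (Vt (rr F)) where
  nonneg t _ := Vk_nonneg t
  cont := continuousOn_Vk
  le σ hσ := ⟨_, fun _ ht => Vk_le hσ ht⟩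
  mel _ hs := mellin_Vk hs

theorem th3_Cv_pos (r : ℕ) {σ : ℝ} (h : 0 < σ) : 0 < Cv r σ := by
  have := Real.Gamma_pos_of_pos h
  have := Real.pi_pos
  unfold Cv
  positivity

theorem th3_Gamma {m : ℕ} {σ : ℝ} (h1 : 1 ≤ σ) (h2 : σ ≤ m + 1) :
    Real.Gamma σ ≤ Real.exp ((m : ℝ) ^ 2) := by
  have h : Real.Gamma σ ≤ max (Real.Gamma 1) (Real.Gamma ((m : ℝ) + 1)) :=
    Real.convexOn_Gamma.le_max_of_mem_Icc (Set.mem_Ioi.2 one_pos)
      (Set.mem_Ioi.2 (by positivity)) ⟨h1, h2⟩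
  rw [Real.Gamma_one, Real.Gamma_nat_eq_factorial] at h
  refine h.trans (max_le (Real.one_le_exp (by positivity)) ?_)
  calc ((m.factorial : ℕ) : ℝ) ≤ (m : ℝ) ^ m := by exact_mod_cast Nat.factorial_le_pow m
    _ ≤ Real.exp m ^ m := by
        gcongr
        linarith [Real.add_one_le_exp (m : ℝ)]
    _ = _ := by rw [← Real.exp_nat_mul, sq]

theorem Cv_le : ∃ C : ℝ, 0 < C ∧ ∀ (n r : ℕ) (σ : ℝ), 1 ≤ n → r ≤ n → 1 ≤ σ → σ ≤ 2 * n + 10 →
    0 < Cv r σ ∧ Cv r σ ≤ Real.exp (C * (n : ℝ) ^ 3) := by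
  refine ⟨180, by norm_num, fun n r σ hn hr h1 h2 => ⟨th3_Cv_pos r (by linarith), ?_⟩⟩
  have hn' : (1 : ℝ) ≤ n := by exact_mod_cast hn
  have hr' : (r : ℝ) ≤ n := by exact_mod_cast hr
  have hG := th3_Gamma (m := 12 * n) h1 (by push_cast; linarith)
  have hp : Real.pi ^ (-σ) ≤ 1 :=
    Real.rpow_le_one_of_one_le_of_nonpos (by linarith [Real.pi_gt_three]) (by linarith)
  have h0 := Real.Gamma_pos_of_pos (s := σ) (by linarith)
  have hp0 := Real.rpow_pos_of_pos Real.pi_pos (-σ)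
  calc Cv r σ ≤ Real.exp (σ ^ 2 / 4) * (1 * Real.exp (((12 * n : ℕ) : ℝ) ^ 2)) ^ r := by
        unfold Cv
        gcongr
    _ = Real.exp (σ ^ 2 / 4 + r * (144 * (n : ℝ) ^ 2)) := by
        rw [one_mul, ← Real.exp_nat_mul, ← Real.exp_add]
        push_cast
        ring_nf
    _ ≤ _ := by
        refine Real.exp_le_exp.2 ?_
        have e1 : σ ^ 2 ≤ (12 * n) ^ 2 := by gcongr; linarith
        have e2 : (n : ℝ) ^ 2 ≤ n ^ 3 := pow_le_pow_right₀ hn' (by norm_num)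
        have e3 : (r : ℝ) * (144 * (n : ℝ) ^ 2) ≤ n * (144 * (n : ℝ) ^ 2) := by gcongr
        nlinarith

section

variable {F : Type} [Field F] [NumberField F] [Om F]

theorem th3_all : ∃ κ : ℝ, 0 ≤ κ ∧ ∀ (q : ℕ) (χ : DirichletCharacter ℂ q), q ≠ 0 →
    ∃ (Q0 Q : ℂ) (T : ℝ → ℂ), (q = 1 → Q0 = κ ∧ Q = κ) ∧ ∀ t : ℝ, 0 < t →
      ‖T t‖ ≤ (q : ℝ) ^ dg F * (Cv (rr F) (dg F + 3) *
        ((((NumberField.discr F).natAbs * q : ℕ) : ℝ) ^ dg F) ^ (dg F + 3) * (3 / 2)) *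
          t ^ (dg F + 3) ∧
      Q0 + sm (tw (F := F) χ) nm (Vk F) t =
        ((Real.exp (1 / 4) / ((q : ℝ) ^ dg F * cov (latO F)) / t : ℝ) : ℂ) * (Q + T t) := by
  obtain ⟨κ, hκ, H⟩ := theta_all (F := F)
  refine ⟨κ, hκ, fun q χ hq => ?_⟩
  obtain ⟨Q0, Q, T, -, -, h1, h2⟩ := H q χ hq
  refine ⟨Q0, Q, fun t => T t⁻¹, h1, fun t ht => ?_⟩
  obtain ⟨h3, h4⟩ := h2 t⁻¹ (inv_pos.2 ht)
  rw [inv_inv] at h4
  refine ⟨h3.trans ?_, h4.trans ?_⟩
  · have hd : 0 < (((NumberField.discr F).natAbs * q : ℕ) : ℝ) ^ dg F := by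
      have := Int.natAbs_pos.2 (NumberField.discr_ne_zero F)
      have := Nat.pos_of_ne_zero hq
      positivity
    generalize (((NumberField.discr F).natAbs * q : ℕ) : ℝ) ^ dg F = D at hd ⊢
    have hC := th3_Cv_pos (rr F) (σ := dg F + 3) (by positivity)
    have h1 : (1 : ℝ) ≤ 4 ^ rr F * Real.exp (1 / 2) :=
      one_le_mul_of_one_le_of_one_le (one_le_pow₀ (by norm_num)) (Real.one_le_exp (by norm_num))
    have : (4 ^ rr F * Real.exp (1 / 2) * t⁻¹ / D) ^ (-((dg F : ℝ) + 3)) ≤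
        D ^ (dg F + 3) * t ^ (dg F + 3) := by
      rw [Real.rpow_neg (by positivity), show (dg F : ℝ) + 3 = ((dg F + 3 : ℕ) : ℝ) by push_cast; ring,
        Real.rpow_natCast, ← inv_pow, ← mul_pow]
      gcongr
      rw [show (4 ^ rr F * Real.exp (1 / 2) * t⁻¹ / D)⁻¹ = D * t / (4 ^ rr F * Real.exp (1 / 2)) by
        field_simp]
      exact div_le_self (by positivity) h1
    calc _ ≤ (q : ℝ) ^ dg F * (Cv (rr F) (dg F + 3) * (D ^ (dg F + 3) * t ^ (dg F + 3)) * (3 / 2)) := by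
          gcongr
      _ = _ := by ring
  · congr 2
    ring

theorem th3_re {t : ℝ} (ht : 0 < t) : Vk F t ≤ (sm (on1 (F := F)) nm (Vk F) t).re := by
  have e : sm (on1 (F := F)) nm (Vk F) t =
      ((∑' I : Ideal (𝓞 F), if I = ⊥ then 0 else Vk F (nm I * t) : ℝ) : ℂ) := by
    rw [sm, ofReal_tsum]
    refine tsum_congr fun I => ?_
    unfold on1
    split_ifs <;> simp
  have h0 : ∀ I : Ideal (𝓞 F), 0 ≤ if I = ⊥ then 0 else Vk F (nm I * t) := fun I => by
    split_ifs; exacts [le_rfl, Vk_nonneg _]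
  have hσ : (0 : ℝ) < dg F + 2 := by positivity
  have hs : Summable fun I : Ideal (𝓞 F) => if I = ⊥ then 0 else Vk F (nm I * t) := by
    refine Summable.of_nonneg_of_le h0 (fun I => ?_)
      ((summable_nm (F := F) le_rfl).mul_left (Cv (rr F) (dg F + 2) * t ^ (-((dg F : ℝ) + 2))))
    have hC := th3_Cv_pos (rr F) hσ
    have := nm_nonneg I
    split_ifs with h
    · positivity
    · have := one_le_nm h
      refine (Vk_le hσ (by positivity)).trans_eq ?_
      rw [Real.mul_rpow (by positivity) ht.le, Cv]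
      ring
  rw [e, ofReal_re]
  have := hs.le_tsum ⊤ fun I _ => h0 I
  simpa [nm_top] using this

theorem th3_big {t : ℝ} (ht : 0 < t) : ‖sm (on1 (F := F)) nm (Vk F) t‖ ≤
    Cv (rr F) (2 * dg F + 10) * (3 / 2) * t ^ (-(2 * (dg F : ℝ) + 10)) := by
  have hle : ∀ I : Ideal (𝓞 F), ‖on1 I‖ * nm I ^ (-((dg F : ℝ) + 3)) ≤ nm I ^ (-((dg F : ℝ) + 3)) :=
    fun I => mul_le_of_le_one_left (Real.rpow_nonneg (nm_nonneg I) _) (cm_on1.le I)
  have s1 := summable_nm (F := F) (σ := dg F + 3) (by linarith)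
  have s2 : Summable fun I : Ideal (𝓞 F) => ‖on1 I‖ * nm I ^ (-((dg F : ℝ) + 3)) :=
    Summable.of_nonneg_of_le
      (fun I => mul_nonneg (norm_nonneg _) (Real.rpow_nonneg (nm_nonneg I) _)) hle s1
  have hn : (0 : ℝ) ≤ dg F := Nat.cast_nonneg _
  have hσ : (0 : ℝ) < 2 * dg F + 10 := by positivity
  have hC := th3_Cv_pos (rr F) hσ
  refine (sm_le ker_Vk (fun I hI => one_le_nm fun h => hI (by simp [on1, h]))
    (σ' := 2 * dg F + 10) (C := Cv (rr F) (2 * dg F + 10)) (by linarith) s2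
    (fun t ht => Vk_le hσ ht) ht).trans ?_
  gcongr
  exact (s2.tsum_le_tsum hle s1).trans (tsum_nm_le le_rfl)

/-- The asymptotic formula with explicit constants. -/
theorem th3_small {A c1 : ℝ} (hA : A = Cv (rr F) (dg F + 3) *
    (((NumberField.discr F).natAbs : ℝ) ^ dg F) ^ (dg F + 3) * (3 / 2))
    (hc1 : c1 = Real.exp (1 / 4) * 2 ^ rr F) :
    ∃ c : ℝ, 0 < c ∧ c ≤ c1 * (A * (2 * c1) ^ (dg F + 3)) ∧ ∀ t : ℝ, 0 < t → t ≤ 1 →
      ‖sm (on1 (F := F)) nm (Vk F) t - (c : ℂ) / t‖ ≤ A * (2 * c1) ^ (dg F + 3) + c1 * A := by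
  obtain ⟨κ, hκ, H⟩ := th3_all (F := F)
  obtain ⟨Q0, Q, T, h1, H⟩ := H 1 1 one_ne_zero
  obtain ⟨rfl, rfl⟩ := h1 rfl
  simp only [tw_one, Nat.cast_one, one_pow, one_mul, mul_one, ← hA] at H
  have hcov := cov_pos (isLat_latO (F := F))
  set c0 := Real.exp (1 / 4) / cov (latO F) with hc0
  have c0p : 0 < c0 := by positivity
  have c01 : c0 ≤ c1 := by
    rw [hc0, hc1, div_eq_mul_inv]
    gcongr
    exact inv_le_of_inv_le₀ (by positivity) cov_latO_ge
  have c1p : 0 < c1 := c0p.trans_le c01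
  have Ap : 0 < A := by
    have hC := th3_Cv_pos (rr F) (σ := dg F + 3) (by positivity)
    have := Int.natAbs_pos.2 (NumberField.discr_ne_zero F)
    rw [hA]
    positivity
  have hT : ∀ t : ℝ, 0 < t → t ≤ 1 → ‖((c0 / t : ℝ) : ℂ) * T t‖ ≤ c1 * A * t := fun t ht h1 => by
    rw [norm_mul, norm_real, Real.norm_of_nonneg (by positivity)]
    calc c0 / t * ‖T t‖ ≤ c1 / t * (A * t ^ (dg F + 3)) := by gcongr; exact (H t ht).1
      _ = c1 * A * t * t ^ (dg F + 1) := by field_simp; ring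
      _ ≤ c1 * A * t * 1 := by gcongr; exact pow_le_one₀ ht.le h1
      _ = _ := mul_one _
  have hk : κ ≤ A * (2 * c1) ^ (dg F + 3) := by
    have t0 : 0 < 2 * c1 := by positivity
    obtain ⟨h2, h3⟩ := H _ t0
    have h4 := congrArg re h3
    rw [re_ofReal_mul, add_re, add_re, ofReal_re] at h4
    have h5 := (Vk_nonneg _).trans (th3_re (F := F) t0)
    have h6 := (re_le_norm _).trans h2
    have h7 : c0 / (2 * c1) ≤ 1 / 2 := by
      rw [div_le_iff₀ t0]
      linarith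
    have h8 : c0 / (2 * c1) * (κ + (T (2 * c1)).re) ≤ 1 / 2 * (κ + A * (2 * c1) ^ (dg F + 3)) :=
      calc _ ≤ c0 / (2 * c1) * (κ + A * (2 * c1) ^ (dg F + 3)) := by gcongr
        _ ≤ _ := by gcongr
    linarith
  have kp : 0 < κ := by
    refine hκ.lt_of_ne' fun h0 => ?_
    subst h0
    have v1 := Vk_pos (F := F) one_pos
    set t := min 1 (Vk F 1 / (2 * (c1 * A)))
    have t0 : 0 < t := lt_min one_pos (by positivity)
    have t1 : t ≤ 1 := min_le_left _ _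
    have t2 : t * (2 * (c1 * A)) ≤ Vk F 1 := (le_div_iff₀ (by positivity)).1 (min_le_right _ _)
    have h2 := (H t t0).2
    simp only [ofReal_zero, zero_add] at h2
    have h3 := hT t t0 t1
    rw [← h2] at h3
    have h4 := (Vk_antitoneOn (F := F) t0 (Set.mem_Ioi.2 one_pos) t1).trans
      ((th3_re t0).trans ((re_le_norm _).trans h3))
    linarith
  refine ⟨c0 * κ, by positivity, by gcongr, fun t ht h1 => ?_⟩
  have e : sm (on1 (F := F)) nm (Vk F) t - ((c0 * κ : ℝ) : ℂ) / t =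
      -(κ : ℂ) + ((c0 / t : ℝ) : ℂ) * T t := by
    have := (H t ht).2
    push_cast at this ⊢
    linear_combination this
  rw [e]
  refine (norm_add_le _ _).trans (add_le_add ?_ ((hT t ht h1).trans ?_))
  · rwa [norm_neg, norm_real, Real.norm_of_nonneg hκ]
  · exact mul_le_of_le_one_right (by positivity) h1

end

theorem zeta_small : ∃ C : ℝ, 0 < C ∧ ∀ (F : Type) [Field F] [NumberField F] [Om F],
    ∃ c : ℝ, 0 < c ∧ c ≤ Real.exp (C * sz F ^ 3) ∧
      (∀ t : ℝ, 0 < t → t ≤ 1 →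
        ‖sm (on1 (F := F)) nm (Vk F) t - (c : ℂ) / t‖ ≤ Real.exp (C * sz F ^ 3)) ∧
      ∀ t : ℝ, 1 ≤ t → ‖sm (on1 (F := F)) nm (Vk F) t‖ ≤
        Real.exp (C * sz F ^ 3) * t ^ (-(2 * (dg F : ℝ) + 10)) := by
  obtain ⟨C, hC, HC⟩ := Cv_le
  refine ⟨C + 19, by positivity, fun F _ _ _ => ?_⟩
  obtain ⟨c, hc, h1, h2⟩ := th3_small (F := F) rfl rfl
  have hn := dg_le_sz (F := F)
  have hs := one_le_sz (F := F)
  have hd := log_discr_le_sz (F := F)
  have hn1 := one_le_dg (F := F)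
  have hr : rr F ≤ dg F := by have := two_mul_rr (F := F); omega
  have hr' : (rr F : ℝ) ≤ dg F := by exact_mod_cast hr
  have hn0 : (0 : ℝ) ≤ dg F := Nat.cast_nonneg _
  have dp : (0 : ℝ) < (NumberField.discr F).natAbs := by
    exact_mod_cast Int.natAbs_pos.2 (NumberField.discr_ne_zero F)
  have d0 : 0 ≤ Real.log (NumberField.discr F).natAbs := Real.log_natCast_nonneg _
  set s := sz F
  have s2 : s ^ 2 ≤ s ^ 3 := pow_le_pow_right₀ hs (by norm_num)
  have s1 : s ≤ s ^ 3 := le_self_pow₀ hs (by norm_num)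
  have two : (2 : ℝ) ≤ Real.exp 1 := by linarith [Real.add_one_le_exp (1 : ℝ)]
  have two' : (2 : ℝ) ≤ Real.exp (s ^ 3) := two.trans (Real.exp_le_exp.2 (by linarith))
  have b0 : ∀ σ : ℝ, 1 ≤ σ → σ ≤ 2 * dg F + 10 → Cv (rr F) σ ≤ Real.exp (C * s ^ 3) :=
    fun σ a b => (HC _ _ σ hn1 hr a b).2.trans (by gcongr)
  have b1 : (((NumberField.discr F).natAbs : ℝ) ^ dg F) ^ (dg F + 3) ≤ Real.exp (4 * s ^ 3) := by
    rw [← Real.exp_log dp, ← Real.exp_nat_mul, ← Real.exp_nat_mul]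
    refine Real.exp_le_exp.2 ?_
    push_cast
    calc _ ≤ (4 * s) * (s * s) := by gcongr; linarith
      _ = _ := by ring
  have b2 : Real.exp (1 / 4) * 2 ^ rr F ≤ Real.exp (2 * s) := by
    calc _ ≤ Real.exp (1 / 4) * Real.exp 1 ^ rr F := by gcongr
      _ ≤ _ := by
        rw [← Real.exp_nat_mul, ← Real.exp_add]
        exact Real.exp_le_exp.2 (by linarith)
  have b3 : (2 * (Real.exp (1 / 4) * 2 ^ rr F)) ^ (dg F + 3) ≤ Real.exp (12 * s ^ 3) := by
    calc _ ≤ (Real.exp 1 * Real.exp (2 * s)) ^ (dg F + 3) := by gcongr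
      _ ≤ _ := by
        rw [← Real.exp_add, ← Real.exp_nat_mul]
        refine Real.exp_le_exp.2 ?_
        push_cast
        calc _ ≤ (4 * s) * (3 * s) := by gcongr <;> linarith
          _ ≤ _ := by nlinarith
  have b2' : Real.exp (1 / 4) * 2 ^ rr F ≤ Real.exp (2 * s ^ 3) :=
    b2.trans (Real.exp_le_exp.2 (by linarith))
  have b4 : Cv (rr F) (dg F + 3) * (((NumberField.discr F).natAbs : ℝ) ^ dg F) ^ (dg F + 3) *
      (3 / 2) ≤ Real.exp ((C + 5) * s ^ 3) := by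
    calc _ ≤ Real.exp (C * s ^ 3) * Real.exp (4 * s ^ 3) * Real.exp (s ^ 3) := by
          gcongr
          · exact b0 _ (by linarith) (by linarith)
          · linarith
      _ = _ := by
          rw [← Real.exp_add, ← Real.exp_add]
          ring_nf
  have p0 := th3_Cv_pos (rr F) (σ := dg F + 3) (by positivity)
  generalize hA : Cv (rr F) (dg F + 3) *
    (((NumberField.discr F).natAbs : ℝ) ^ dg F) ^ (dg F + 3) * (3 / 2) = A at h1 h2 b4
  have A0 : 0 ≤ A := by rw [← hA]; positivity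
  have s0 : 0 ≤ s ^ 3 := by positivity
  have b5 : A * (2 * (Real.exp (1 / 4) * 2 ^ rr F)) ^ (dg F + 3) ≤ Real.exp ((C + 17) * s ^ 3) := by
    calc _ ≤ Real.exp ((C + 5) * s ^ 3) * Real.exp (12 * s ^ 3) := by gcongr
      _ = _ := by
          rw [← Real.exp_add]
          ring_nf
  refine ⟨c, hc, h1.trans ?_, fun t ht t1 => (h2 t ht t1).trans ?_, fun t ht => ?_⟩
  · calc _ ≤ Real.exp (2 * s ^ 3) * Real.exp ((C + 17) * s ^ 3) := by gcongr
      _ = _ := by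
          rw [← Real.exp_add]
          ring_nf
  · have : Real.exp (1 / 4) * 2 ^ rr F * A ≤ Real.exp ((C + 17) * s ^ 3) :=
      calc _ ≤ Real.exp (2 * s ^ 3) * Real.exp ((C + 5) * s ^ 3) := by gcongr
        _ ≤ _ := by
          rw [← Real.exp_add]
          exact Real.exp_le_exp.2 (by nlinarith)
    calc _ ≤ 2 * Real.exp ((C + 17) * s ^ 3) := by linarith
      _ ≤ Real.exp (s ^ 3) * Real.exp ((C + 17) * s ^ 3) := by gcongr
      _ ≤ _ := by
          rw [← Real.exp_add]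
          exact Real.exp_le_exp.2 (by nlinarith)
  · refine (th3_big (by linarith)).trans ?_
    gcongr
    calc _ ≤ Real.exp (C * s ^ 3) * Real.exp (s ^ 3) := by
          gcongr
          · exact b0 _ (by linarith) le_rfl
          · linarith
      _ ≤ _ := by
          rw [← Real.exp_add]
          exact Real.exp_le_exp.2 (by nlinarith)

theorem L_small {F : Type} [Field F] [NumberField F] [Om F] {q : ℕ} (hq : q ≠ 0)
    (χ : DirichletCharacter ℂ q) : ∃ (c : ℂ) (B : ℝ), ∀ t : ℝ, 0 < t → t ≤ 1 →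
      ‖sm (tw (F := F) χ) nm (Vk F) t - c / t‖ ≤ B := by
  obtain ⟨κ, -, H⟩ := th3_all (F := F)
  obtain ⟨Q0, Q, T, -, H⟩ := H q χ hq
  have hcov := cov_pos (isLat_latO (F := F))
  have hq' := Nat.pos_of_ne_zero hq
  have p0 := th3_Cv_pos (rr F) (σ := dg F + 3) (by positivity)
  have c0p : 0 < Real.exp (1 / 4) / ((q : ℝ) ^ dg F * cov (latO F)) := by positivity
  have Ap : 0 ≤ (q : ℝ) ^ dg F * (Cv (rr F) (dg F + 3) *
    ((((NumberField.discr F).natAbs * q : ℕ) : ℝ) ^ dg F) ^ (dg F + 3) * (3 / 2)) := by positivity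
  generalize Real.exp (1 / 4) / ((q : ℝ) ^ dg F * cov (latO F)) = c0 at H c0p
  generalize (q : ℝ) ^ dg F * (Cv (rr F) (dg F + 3) *
    ((((NumberField.discr F).natAbs * q : ℕ) : ℝ) ^ dg F) ^ (dg F + 3) * (3 / 2)) = A at H Ap
  refine ⟨c0 * Q, ‖Q0‖ + c0 * A, fun t ht h1 => ?_⟩
  have e : sm (tw (F := F) χ) nm (Vk F) t - c0 * Q / t = -Q0 + ((c0 / t : ℝ) : ℂ) * T t := by
    have := (H t ht).2
    push_cast at this ⊢
    linear_combination this
  rw [e]
  refine (norm_add_le _ _).trans (add_le_add (norm_neg _).le ?_)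
  rw [norm_mul, norm_real, Real.norm_of_nonneg (by positivity)]
  calc c0 / t * ‖T t‖ ≤ c0 / t * (A * t ^ (dg F + 3)) := by gcongr; exact (H t ht).1
    _ = c0 * A * t ^ (dg F + 2) := by field_simp; ring
    _ ≤ c0 * A * 1 := by gcongr; exact pow_le_one₀ ht.le h1
    _ = _ := mul_one _

end Vale.Agent.P016
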