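import Vale.Agent.P016.Th3
import Vale.Agent.P016.Cnt
import Vale.Agent.P026.MelA

/-! Continuation of the zeta function with a uniform growth bound. -/

namespace Vale.Agent.P016

open Complex NumberField IsDedekindDomain MeasureTheory Filter
open scoped Classical ComplexConjugate nonZeroDivisors
open Vale.Agent.P026 (w)

theorem inv_Gamma_le : ∃ C : ℝ, 1 ≤ C ∧ ∀ s : ℂ, 1 / 2 ≤ s.re →
    ‖(Gamma s)⁻¹‖ ≤ C * Real.exp (Real.pi * |s.im|) := by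
  obtain ⟨C, C0, hC⟩ := P026.melA_inv_Gamma 2
  have key : ∀ m : ℕ, ∀ s : ℂ, 1 / 2 ≤ s.re → s.re ≤ 2 + m →
      ‖(Gamma s)⁻¹‖ ≤ C * Real.exp (Real.pi * |s.im|) := by
    intro m
    induction m with
    | zero => exact fun s h1 h2 => hC s (abs_le.2 ⟨by linarith, by simpa using h2⟩)
    | succ m ih =>
      intro s h1 h2
      rcases le_or_gt s.re 2 with h | h
      · exact hC s (abs_le.2 ⟨by linarith, h⟩)
      have h3 : (s - 1).re = s.re - 1 := by simp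
      have h4 : 1 ≤ ‖s - 1‖ := le_trans (by linarith) (re_le_norm (s - 1))
      have h5 : s - 1 ≠ 0 := norm_pos_iff.1 (by linarith)
      have h6 := ih (s - 1) (by linarith) (by push_cast at h2; linarith)
      have e : Gamma s = (s - 1) * Gamma (s - 1) := by
        rw [← Gamma_add_one _ h5, sub_add_cancel]
      rw [e, mul_inv, norm_mul, norm_inv]
      simp only [sub_im, one_im, sub_zero] at h6
      exact le_trans (mul_le_of_le_one_left (norm_nonneg _) (inv_le_one_of_one_le₀ h4)) h6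
  refine ⟨C + 1, by linarith, fun s hs => ?_⟩
  obtain ⟨m, hm⟩ := exists_nat_ge s.re
  exact (key m s hs (by linarith)).trans
    (mul_le_mul_of_nonneg_right (by linarith) (Real.exp_pos _).le)

theorem Vt_ne_zero (r : ℕ) {s : ℂ} (hs : 0 < s.re) : Vt r s ≠ 0 := by
  refine mul_ne_zero (pow_ne_zero _ (mul_ne_zero ?_ (Gamma_ne_zero_of_re_pos hs)))
    (mul_ne_zero (ofReal_ne_zero.2 (Real.sqrt_pos.2 Real.pi_pos).ne') (Complex.exp_ne_zero _))
  rw [Ne, cpow_eq_zero_iff, not_and_or]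
  exact Or.inl (ofReal_ne_zero.2 Real.pi_pos.ne')

theorem zc_inv (r : ℕ) (s : ℂ) : (Vt r s)⁻¹ = ((Real.pi : ℂ) ^ s * (Gamma s)⁻¹) ^ r *
    (((√Real.pi : ℝ) : ℂ)⁻¹ * cexp (-(s ^ 2 / 4))) := by
  rw [Vt, wm, mul_inv, mul_inv, ← inv_pow, mul_inv, cpow_neg, inv_inv, Complex.exp_neg]

theorem differentiable_inv_Vt (r : ℕ) : Differentiable ℂ fun s => (Vt r s)⁻¹ := by
  simp only [zc_inv]
  exact fun s => (((differentiableAt_id.const_cpow (Or.inl (ofReal_ne_zero.2 Real.pi_pos.ne'))).mul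
    (differentiable_one_div_Gamma s)).pow _).mul (by fun_prop)

theorem inv_Vt_le : ∃ C : ℝ, 0 < C ∧ ∀ (n r : ℕ) (s : ℂ), 1 ≤ n → r ≤ n → 1 / 2 ≤ s.re →
    s.re ≤ 2 * n + 10 → ‖(Vt r s)⁻¹‖ ≤ Real.exp (C * (n : ℝ) ^ 2 * (1 + |s.im|) ^ 2) := by
  obtain ⟨G, G1, hG⟩ := inv_Gamma_le
  have hp := Real.pi_gt_three
  have hp' := Real.pi_le_four
  refine ⟨G + 40, by linarith, fun n r s n1 rn h0 h2 => ?_⟩
  have n1' : (1 : ℝ) ≤ n := by exact_mod_cast n1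
  have rn' : (r : ℝ) ≤ n := by exact_mod_cast rn
  obtain ⟨t, ht⟩ : ∃ t, t = |s.im| := ⟨_, rfl⟩
  have t0 : 0 ≤ t := ht ▸ abs_nonneg _
  have a1 : ‖(Real.pi : ℂ) ^ s * (Gamma s)⁻¹‖ ≤ Real.exp (36 * n + G + 4 * t) := by
    rw [norm_mul, norm_cpow_eq_rpow_re_of_pos Real.pi_pos, add_assoc, Real.exp_add, Real.exp_add]
    refine mul_le_mul ?_ ((hG s h0).trans ?_) (norm_nonneg _) (Real.exp_pos _).le
    · rw [Real.rpow_def_of_pos Real.pi_pos]
      have b1 := Real.log_le_sub_one_of_pos Real.pi_pos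
      exact Real.exp_le_exp.2 (by nlinarith)
    · rw [← ht]
      have b1 : G ≤ Real.exp G := by linarith [Real.add_one_le_exp G]
      gcongr
  have a2 : ‖((√Real.pi : ℝ) : ℂ)⁻¹ * cexp (-(s ^ 2 / 4))‖ ≤ Real.exp (t ^ 2) := by
    rw [norm_mul, norm_inv, norm_real, Real.norm_of_nonneg (Real.sqrt_nonneg _), norm_exp]
    refine (mul_le_of_le_one_left (by positivity)
      (inv_le_one_of_one_le₀ (Real.one_le_sqrt.2 (by linarith)))).trans (Real.exp_le_exp.2 ?_)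
    have : (-(s ^ 2 / 4)).re = (s.im ^ 2 - s.re ^ 2) / 4 := by
      simp [sq]
      ring
    rw [this, ht, sq_abs]
    nlinarith [sq_nonneg s.re, sq_nonneg s.im]
  rw [zc_inv, norm_mul, norm_pow, ← ht]
  refine (mul_le_mul (pow_le_pow_left₀ (norm_nonneg _) a1 r) a2 (norm_nonneg _)
    (by positivity)).trans ?_
  rw [← Real.exp_nat_mul, ← Real.exp_add]
  refine Real.exp_le_exp.2 ?_
  have b1 : r * (36 * n + G + 4 * t) ≤ n * (36 * n + G + 4 * t) :=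
    mul_le_mul_of_nonneg_right rn' (by positivity)
  have b2 : (n : ℝ) ≤ n ^ 2 := by nlinarith
  have b3 : n * G ≤ n ^ 2 * G := mul_le_mul_of_nonneg_right b2 (by linarith)
  have b4 : n * t ≤ n ^ 2 * t := mul_le_mul_of_nonneg_right b2 t0
  have b5 : 1 * t ^ 2 ≤ n ^ 2 * t ^ 2 := mul_le_mul_of_nonneg_right (by linarith) (sq_nonneg t)
  have b6 : 0 ≤ G * (n ^ 2 * t) := by positivity
  have b7 : 0 ≤ G * (n ^ 2 * t ^ 2) := by positivity
  have b8 : 0 ≤ (n : ℝ) ^ 2 * t := by positivity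
  nlinarith [sq_nonneg t]

section

variable {F : Type} [Field F] [NumberField F] {f : Ideal (𝓞 F) → ℂ}

theorem zc_one (hf : CM f) (I : Ideal (𝓞 F)) (h : f I ≠ 0) : 1 ≤ nm I :=
  one_le_nm fun k => h (k ▸ hf.bot)

theorem zc_sum (hf : CM f) : Summable fun I => ‖f I‖ * nm I ^ (-((dg F : ℝ) + 3)) :=
  Summable.of_nonneg_of_le (fun I => mul_nonneg (norm_nonneg _) (Real.rpow_nonneg (nm_nonneg I) _))
    (fun I => mul_le_of_le_one_left (Real.rpow_nonneg (nm_nonneg I) _) (hf.le I))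
    (summable_nm (by linarith))

variable [Om F]

theorem zc_cont (hf : CM f) : ContinuousOn (sm f nm (Vk F)) (Set.Ioi 0) :=
  sm_cont ker_Vk (zc_one hf) (by positivity) (zc_sum hf)

theorem zc_eq (hf : CM f) (c : ℂ) {s : ℂ} (hs : (dg F : ℝ) + 3 ≤ s.re) :
    GM (sm f nm (Vk F)) c s * (Vt (rr F) s)⁻¹ = (s - 1) * zf f s := by
  have n0 : (0 : ℝ) ≤ dg F := Nat.cast_nonneg _
  rw [GM_eq c (sm_mellin ker_Vk (zc_one hf) (by positivity) (zc_sum hf) hs) (by linarith),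
    mul_assoc, mul_inv_cancel_right₀ (Vt_ne_zero _ (by linarith)), zf]

end

theorem exists_Z : ∃ C : ℝ, 0 < C ∧ ∀ (F : Type) [Field F] [NumberField F] [Om F],
    ∃ Z : ℂ → ℂ, (∀ s : ℂ, 0 < s.re → s.re < 2 * dg F + 10 → DifferentiableAt ℂ Z s) ∧ Z 1 ≠ 0 ∧
      (∀ s : ℂ, (dg F : ℝ) + 3 ≤ s.re → s.re < 2 * dg F + 10 →
        Z s = (s - 1) * zf (on1 (F := F)) s) ∧
      ∀ s : ℂ, 1 / 2 ≤ s.re → s.re ≤ 2 * dg F + 9 →
        ‖Z s‖ ≤ Real.exp (C * sz F ^ 3 * (1 + |s.im|) ^ 2) := by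
  obtain ⟨C1, hC1, h1⟩ := zeta_small
  obtain ⟨C2, hC2, h2⟩ := inv_Vt_le
  refine ⟨C1 + C2 + 33, by positivity, fun F _ _ _ => ?_⟩
  obtain ⟨c, c0, c1, a1, a2⟩ := h1 F
  refine ⟨fun s => GM (sm (on1 (F := F)) nm (Vk F)) c s * (Vt (rr F) s)⁻¹, fun s s0 s1 => ?_, ?_,
    fun s hs _ => zc_eq cm_on1 c hs, fun s s0 s1 => ?_⟩
  · refine (GM_diff (θ := 0) (B := Real.exp (C1 * sz F ^ 3)) (zc_cont cm_on1) (fun t t0 t1 => ?_)
      a2 s0 s1).mul (differentiable_inv_Vt _ s)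
    rw [neg_zero, Real.rpow_zero, mul_one]
    exact a1 t t0 t1
  · dsimp only
    rw [GM_one]
    exact mul_ne_zero (ofReal_ne_zero.2 c0.ne') (inv_ne_zero (Vt_ne_zero _ (by simp)))
  have r2 := two_mul_rr (F := F)
  have b1 := GM_bound (zc_cont cm_on1) a1 a2 s0 (by linarith)
  have b2 := h2 (dg F) (rr F) s one_le_dg (by omega) s0 (by linarith)
  have n1 : (1 : ℝ) ≤ dg F := by exact_mod_cast one_le_dg (F := F)
  have n2 := dg_le_sz (F := F)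
  obtain ⟨t, ht⟩ : ∃ t, t = |s.im| := ⟨_, rfl⟩
  have t0 : 0 ≤ t := ht ▸ abs_nonneg _
  have b3 : ‖s - 1‖ ≤ 11 * sz F + t := by
    refine (norm_le_abs_re_add_abs_im _).trans ?_
    rw [sub_im, one_im, sub_zero, ← ht, sub_re, one_re]
    exact add_le_add (abs_le.2 ⟨by linarith, by linarith⟩) le_rfl
  obtain ⟨z, hz⟩ : ∃ z, z = sz F := ⟨_, rfl⟩
  rw [← hz] at n2 b1 b3 c1 ⊢
  rw [← ht] at b2 ⊢
  rw [norm_real, Real.norm_of_nonneg c0.le] at b1
  have z1 : 1 ≤ z := n1.trans n2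
  have b4 : c + 3 * Real.exp (C1 * z ^ 3) * ‖s - 1‖ ≤
      Real.exp (C1 * z ^ 3 + 3 * (11 * z + t)) := by
    have d1 := Real.add_one_le_exp (3 * (11 * z + t))
    have d2 := Real.exp_pos (C1 * z ^ 3)
    rw [Real.exp_add]
    nlinarith
  dsimp only
  rw [norm_mul]
  refine (mul_le_mul (b1.trans b4) b2 (norm_nonneg _) (Real.exp_pos _).le).trans ?_
  rw [← Real.exp_add]
  refine Real.exp_le_exp.2 ?_
  have T1 : 1 ≤ (1 + t) ^ 2 := one_le_pow₀ (by linarith)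
  have T2 : 1 + t ≤ (1 + t) ^ 2 := by nlinarith
  have z2 : z ≤ z ^ 3 := le_self_pow₀ z1 (by norm_num)
  have z3 : (dg F : ℝ) ^ 2 ≤ z ^ 3 :=
    (pow_le_pow_left₀ (by linarith) n2 2).trans (pow_le_pow_right₀ z1 (by norm_num))
  have d1 : C1 * z ^ 3 ≤ C1 * z ^ 3 * (1 + t) ^ 2 := le_mul_of_one_le_right (by positivity) T1
  have d2 : C2 * (dg F : ℝ) ^ 2 * (1 + t) ^ 2 ≤ C2 * z ^ 3 * (1 + t) ^ 2 := by gcongr
  have d3 : z * (1 + t) ≤ z ^ 3 * (1 + t) ^ 2 := by gcongr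
  have d4 : t ≤ z * t := le_mul_of_one_le_left t0 z1
  nlinarith

theorem exists_Y {F : Type} [Field F] [NumberField F] [Om F] {q : ℕ} (hq : q ≠ 0)
    (χ : DirichletCharacter ℂ q) : ∃ Y : ℂ → ℂ, (∀ s : ℂ, 0 < s.re → DifferentiableAt ℂ Y s) ∧
      ∀ s : ℂ, (dg F : ℝ) + 3 ≤ s.re → Y s = (s - 1) * zf (tw (F := F) χ) s := by
  obtain ⟨c, B, h⟩ := L_small (F := F) hq χ
  refine ⟨fun s => GM (sm (tw (F := F) χ) nm (Vk F)) c s * (Vt (rr F) s)⁻¹, fun s s0 => ?_,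
    fun s hs => zc_eq (cm_tw χ) c hs⟩
  obtain ⟨C, hC⟩ := (ker_Vk (F := F)).le (s.re + (dg F + 3)) (by positivity)
  refine (GM_diff (θ := 0) (B := B) (zc_cont (cm_tw χ)) (fun t t0 t1 => ?_)
    (fun t ht => sm_le ker_Vk (zc_one (cm_tw χ)) (by linarith) (zc_sum (cm_tw χ)) hC
      (zero_lt_one.trans_le ht)) s0 (lt_add_of_pos_right _ (by positivity))).mul
    (differentiable_inv_Vt _ s)
  rw [neg_zero, Real.rpow_zero, mul_one]
  exact h t t0 t1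

end Vale.Agent.P016
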