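import Vale.Agent.P016.Defs

/-! Dirichlet series over the ideals of a number field. -/

namespace Vale.Agent.P016

open Complex NumberField IsDedekindDomain MeasureTheory Filter
open scoped Classical ComplexConjugate nonZeroDivisors
open Vale.Agent.P026 (w)

noncomputable section

section Ideals

variable {F : Type} [Field F] [NumberField F]

/-- The absolute norm as a real number. -/
def nm (I : Ideal (𝓞 F)) : ℝ := (Ideal.absNorm I : ℝ)

/-- Completely multiplicative functions on ideals, bounded by one. -/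
structure CM (f : Ideal (𝓞 F) → ℂ) : Prop where
  bot : f ⊥ = 0
  top : f ⊤ = 1
  mul : ∀ I J, f (I * J) = f I * f J
  le : ∀ I, ‖f I‖ ≤ 1

/-- The Dirichlet series of f. -/
def zf (f : Ideal (𝓞 F) → ℂ) (s : ℂ) : ℂ := ∑' I : Ideal (𝓞 F), f I * (nm I : ℂ) ^ (-s)

/-- Nonzero prime ideals. -/
abbrev PP (F : Type) [Field F] : Type := HeightOneSpectrum (𝓞 F)

/-- The series over prime powers, minus the logarithmic derivative of zf f. -/
def lf (f : Ideal (𝓞 F) → ℂ) (s : ℂ) : ℂ :=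
  ∑' x : PP F × ℕ, f x.1.asIdeal ^ (x.2 + 1) * (Real.log (nm x.1.asIdeal) : ℂ) *
    ((nm x.1.asIdeal ^ (x.2 + 1) : ℝ) : ℂ) ^ (-s)

/-- Indicator of the nonzero ideals. -/
def on1 (I : Ideal (𝓞 F)) : ℂ := if I = ⊥ then 0 else 1

/-- A Dirichlet character composed with the norm. -/
def tw {q : ℕ} (χ : DirichletCharacter ℂ q) (I : Ideal (𝓞 F)) : ℂ :=
  if I = ⊥ then 0 else χ ((Ideal.absNorm I : ℕ) : ZMod q)

/-- Indicator of the nonzero ideals coprime to M. -/
def cpM (M : ℕ) (I : Ideal (𝓞 F)) : ℂ :=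
  if I ≠ ⊥ ∧ IsCoprime I (Ideal.span {(M : 𝓞 F)}) then 1 else 0

variable (F) in
/-- The smoothed Chebyshev function. -/
def Psi (x : ℝ) : ℝ :=
  ∑' y : PP F × ℕ, Real.log (nm y.1.asIdeal) * w (nm y.1.asIdeal ^ (y.2 + 1) / x)

variable (F) in
/-- The size of a number field. -/
def sz : ℝ := dg F + Real.log (NumberField.discr F).natAbs + 1

variable (F) in
/-- The units of the ring of integers inside the multiplicative group of the field. -/
def EU : Subgroup Fˣ := (Units.map (algebraMap (𝓞 F) F).toMonoidHom).range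

/-- An ideal as an additive subgroup of the field. -/
def idL (I : Ideal (𝓞 F)) : AddSubgroup F :=
  I.toAddSubgroup.map (algebraMap (𝓞 F) F).toAddMonoidHom

end Ideals

/-- The contribution of all powers of one prime. -/
def ell (N : ℝ) (z : ℂ) : ℂ := (Real.log N : ℂ) * (z / (1 - z))

/-- The nontrivial character modulo three. -/
def ch3 : DirichletCharacter ℂ 3 := (quadraticChar (ZMod 3)).ringHomComp (Int.castRingHom ℂ)

/-- A smoothed sum as a function of the reciprocal length. -/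
def sm {ι : Type} (a : ι → ℂ) (N : ι → ℝ) (V : ℝ → ℝ) (t : ℝ) : ℂ := ∑' i, a i * (V (N i * t) : ℂ)

/-- The Mellin transform with the pole at one removed. -/
def GM (S : ℝ → ℂ) (c : ℂ) (s : ℂ) : ℂ :=
  (s - 1) * mellin (fun t : ℝ => S t - Set.indicator (Set.Ioc 0 1) (fun t : ℝ => c / t) t) s + c

/-- Admissible kernels with their Mellin transforms. -/
structure Ker (V : ℝ → ℝ) (Vm : ℂ → ℂ) : Prop where
  nonneg : ∀ t, 0 < t → 0 ≤ V t
  cont : ContinuousOn V (Set.Ioi 0)
  le : ∀ σ : ℝ, 0 < σ → ∃ C : ℝ, ∀ t, 0 < t → V t ≤ C * t ^ (-σ)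
  mel : ∀ s : ℂ, 0 < s.re → HasMellin (fun t : ℝ => (V t : ℂ)) s (Vm s)

/-- The Mellin transform of w. -/
def wm (s : ℂ) : ℂ := (√Real.pi : ℝ) * cexp (s ^ 2 / 4)

/-- The Mellin transform of Vk. -/
def Vt (r : ℕ) (s : ℂ) : ℂ := ((Real.pi : ℂ) ^ (-s) * Gamma s) ^ r * wm s

/-- The constant in the bound for Vk. -/
def Cv (r : ℕ) (σ : ℝ) : ℝ := Real.exp (σ ^ 2 / 4) * (Real.pi ^ (-σ) * Real.Gamma σ) ^ r

/-- The reciprocal of the zeta function without finitely many Euler factors is holomorphic in a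
fixed half plane, for every number field that contains a primitive cube root of unity. -/
def Mob : Prop :=
  ∀ (F : Type) [Field F] [NumberField F] (ω : F), ω ^ 2 + ω + 1 = 0 →
    ∃ (M : ℕ) (D : ℂ → ℂ), M ≠ 0 ∧ 3 ∣ M ∧
      (∀ s : ℂ, 383 / 384 < s.re → DifferentiableAt ℂ D s) ∧
      ∀ s : ℂ, (dg F : ℝ) + 3 ≤ s.re → D s * zf (F := F) (cpM M) s = 1

/-- The prime ideal theorem with power saving, uniformly in the field. -/
def Pit : Prop :=
  ∃ θ C : ℝ, 0 < θ ∧ θ < 1 ∧ 0 < C ∧ ∀ (F : Type) [Field F] [NumberField F] [Om F] (x : ℝ),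
    1 ≤ x → |Psi F x - √Real.pi * Real.exp (1 / 4) * x| ≤ C * sz F ^ 6 * x ^ θ

end

end Vale.Agent.P016
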