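import Vale.Agent.P016.Spl
import Vale.Agent.P016.ZC

/-! The zero free half plane for every totally complex field. -/

namespace Vale.Agent.P016

open Complex NumberField IsDedekindDomain MeasureTheory Filter
open scoped Classical ComplexConjugate nonZeroDivisors
open Vale.Agent.P026 (w)

theorem zf_dg_eq {K L : Type} [Field K] [NumberField K] [Field L] [NumberField L] [Algebra K L]
    (h2 : Module.finrank K L = 2) : dg L = 2 * dg K := by
  have := Module.finrank_mul_finrank ℚ K L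
  rw [h2] at this
  unfold dg
  omega

open Polynomial in
/-- The extension by a cube root of unity. -/
theorem exists_ext (K : Type) [Field K] [NumberField K] (h : ∀ x : K, x ^ 2 + x + 1 ≠ 0) :
    ∃ (L : Type) (_ : Field L) (_ : NumberField L) (_ : Algebra K L) (ω : L),
      Module.finrank K L = 2 ∧ dg L = 2 * dg K ∧ ω ^ 2 + ω + 1 = 0 ∧
      ω ∉ Set.range (algebraMap K L) := by
  set f : K[X] := X ^ 2 + X + 1 with hf
  have hd : f.natDegree = 2 := by rw [hf]; compute_degree!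
  have hf0 : f ≠ 0 := fun e => by rw [e] at hd; simp at hd
  have hirr : Irreducible f := by
    rw [irreducible_iff_roots_eq_zero_of_degree_le_three (by omega) (by omega),
      Multiset.eq_zero_iff_forall_notMem]
    intro x hx
    rw [mem_roots hf0, IsRoot.def, hf] at hx
    exact h x (by simpa using hx)
  have : Fact (Irreducible f) := ⟨hirr⟩
  have hfin : Module.Finite K (AdjoinRoot f) := (AdjoinRoot.powerBasis hf0).finite
  have hnf : NumberField (AdjoinRoot f) := NumberField.of_module_finite K _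
  have h2 : Module.finrank K (AdjoinRoot f) = 2 := by
    rw [(AdjoinRoot.powerBasis hf0).finrank, AdjoinRoot.powerBasis_dim, hd]
  have hω : (AdjoinRoot.root f) ^ 2 + AdjoinRoot.root f + 1 = 0 := by
    have e : aeval (AdjoinRoot.root f) (X ^ 2 + X + 1 : K[X]) = 0 :=
      (AdjoinRoot.aeval_eq (f := f) f).trans AdjoinRoot.mk_self
    simpa only [map_add, map_pow, aeval_X, map_one] using e
  refine ⟨AdjoinRoot f, inferInstance, hnf, inferInstance, AdjoinRoot.root f, h2, zf_dg_eq h2,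
    hω, ?_⟩
  rintro ⟨x, hx⟩
  refine h x ((algebraMap K (AdjoinRoot f)).injective ?_)
  rw [map_add, map_add, map_pow, map_one, map_zero, hx, hω]

theorem zf_ident {a b c : ℝ} (hab : a ≤ b) (hbc : b < c) {G Z : ℂ → ℂ} (k : ℕ)
    (hG : ∀ s : ℂ, a < s.re → s.re < c → DifferentiableAt ℂ G s)
    (hZ : ∀ s : ℂ, a < s.re → s.re < c → DifferentiableAt ℂ Z s)
    (he : ∀ s : ℂ, b < s.re → s.re < c → G s * Z s = (s - 1) ^ k) {s : ℂ} (hs : a < s.re)
    (hs' : s.re < c) (h1 : s ≠ 1) : Z s ≠ 0 := by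
  have hopen : ∀ a : ℝ, IsOpen ({s : ℂ | a < s.re} ∩ {s : ℂ | s.re < c}) := fun a =>
    (isOpen_lt continuous_const continuous_re).inter (isOpen_lt continuous_re continuous_const)
  have hconv : Convex ℝ ({s : ℂ | a < s.re} ∩ {s : ℂ | s.re < c}) :=
    (convex_halfSpace_re_gt a).inter (convex_halfSpace_re_lt c)
  have h1a : AnalyticOnNhd ℂ (fun s => G s * Z s) ({s : ℂ | a < s.re} ∩ {s : ℂ | s.re < c}) :=
    DifferentiableOn.analyticOnNhd
      (fun s hs => ((hG s hs.1 hs.2).fun_mul (hZ s hs.1 hs.2)).differentiableWithinAt) (hopen a)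
  have h2a : AnalyticOnNhd ℂ (fun s : ℂ => (s - 1) ^ k)
      ({s : ℂ | a < s.re} ∩ {s : ℂ | s.re < c}) :=
    DifferentiableOn.analyticOnNhd
      (fun s _ => ((differentiableAt_id.sub_const 1).pow k).differentiableWithinAt) (hopen a)
  have h0 : (((b + c) / 2 : ℝ) : ℂ) ∈ {s : ℂ | b < s.re} ∩ {s : ℂ | s.re < c} := by
    constructor <;> simp only [Set.mem_ofPred_eq, ofReal_re] <;> linarith
  have h0' : (((b + c) / 2 : ℝ) : ℂ) ∈ {s : ℂ | a < s.re} ∩ {s : ℂ | s.re < c} := by
    constructor <;> simp only [Set.mem_ofPred_eq, ofReal_re] <;> linarith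
  have h := h1a.eqOn_of_preconnected_of_eventuallyEq h2a hconv.isPreconnected h0'
    (Filter.eventually_of_mem ((hopen b).mem_nhds h0) fun s hs => he s hs.1 hs.2) ⟨hs, hs'⟩
  intro e
  simp only [e, mul_zero] at h
  exact pow_ne_zero k (sub_ne_zero.2 h1) h.symm

theorem zfree (h : Mob) (F : Type) [Field F] [NumberField F] [Om F] {Z : ℂ → ℂ}
    (hd : ∀ s : ℂ, 0 < s.re → s.re < 2 * dg F + 10 → DifferentiableAt ℂ Z s) (h1 : Z 1 ≠ 0)
    (he : ∀ s : ℂ, (dg F : ℝ) + 3 ≤ s.re → s.re < 2 * dg F + 10 →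
      Z s = (s - 1) * zf (on1 (F := F)) s) {s : ℂ} (hs : 383 / 384 < s.re)
    (hs' : s.re < 2 * dg F + 10) : Z s ≠ 0 := by
  rcases eq_or_ne s 1 with rfl | hs1
  · exact h1
  have hn : (0 : ℝ) ≤ dg F := Nat.cast_nonneg _
  by_cases hω : ∃ ω : F, ω ^ 2 + ω + 1 = 0
  · obtain ⟨ω, hω⟩ := hω
    obtain ⟨M, D, hM, -, hD, hDe⟩ := h F ω hω
    obtain ⟨E, hE, hEe⟩ := euler (cm_on1 (F := F)) hM
    rw [cpM_mul_on1] at hEe
    refine zf_ident (a := 383 / 384) (b := (dg F : ℝ) + 3) (c := 2 * dg F + 10)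
      (G := fun s => D s * E s) (by linarith) (by linarith) 1
      (fun s hs _ => (hD s hs).fun_mul (hE s)) (fun s hs hs' => hd s (by linarith) hs')
      (fun s hs hs' => ?_) hs hs' hs1
    have e := hDe s hs.le
    rw [hEe s hs] at e
    rw [he s hs.le hs']
    linear_combination (s - 1) * e
  · obtain ⟨L, _, _, _, ω, h2, hdg, hω', hK⟩ := exists_ext F (fun x hx => hω ⟨x, hx⟩)
    obtain ⟨M, D, hM, h3, hD, hDe⟩ := h L ω hω'
    obtain ⟨E1, hE1, hE1e⟩ := euler (cm_on1 (F := F)) hM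
    rw [cpM_mul_on1] at hE1e
    obtain ⟨E2, hE2, hE2e⟩ := euler (cm_tw (F := F) ch3) hM
    obtain ⟨c, hc⟩ := split_zf h2 hω' hK h3
    obtain ⟨Y, hY, hYe⟩ := exists_Y (F := F) (q := 3) (by norm_num) ch3
    have hdg' : (dg L : ℝ) = 2 * dg F := by exact_mod_cast hdg
    rw [hdg'] at hDe hc
    refine zf_ident (a := 383 / 384) (b := 2 * (dg F : ℝ) + 3) (c := 2 * dg F + 10)
      (G := fun s => c * (D s * (E1 s * (E2 s * Y s)))) (by linarith) (by linarith) 2
      (fun s hs _ => (((hD s hs).fun_mul ((hE1 s).fun_mul ((hE2 s).fun_mul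
        (hY s (by linarith))))).const_mul c)) (fun s hs hs' => hd s (by linarith) hs')
      (fun s hs hs' => ?_) hs hs' hs1
    have e := hDe s hs.le
    rw [hc s hs, hE1e s (by linarith), hE2e s (by linarith)] at e
    rw [he s (by linarith) hs', hYe s (by linarith)]
    linear_combination (s - 1) ^ 2 * e

end Vale.Agent.P016
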